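import Vale.Agent.P073.H579.Ins

/-!
# P073, H212: **(RND)** the abstract round lemma: edges → faces → cells

Data: a locally finite cell structure (`CellCx`) with edges `s e` and vertices `N`, a conical
homeomorphism `h`, an insertion map `κ`. On a set `W` of faces the maps are given. For the edges
which are in no face of `W`, and for the faces which are not in `W`, we assume that good maps exist
(with given boundary values in the case of faces). Then there is a conical homeomorphism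
`g : Ω → Λ'` which is equal to the given maps on the faces of `W` and to good maps on the others.
-/

open Set Metric Topology Filter

namespace P073.H212

open P073.H579

variable {E : Type*} [NormedAddCommGroup E] [NormedSpace ℝ E]
variable {J K ε : Type*} {Ω : Set E} {q S : J → Set E} {F : K → Set E} {Λ Λ' : Set (Fin 3 → ℝ)}
  {κ : (Fin 3 → ℝ) → Fin 3 → ℝ}

/-- edges `s e` and vertices `N` of a family of faces -/
structure EdgeCx (F : K → Set E) (s : ε → Set E) (N : Set E) : Prop where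
  con : ∀ e, ConicalSet (s e)
  meet : ∀ e e', e ≠ e' → s e ∩ s e' ⊆ N
  inter : ∀ k l, k ≠ l → ∃ T : Set ε, (∀ e ∈ T, s e ⊆ F k ∩ F l) ∧
    F k ∩ F l ⊆ (⋃ e ∈ T, s e) ∪ N
  vert : ∀ x ∈ N, ∀ k, x ∈ F k → ∃ e, s e ⊆ F k ∧ x ∈ s e

/-- **(RND)** -/
theorem exists_round {s : ε → Set E} {N : Set E} (hC : CellCx Ω q S F) (hE : EdgeCx F s N)
    (h : ConHomeo Ω Λ) (hκ : InsMap κ Λ' Λ)
    (hN : ∀ x ∈ N, (Pre κ Λ' h {x}).Subsingleton)
    (GE : ε → (E → Fin 3 → ℝ) → Prop) (GF : K → (E → Fin 3 → ℝ) → Prop)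
    (W : Set K) (ΦW : ∀ k ∈ W, ConHomeo (F k) (Pre κ Λ' h (F k)))
    (hWag : ∀ k (hk : k ∈ W) l (hl : l ∈ W), EqOn (ΦW k hk).toFun (ΦW l hl).toFun (F k ∩ F l))
    (hWe : ∀ k (hk : k ∈ W) e, s e ⊆ F k → (ΦW k hk).toFun '' s e = Pre κ Λ' h (s e))
    (hWN : ∀ k (hk : k ∈ W), ∀ x ∈ N, x ∈ F k → κ ((ΦW k hk).toFun x) = h.toFun x)
    (hWG : ∀ k (hk : k ∈ W) e, s e ⊆ F k → (∃ l, l ∉ W ∧ s e ⊆ F l) → GE e (ΦW k hk).toFun)
    (hedge : ∀ e, (∀ k ∈ W, ¬ s e ⊆ F k) → (∃ k, s e ⊆ F k) →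
      ∃ Φ : ConHomeo (s e) (Pre κ Λ' h (s e)), GE e Φ.toFun ∧
        ∀ x ∈ s e, x ∈ N → κ (Φ.toFun x) = h.toFun x)
    (hface : ∀ k, k ∉ W → ∀ Φe : ∀ e, s e ⊆ F k → ConHomeo (s e) (Pre κ Λ' h (s e)),
      (∀ e he, GE e (Φe e he).toFun) →
      (∀ e he e' he', EqOn (Φe e he).toFun (Φe e' he').toFun (s e ∩ s e')) →
      (∀ e he, ∀ x ∈ s e, x ∈ N → κ ((Φe e he).toFun x) = h.toFun x) →
      ∃ Φ : ConHomeo (F k) (Pre κ Λ' h (F k)), GF k Φ.toFun ∧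
        ∀ e he, EqOn Φ.toFun (Φe e he).toFun (s e)) :
    ∃ g : ConHomeo Ω Λ',
      (∀ k (hk : k ∈ W), EqOn g.toFun (ΦW k hk).toFun (F k)) ∧
      (∀ k, k ∉ W → ∃ Φ : ConHomeo (F k) (Pre κ Λ' h (F k)), GF k Φ.toFun ∧
        EqOn g.toFun Φ.toFun (F k)) ∧
      (∀ k l, l ∉ W → ∀ e, s e ⊆ F k → s e ⊆ F l → ∃ f : E → Fin 3 → ℝ, GE e f ∧
        EqOn g.toFun f (s e)) ∧
      (∀ e k, s e ⊆ F k → g.toFun '' s e = Pre κ Λ' h (s e)) ∧
      (∀ x ∈ N, ∀ k, x ∈ F k → κ (g.toFun x) = h.toFun x) ∧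
      (∀ k, g.toFun '' F k = Pre κ Λ' h (F k)) ∧
      ∀ j, g.toFun '' q j = Pre κ Λ' h (q j) := by
  classical
  -- the edge maps
  have hedge' : ∀ e, (∃ k, s e ⊆ F k) → ∃ Φ : ConHomeo (s e) (Pre κ Λ' h (s e)),
      ((∃ l, l ∉ W ∧ s e ⊆ F l) → GE e Φ.toFun) ∧
      (∀ k (hk : k ∈ W), s e ⊆ F k → EqOn Φ.toFun (ΦW k hk).toFun (s e)) ∧
      ∀ x ∈ s e, x ∈ N → κ (Φ.toFun x) = h.toFun x := by
    intro e he
    by_cases hW : ∃ k ∈ W, s e ⊆ F k
    · obtain ⟨k, hk, hek⟩ := hW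
      refine ⟨((ΦW k hk).restr (hE.con e) hek).cast rfl (hWe k hk e hek),
        fun hl => hWG k hk e hek hl, fun l hl hel x hx => hWag k hk l hl ⟨hek hx, hel hx⟩,
        fun x hx hxN => hWN k hk x hxN (hek hx)⟩
    · push Not at hW
      obtain ⟨Φ, h1, h2⟩ := hedge e hW he
      exact ⟨Φ, fun _ => h1, fun k hk hek => absurd hek (hW k hk), h2⟩
  choose! Φe h1 h2 h3 using hedge'
  -- agreement of the edge maps
  have hpt : ∀ e e' (he : ∃ k, s e ⊆ F k) (he' : ∃ k, s e' ⊆ F k),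
      ∀ x ∈ s e, x ∈ s e' → x ∈ N → (Φe e he).toFun x = (Φe e' he').toFun x := by
    intro e e' he he' x hx hx' hxN
    refine hN x hxN ⟨?_, ?_⟩ ⟨?_, ?_⟩
    · exact ((Φe e he).mapsTo hx).1
    · exact ⟨x, rfl, (h3 e he x hx hxN).symm⟩
    · exact ((Φe e' he').mapsTo hx').1
    · exact ⟨x, rfl, (h3 e' he' x hx' hxN).symm⟩
  have hage : ∀ e e' (he : ∃ k, s e ⊆ F k) (he' : ∃ k, s e' ⊆ F k),
      EqOn (Φe e he).toFun (Φe e' he').toFun (s e ∩ s e') := by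
    intro e e' he he' x hx
    by_cases hee : e = e'
    · subst hee; rfl
    · exact hpt e e' he he' x hx.1 hx.2 (hE.meet e e' hee hx)
  -- the face maps
  have hfm : ∀ k, ∃ Φ : ConHomeo (F k) (Pre κ Λ' h (F k)),
      (∀ hk : k ∈ W, EqOn Φ.toFun (ΦW k hk).toFun (F k)) ∧ (k ∉ W → GF k Φ.toFun) ∧
      ∀ e (he : s e ⊆ F k), EqOn Φ.toFun (Φe e ⟨k, he⟩).toFun (s e) := by
    intro k
    by_cases hk : k ∈ W
    · exact ⟨ΦW k hk, fun _ _ _ => rfl, fun h => absurd hk h,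
        fun e he x hx => (h2 e ⟨k, he⟩ k hk he hx).symm⟩
    · obtain ⟨Φ, h4, h5⟩ := hface k hk (fun e he => Φe e ⟨k, he⟩)
        (fun e he => h1 e ⟨k, he⟩ ⟨k, hk, he⟩)
        (fun e he e' he' => hage e e' ⟨k, he⟩ ⟨k, he'⟩)
        (fun e he x hx hxN => h3 e ⟨k, he⟩ x hx hxN)
      exact ⟨Φ, fun h => absurd h hk, fun _ => h4, h5⟩
  choose Φf h4 h5 h6 using hfm
  -- values at the vertices
  have hvert : ∀ k, ∀ x ∈ N, x ∈ F k → κ ((Φf k).toFun x) = h.toFun x := by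
    intro k x hxN hxk
    obtain ⟨e, he, hxe⟩ := hE.vert x hxN k hxk
    rw [h6 k e he hxe]
    exact h3 e ⟨k, he⟩ x hxe hxN
  have hvv : ∀ k l, ∀ x ∈ N, x ∈ F k → x ∈ F l → (Φf k).toFun x = (Φf l).toFun x := by
    intro k l x hxN hxk hxl
    refine hN x hxN ⟨?_, ?_⟩ ⟨?_, ?_⟩
    · exact ((Φf k).mapsTo hxk).1
    · exact ⟨x, rfl, (hvert k x hxN hxk).symm⟩
    · exact ((Φf l).mapsTo hxl).1
    · exact ⟨x, rfl, (hvert l x hxN hxl).symm⟩
  have himge : ∀ e k, s e ⊆ F k → (Φf k).toFun '' s e = Pre κ Λ' h (s e) := by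
    intro e k he
    rw [(h6 k e he).image_eq, (Φe e ⟨k, he⟩).image_eq]
  obtain ⟨g, hg1, hg2⟩ := exists_insert hC h hκ Φf
    (by
      intro k l x hx
      by_cases hkl : k = l
      · subst hkl; rfl
      obtain ⟨T, hT, hsub⟩ := hE.inter k l hkl
      rcases hsub hx with hx' | hx'
      · obtain ⟨e, he, hxe⟩ := mem_iUnion₂.1 hx'
        have hek : s e ⊆ F k := (hT e he).trans inter_subset_left
        have hel : s e ⊆ F l := (hT e he).trans inter_subset_right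
        rw [h6 k e hek hxe, h6 l e hel hxe]
      · exact hvv k l x hx' hx.1 hx.2)
    (by
      intro k l y hy
      by_cases hkl : k = l
      · subst hkl
        rw [inter_self] at hy ⊢
        rwa [(Φf k).image_eq]
      obtain ⟨T, hT, hsub⟩ := hE.inter k l hkl
      obtain ⟨hy1, x, hx, hxy⟩ := hy
      rcases hsub hx with hx' | hx'
      · obtain ⟨e, he, hxe⟩ := mem_iUnion₂.1 hx'
        have hek : s e ⊆ F k := (hT e he).trans inter_subset_left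
        have hy2 : y ∈ Pre κ Λ' h (s e) := ⟨hy1, x, hxe, hxy⟩
        rw [← himge e k hek] at hy2
        exact image_mono (hT e he) hy2
      · refine ⟨x, hx, ?_⟩
        refine hN x hx' ⟨((Φf k).mapsTo hx.1).1, x, rfl, (hvert k x hx' hx.1).symm⟩
          ⟨hy1, x, rfl, hxy⟩)
  refine ⟨g, fun k hk x hx => ?_, fun k hk => ⟨Φf k, h5 k hk, hg1 k⟩, ?_, ?_, ?_, ?_, hg2⟩
  · rw [hg1 k hx, h4 k hk hx]
  · intro k l hl e hek hel
    refine ⟨(Φe e ⟨k, hek⟩).toFun, h1 e ⟨k, hek⟩ ⟨l, hl, hel⟩, fun x hx => ?_⟩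
    rw [hg1 k (hek hx), h6 k e hek hx]
  · intro e k hek
    rw [← himge e k hek]
    exact image_congr fun x hx => hg1 k (hek hx)
  · intro x hxN k hxk
    rw [hg1 k hxk]
    exact hvert k x hxN hxk
  · intro k
    rw [(hg1 k).image_eq, (Φf k).image_eq]

end P073.H212
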