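import Vale.Agent.P073.H926.Num3B
import Vale.Agent.P073.H429.THBox

/-!
# P073, H212: the parameter of the thin bands of the tubes

`muT`: `muT e * (ebe e - eal e) = n / 1024 * uT e`; it pays the windows of half width
`131072 * ω` if `4096 * δ ≤ n * δ3 n` (`win_muT`).
-/

set_option linter.unusedSectionVars false

open Set Metric Topology Filter

namespace Vale.Agent.P073.H212.K3

open _root_.P073 _root_.P073.Net _root_.P073.PA691 _root_.P073.H236
open _root_.P073.H429
open Vale.Agent.P073.St (V)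
open Vale.Agent.P073.H471 Vale.Agent.P073.H267
open Vale.Agent.P073.H73 (Mesh)
open Vale.Agent.P073.H926

section len

variable {Λ : Set V} {v : V} {K : BoxCx Λ v} {S : Rad K} {W : Wid K S} {B : Boxes W}
  {G : Geo B}

/-- the width of a box of round T is smaller than the window of the tube -/
theorem uT_le_len (G : Geo B) (e : K.G) : 256 * G.uT e ≤ ebe W e - eal W e := by
  have hne : K.a e ≠ K.b e := by
    intro h
    have := K.ab_dir e
    rw [h] at this
    exact lt_irrefl _ this
  have h1 := vdist S hne (l := K.dir e) fun k hk => K.ab_off e k hk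
  have h2 := K.ab_dir e
  rw [abs_of_neg (by linarith)] at h1
  have h3 := W.wv_le (K.a e)
  have h4 := W.wv_le (K.b e)
  have h5 := S.r_pos (K.a e)
  have h6 := S.r_pos (K.b e)
  have h7 := G.uT_lam e
  have h8 := G.lam_a e
  have h9 := G.be_wv (K.a e)
  have h10 := W.wv_pos (K.b e)
  have h11 := W.wv_pos (K.a e)
  unfold ebe eal
  linarith

end len

variable {c₀ n δ : ℝ} {j : ℕ} {Ω Λ : Set V} {v w : V} {ρ : V → ℝ} {M : Mesh Ω} {h : ConHomeo Ω Λ}
  {J₀ J : Set (ℕ × (Fin 3 → ℤ))} {P Z : Set M.ι} {K : BoxCx Λ w}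

/-- **the parameter of the thin bands of the tube `e`** -/
noncomputable def muT (D : KIn3 c₀ n j δ v w ρ M h J₀ J P Z) (C : Cells ρ w K) (e : K.G) : ℝ :=
  n / 1024 * ((D.G C).uT e / (ebe (D.W C) e - eal (D.W C) e))

section

variable (D : KIn3 c₀ n j δ v w ρ M h J₀ J P Z) (C : Cells ρ w K) (e : K.G)

theorem muT_pos : 0 < muT D C e := by
  have h1 := eal_lt_ebe (D.W C) e
  have h2 := (D.G C).uT_pos e
  have h3 := D.pos
  unfold muT
  have : 0 < ebe (D.W C) e - eal (D.W C) e := by linarith
  positivity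

theorem muT_len : muT D C e * (ebe (D.W C) e - eal (D.W C) e) = n / 1024 * (D.G C).uT e := by
  have h1 := eal_lt_ebe (D.W C) e
  have h2 : ebe (D.W C) e - eal (D.W C) e ≠ 0 := by linarith
  unfold muT
  field_simp

theorem muT_le : muT D C e ≤ n / 1024 := by
  have h1 := eal_lt_ebe (D.W C) e
  have h2 := uT_le_len (D.G C) e
  have h3 := (D.G C).uT_pos e
  have h4 := D.pos
  have h5 : 0 < ebe (D.W C) e - eal (D.W C) e := by linarith
  unfold muT
  refine mul_le_of_le_one_right (by positivity) ?_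
  rw [div_le_one h5]
  linarith

/-- **the windows are paid by `muT`** -/
theorem win_muT (hδn : 4096 * δ ≤ n * δ3 n) {s : K.S} (hes : K.edge e ⊆ K.sq s) :
    32 * (131072 * ω3S δ C s) ≤
      muT D C e / 32 * (ebe (D.W C) e - eal (D.W C) e) := by
  have h0 := δ3_eq (n := n)
  have h1 := C.sS_pos s
  have h2 : (16777216 : ℝ) * ω3S δ C s ≤ n * (D.G C).oS s := by
    show 16777216 * (4 * δ * C.sS s) ≤ n * (4 * o3 n * C.sS s)
    have h3 : 4096 * (4096 * δ) ≤ n * o3 n := by
      have := mul_le_mul_of_nonneg_left hδn (by norm_num : (0:ℝ) ≤ 4096)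
      have e1 : 4096 * (n * δ3 n) = n * (4096 * δ3 n) := by ring
      rw [e1, h0] at this
      exact this
    have h4 := mul_le_mul_of_nonneg_right h3 (by positivity : (0:ℝ) ≤ 4 * C.sS s)
    nlinarith
  have h3 := (D.G C).oS_τ s
  have h4 := (D.G C).τ_p s
  have h5 := (D.G C).p_uT s e hes
  have h6 : 32000 * (D.G C).oS s ≤ (D.G C).uT e := by linarith
  have h7 := muT_len D C e
  have h8 : muT D C e / 32 * (ebe (D.W C) e - eal (D.W C) e) = n / 32768 * (D.G C).uT e := by
    have : muT D C e / 32 * (ebe (D.W C) e - eal (D.W C) e) =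
      muT D C e * (ebe (D.W C) e - eal (D.W C) e) / 32 := by ring
    rw [this, h7]; ring
  rw [h8]
  have h9 := mul_le_mul_of_nonneg_left h6 D.pos.le
  have h10 := (D.G C).uT_pos e
  have h11 : 0 ≤ n * (D.G C).uT e := mul_nonneg D.pos.le h10.le
  nlinarith

end

end Vale.Agent.P073.H212.K3
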