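import Vale.Agent.P073.ConicalBody
import Vale.Agent.P073.ConGlue

/-!
# P073, H212: replacing a conical homeomorphism in a locally finite family of disjoint compact sets
-/

open Set Metric Topology Filter

namespace P073.H212

variable {E F : Type*} [NormedAddCommGroup E] [NormedSpace ℝ E]
  [NormedAddCommGroup F] [NormedSpace ℝ F]

/-- a union which is locally finite in an open set is locally a cone at the points of this set -/
theorem locConeAt_iUnion {γ : Type*} {Ω : Set E} {W : γ → Set E} (hW : ∀ c, LocCone (W c))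
    (hfin : ∀ z ∈ Ω, ∃ O ∈ 𝓝 z, {c | (W c ∩ O).Nonempty}.Finite) {x : E} (hx : x ∈ Ω) :
    LocConeAt (⋃ c, W c) x := by
  obtain ⟨O, hO, hf⟩ := hfin x hx
  have : Finite {c | (W c ∩ O).Nonempty} := hf
  have h1 : LocConeAt (⋃ c : {c | (W c ∩ O).Nonempty}, W c) x :=
    LocConeAt.iUnion_finite fun c => hW c x
  refine (locConeAt_congr ?_).1 h1
  filter_upwards [hO] with y hy
  constructor
  · intro h
    obtain ⟨c, hc⟩ := mem_iUnion.1 h
    exact mem_iUnion.2 ⟨c, hc⟩
  · intro h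
    obtain ⟨c, hc⟩ := mem_iUnion.1 h
    exact mem_iUnion.2 ⟨⟨c, y, hc, hy⟩, hc⟩

/-- **Replacement.** `h : Ω → Λ` is replaced on the compact sets `U c` with disjoint interiors
(locally finite in the open set `Ω`) by `g c : U c → h (U c)`, `g c = h` on the frontier of
`U c`. -/
theorem exists_replace {γ : Type*} {Ω : Set E} {Λ : Set F} (hΩ : IsOpen Ω) (hΛ : IsOpen Λ)
    (h : ConHomeo Ω Λ) {U : γ → Set E} (hU : ∀ c, IsCompact (U c)) (hUΩ : ∀ c, U c ⊆ Ω)
    (hLC : ∀ c, LocCone (U c))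
    (hfin : ∀ z ∈ Ω, ∃ O ∈ 𝓝 z, {c | (U c ∩ O).Nonempty}.Finite)
    (hdis : ∀ c d, c ≠ d → Disjoint (interior (U c)) (U d))
    (g : ∀ c, ConHomeo (U c) (h.toFun '' U c))
    (hg : ∀ c, EqOn (g c).toFun h.toFun (frontier (U c))) :
    ∃ h' : ConHomeo Ω Λ, (∀ c, EqOn h'.toFun (g c).toFun (U c)) ∧
      (∀ c, EqOn h'.invFun (g c).invFun (h.toFun '' U c)) ∧
      EqOn h'.toFun h.toFun (Ω \ ⋃ c, interior (U c)) ∧
      EqOn h'.invFun h.invFun (Λ \ ⋃ c, h.toFun '' interior (U c)) := by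
  classical
  set W : Set E := ⋃ c, interior (U c) with hWdef
  have hWo : IsOpen W := isOpen_iUnion fun c => isOpen_interior
  have hfin' : ∀ z ∈ Ω, ∃ O ∈ 𝓝 z, {c | (interior (U c) ∩ O).Nonempty}.Finite := by
    intro z hz
    obtain ⟨O, hO, hf⟩ := hfin z hz
    exact ⟨O, hO, hf.subset fun c hc => hc.mono (inter_subset_inter_left _ interior_subset)⟩
  have hXc : ConicalSet (Ω \ W) := by
    intro x hx
    have h1 : LocConeAt W x := locConeAt_iUnion (fun c => (hLC c).interior) hfin' hx.1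
    have h2 : LocConeAt Ω x := locConeAt_of_mem_nhds (hΩ.mem_nhds hx.1)
    exact (h2.inter h1.compl).conicalSetAt hx
  have hYo : ∀ c, IsOpen (h.toFun '' interior (U c)) := by
    intro c
    have e : h.toFun '' interior (U c) = Λ ∩ h.invFun ⁻¹' interior (U c) := by
      ext y
      constructor
      · rintro ⟨x, hx, rfl⟩
        have hxΩ := hUΩ c (interior_subset hx)
        exact ⟨h.mapsTo hxΩ, by rw [mem_preimage, h.left_inv hxΩ]; exact hx⟩
      · rintro ⟨hy, hy2⟩
        exact ⟨h.invFun y, hy2, h.right_inv hy⟩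
    rw [e]
    exact h.cont_inv.isOpen_inter_preimage hΛ isOpen_interior
  let X : Option γ → Set E := fun o => o.elim (Ω \ W) U
  let Y : Option γ → Set F := fun o =>
    o.elim (Λ \ ⋃ c, h.toFun '' interior (U c)) fun c => h.toFun '' U c
  have hUX : ⋃ o, X o = Ω := by
    apply Subset.antisymm
    · refine iUnion_subset fun o => ?_
      cases o with
      | none => exact sdiff_subset
      | some c => exact hUΩ c
    · intro x hx
      by_cases hW : x ∈ W
      · obtain ⟨c, hc⟩ := mem_iUnion.1 hW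
        exact mem_iUnion.2 ⟨some c, interior_subset hc⟩
      · exact mem_iUnion.2 ⟨none, hx, hW⟩
  have hUY : ⋃ o, Y o = Λ := by
    apply Subset.antisymm
    · refine iUnion_subset fun o => ?_
      cases o with
      | none => exact sdiff_subset
      | some c =>
        rintro _ ⟨x, hx, rfl⟩
        exact h.mapsTo (hUΩ c hx)
    · intro y hy
      by_cases hW : y ∈ ⋃ c, h.toFun '' interior (U c)
      · obtain ⟨c, hc⟩ := mem_iUnion.1 hW
        exact mem_iUnion.2 ⟨some c, image_mono interior_subset hc⟩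
      · exact mem_iUnion.2 ⟨none, hy, hW⟩
  have hXlf : RelLF X := by
    refine ⟨fun z hz => ?_, fun o z hz hcl => ?_⟩
    · rw [hUX] at hz
      obtain ⟨O, hO, hf⟩ := hfin z hz
      refine ⟨O, hO, ((hf.image some).union (finite_singleton none)).subset ?_⟩
      rintro (_ | c) ho
      · exact Or.inr rfl
      · exact Or.inl ⟨c, ho, rfl⟩
    · rw [hUX] at hz
      cases o with
      | none =>
        refine ⟨hz, fun hW => ?_⟩
        obtain ⟨y, hy1, hy2⟩ := mem_closure_iff.1 hcl W hWo hW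
        exact hy2.2 hy1
      | some c => exact (hU c).isClosed.closure_subset hcl
  have hYlf : RelLF Y := by
    refine ⟨fun z hz => ?_, fun o z hz hcl => ?_⟩
    · rw [hUY] at hz
      obtain ⟨O, hO, hf⟩ := hfin (h.invFun z) (h.mapsTo_inv hz)
      have h1 : h.invFun ⁻¹' O ∈ 𝓝[Λ] z := (h.cont_inv z hz) hO
      rw [hΛ.nhdsWithin_eq hz] at h1
      refine ⟨_, h1, ((hf.image some).union (finite_singleton none)).subset ?_⟩
      rintro (_ | c) ho
      · exact Or.inr rfl
      · left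
        obtain ⟨y, hy1, hy2⟩ := ho
        obtain ⟨x, hx, hxy⟩ := hy1
        refine ⟨c, ⟨x, hx, ?_⟩, rfl⟩
        rw [mem_preimage, ← hxy, h.left_inv (hUΩ c hx)] at hy2
        exact hy2
    · rw [hUY] at hz
      cases o with
      | none =>
        refine ⟨hz, fun hW => ?_⟩
        obtain ⟨y, hy1, hy2⟩ := mem_closure_iff.1 hcl _ (isOpen_iUnion hYo) hW
        exact hy2.2 hy1
      | some c =>
        exact (((hU c).image_of_continuousOn (h.cont.mono (hUΩ c))).isClosed).closure_subset hcl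
  have hnone : h.toFun '' (Ω \ W) = Λ \ ⋃ c, h.toFun '' interior (U c) := by
    ext y
    constructor
    · rintro ⟨x, hx, rfl⟩
      refine ⟨h.mapsTo hx.1, fun hy => ?_⟩
      obtain ⟨c, x', hx', he⟩ := mem_iUnion.1 hy
      rw [h.injOn (hUΩ c (interior_subset hx')) hx.1 he] at hx'
      exact hx.2 (mem_iUnion.2 ⟨c, hx'⟩)
    · rintro ⟨hy, hy2⟩
      refine ⟨h.invFun y, ⟨h.mapsTo_inv hy, fun hW => hy2 ?_⟩, h.right_inv hy⟩
      obtain ⟨c, hc⟩ := mem_iUnion.1 hW
      exact mem_iUnion.2 ⟨c, _, hc, h.right_inv hy⟩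
  let H : ∀ o, ConHomeo (X o) (Y o) := fun o =>
    match o with
    | none => (h.restr hXc sdiff_subset).cast rfl hnone
    | some c => g c
  have key : ∀ c, ∀ x ∈ U c, x ∉ W → (g c).toFun x = h.toFun x := by
    intro c x hx hW
    apply hg c
    rw [(hU c).isClosed.frontier_eq]
    exact ⟨hx, fun h => hW (mem_iUnion.2 ⟨c, h⟩)⟩
  have hoff : ∀ c d, c ≠ d → ∀ x, x ∈ U c → x ∈ U d → x ∉ W := by
    intro c d hcd x hc hd hW
    obtain ⟨e, he⟩ := mem_iUnion.1 hW
    by_cases hec : e = c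
    · exact Set.disjoint_left.1 (hdis e d (hec ▸ hcd)) he hd
    · exact Set.disjoint_left.1 (hdis e c hec) he hc
  have hag : ∀ i j, EqOn (H i).toFun (H j).toFun (X i ∩ X j) := by
    rintro (_ | c) (_ | d) x ⟨hx1, hx2⟩
    · rfl
    · exact (key d x hx2 hx1.2).symm
    · exact key c x hx1 hx2.2
    · by_cases hcd : c = d
      · subst hcd; rfl
      · have hW := hoff c d hcd x hx1 hx2
        exact (key c x hx1 hW).trans (key d x hx2 hW).symm
  have himg : ∀ i j, Y i ∩ Y j ⊆ (H i).toFun '' (X i ∩ X j) := by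
    rintro (_ | c) (_ | d) y ⟨hy1, hy2⟩
    · obtain ⟨x, hx, rfl⟩ : y ∈ h.toFun '' (Ω \ W) := by rw [hnone]; exact hy1
      exact ⟨x, ⟨hx, hx⟩, rfl⟩
    · obtain ⟨x, hx, rfl⟩ := hy2
      have hW : x ∉ W := by
        intro hW
        obtain ⟨c, hc⟩ := mem_iUnion.1 hW
        exact hy1.2 (mem_iUnion.2 ⟨c, x, hc, rfl⟩)
      exact ⟨x, ⟨⟨hUΩ d hx, hW⟩, hx⟩, rfl⟩
    · obtain ⟨x, hx, rfl⟩ := hy1
      have hW : x ∉ W := by
        intro hW
        obtain ⟨d, hc⟩ := mem_iUnion.1 hW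
        exact hy2.2 (mem_iUnion.2 ⟨d, x, hc, rfl⟩)
      exact ⟨x, ⟨hx, ⟨hUΩ c hx, hW⟩⟩, key c x hx hW⟩
    · by_cases hcd : c = d
      · subst hcd
        rw [inter_self, (H (some c)).image_eq]
        exact hy1
      · obtain ⟨x, hx, rfl⟩ := hy1
        obtain ⟨x', hx', he⟩ := hy2
        rw [h.injOn (hUΩ d hx') (hUΩ c hx) he] at hx'
        exact ⟨x, ⟨hx, hx'⟩, key c x hx (hoff c d hcd x hx hx')⟩
  obtain ⟨Φ, hΦ⟩ := ConHomeo.exists_glue_family hXlf hYlf H hag himg
  refine ⟨Φ.cast hUX hUY, fun c => (hΦ (some c)).1, fun c => (hΦ (some c)).2, (hΦ none).1,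
    (hΦ none).2⟩

/-- the replaced homeomorphism has the same images of the sets `U c` -/
theorem image_replace {Ω : Set E} {Λ : Set F} {U : Set E} {h h' : ConHomeo Ω Λ}
    (g : ConHomeo U (h.toFun '' U)) (hg : EqOn h'.toFun g.toFun U) :
    h'.toFun '' U = h.toFun '' U := by
  rw [hg.image_eq, g.image_eq]

end P073.H212
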