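import Vale.Agent.P073.H212.SharpTV
import Vale.Agent.P073.H31.FDefs

/-!
# P073, H212: **[CNT-SIDE]** the number of crossing points on the sides of a square face

From H669's `cnt_side`: the weight times the number of crossing points of `h2` on an edge of the
mesh is at most `(1 + ρ₁)` times the length.
-/

open Set Metric Topology Filter
open scoped ENNReal

namespace Vale.Agent.P073.H212

open _root_.P073 _root_.P073.Net _root_.P073.PA691 _root_.P073.H236 _root_.P073.H345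
open _root_.P073.H579 (AkP EAct GEP CrsPt)
open Vale.Agent.P073.St (V)
open Vale.Agent.P073.SQ (ev)
open Vale.Agent.P073.H471 Vale.Agent.P073.H267
open Vale.Agent.P073.H73 (Mesh onSeg sqr)
open Vale.Agent.P073.H193 (Edges edges)
open Vale.Agent.P073.H805 (ROut RIn)
open Vale.Agent.P073.H669 (PLv wl)
open _root_.P073.FW31 (IsSide)

variable {Ω Λ : Set V} {v : V} {K : BoxCx Λ v} {S : Rad K} {W : Wid K S} {B : Boxes W}
  {G : Geo B} {M : Mesh Ω} {h h1 h2 : ConHomeo Ω Λ} {Pr : Set M.ι}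
  {sl : TBx K → Finset (ℝ × ℝ)} {η : ℝ} {τ : Type*} {A : τ → Set V} {C : Set ℝ}
  {εE : (edges M).ε → ℝ} {μ δ : K.S → ℝ}

theorem seg_sqr {a : V} {l : Fin 3} {σ : ℝ} {p q : V} (hp : p ∈ sqr a l σ) (hq : q ∈ sqr a l σ) :
    segment ℝ p q ⊆ sqr a l σ := by
  rintro x ⟨s, t, hs, ht, hst, rfl⟩
  have e1 : ∀ j, (s • p + t • q) j - a j = s * (p j - a j) + t * (q j - a j) := fun j => by
    simp only [Pi.add_apply, Pi.smul_apply, smul_eq_mul]
    have : t = 1 - s := by linarith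
    rw [this]; ring
  refine ⟨?_, fun j => ?_⟩
  · have := e1 l
    rw [hp.1, hq.1] at this
    have h2 : (s • p + t • q) l - a l = 0 := by rw [this]; ring
    linarith
  · rw [e1]
    have h1 := hp.2 j
    have h2 := hq.2 j
    rw [abs_le] at h1 h2 ⊢
    constructor <;> nlinarith

/-- **[CNT-SIDE]** for an edge of the mesh on a peeled face; `T`: length of the edge -/
theorem cnt_edge (L : PLv G (edges M) h1 Pr sl η A C εE μ δ)
    (O : ROut G M h1 h2 Pr univ L.lev.lv (edges M)) {s : K.S} {k : M.κ}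
    (hk : AkP G M h1 univ s k) (hoff : EqOn h1.toFun h.toFun (M.F k)) {p q : V}
    (hE : H304.IsEdge M (p, q)) (hpq : segment ℝ p q ⊆ M.F k) {c r κ ρ₁ T : ℝ} (hT : 0 ≤ T)
    (hc0 : 0 ≤ c) (hc1 : c ≤ 1) (hη : η ≤ c / 16) (hμ : ∀ β, μ s ≤ c / 4 * wl G s β)
    (hr : 0 ≤ 1 + r) (hκ : 0 ≤ κ)
    (htv : H239.tv h.toFun (p, q) (Finset.univ.erase (K.nrm s)) ≤
      ENNReal.ofReal ((1 + r) * T))
    (hεE : ∀ e : (edges M).ε, (edges M).seg e = segment ℝ p q → 4 * εE e ≤ κ * T)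
    (hnum : (1 + c) * (1 + r) + κ ≤ 1 + ρ₁) :
    ∀ Y : Finset V, (∀ y ∈ Y, CrsPt p q h2.toFun (L.lev.lv s) y) → ∀ β,
      L.om s β * (Y.card : ℝ) ≤ (1 + ρ₁) * T := by
  intro Y hY β
  obtain ⟨e, he, htve⟩ := exists_edge hE
  have hek : (edges M).seg e ⊆ M.F k := by rw [he]; exact hpq
  obtain ⟨hfin, hcnt⟩ := L.cnt_side O (h := h) ⟨k, hk, hek⟩ (hoff.mono hek) hc0 hc1 hη hμ β
  rw [← htve] at hcnt
  have hcard : Y.card ≤
      {x | x ∈ (edges M).seg e ∧ ∃ l, h2.toFun x l ∈ L.lev.lv s l}.ncard := by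
    rw [← Set.ncard_coe_finset]
    refine Set.ncard_le_ncard (fun y hy => ?_) hfin
    obtain ⟨h3, h4⟩ := hY y hy
    exact ⟨by rw [he]; exact h3, h4⟩
  have hom : 0 ≤ L.om s β := by
    have h3 := L.om_ge s β
    have h4 := L.δ0 s
    linarith
  have h5 : ENNReal.ofReal (L.om s β * (Y.card : ℝ)) ≤ ENNReal.ofReal ((1 + ρ₁) * T) := by
    calc ENNReal.ofReal (L.om s β * (Y.card : ℝ))
        = ENNReal.ofReal (L.om s β) * (Y.card : ℝ≥0∞) := by
          rw [ENNReal.ofReal_mul hom, ENNReal.ofReal_natCast]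
      _ ≤ ENNReal.ofReal (L.om s β) *
          (({x | x ∈ (edges M).seg e ∧ ∃ l, h2.toFun x l ∈ L.lev.lv s l}.ncard : ℕ) : ℝ≥0∞) := by
          gcongr
      _ ≤ _ := hcnt
      _ ≤ ENNReal.ofReal (1 + c) * ENNReal.ofReal ((1 + r) * T) + ENNReal.ofReal (κ * T) :=
          add_le_add (mul_le_mul_right htv _) (ENNReal.ofReal_le_ofReal (hεE e he))
      _ = ENNReal.ofReal ((1 + c) * ((1 + r) * T) + κ * T) := by
          rw [← ENNReal.ofReal_mul (by linarith), ← ENNReal.ofReal_add (by positivity)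
            (by positivity)]
      _ ≤ _ := by
          refine ENNReal.ofReal_le_ofReal ?_
          have := mul_le_mul_of_nonneg_right hnum hT
          linarith
  have hρ : 0 ≤ (1 + ρ₁) * T := by
    have h6 : 0 ≤ (1 + c) * (1 + r) + κ := by positivity
    exact mul_nonneg (h6.trans hnum) hT
  exact (ENNReal.ofReal_le_ofReal_iff hρ).1 h5

/-- **[CNT-SIDE]** for the sides of a square face -/
theorem cnt_side_of (L : PLv G (edges M) h1 Pr sl η A C εE μ δ)
    (O : ROut G M h1 h2 Pr univ L.lev.lv (edges M)) {s : K.S} {k : M.κ}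
    (hk : AkP G M h1 univ s k) (hoff : EqOn h1.toFun h.toFun (M.F k)) {a : V} {σ : ℝ}
    (hσ : 0 < σ) (hF : M.F k = sqr a (K.nrm s) σ) {i : Fin 3} {x : V}
    (hx : IsSide a (K.nrm s) σ i x) (hE : H304.IsEdge M (x, x + (2 * σ) • ev i)) {c r κ ρ₁ : ℝ}
    (hc0 : 0 ≤ c) (hc1 : c ≤ 1) (hη : η ≤ c / 16) (hμ : ∀ β, μ s ≤ c / 4 * wl G s β)
    (hr : 0 ≤ 1 + r) (hκ : 0 ≤ κ)
    (htv : H239.tv h.toFun (x, x + (2 * σ) • ev i) (Finset.univ.erase (K.nrm s)) ≤
      ENNReal.ofReal ((1 + r) * (2 * σ)))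
    (hεE : ∀ e : (edges M).ε, (edges M).seg e = segment ℝ x (x + (2 * σ) • ev i) →
      4 * εE e ≤ κ * (2 * σ))
    (hnum : (1 + c) * (1 + r) + κ ≤ 1 + ρ₁) :
    ∀ Y : Finset V, (∀ y ∈ Y, CrsPt x (x + (2 * σ) • ev i) h2.toFun (L.lev.lv s) y) →
      L.om s false * (Y.card : ℝ) ≤ (1 + ρ₁) * (2 * σ) := by
  intro Y hY
  exact cnt_edge L O hk hoff hE (by rw [hF]; exact seg_sqr hx.2.1 hx.2.2.1) (by positivity)
    hc0 hc1 hη hμ hr hκ htv hεE hnum Y hY false

/-- the length of a side -/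
theorem side_len {x : V} {i : Fin 3} {σ : ℝ} (hσ : 0 < σ) {e : (edges M).ε}
    (he : (edges M).seg e = segment ℝ x (x + (2 * σ) • ev i)) :
    ‖(edges M).b e - (edges M).a e‖ = 2 * σ := by
  have h1 := _root_.P073.H950.norm_eq_of_seg_eq (e := ((edges M).a e, (edges M).b e))
    (e' := (x, x + (2 * σ) • ev i)) he
  rw [h1]
  show ‖x + (2 * σ) • ev i - x‖ = 2 * σ
  rw [add_sub_cancel_left, norm_smul, Real.norm_of_nonneg (by positivity)]
  have : ‖(ev i : V)‖ = 1 := by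
    unfold ev
    rw [Pi.norm_single, norm_one]
  rw [this, mul_one]

end Vale.Agent.P073.H212
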