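import Vale.Agent.P073.H926.DatC
import Vale.Agent.P073.H238.RT0

/-!
# P073, H212, [SHARP-K3]: positions of the deep edges and faces of a plate

* `edge_pG`, `vert_pW`: the edges and vertices of a processed square are processed.
* `PlPos`: the positions of a set which is deep in a plate, after ROUND T.
* `plPos_of_deep`.
-/

open Set Metric Topology Filter
open scoped ENNReal

namespace Vale.Agent.P073.H212.Pl

open _root_.P073 _root_.P073.Net _root_.P073.PA691 _root_.P073.H236 _root_.P073.TM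
open Vale.Agent.P073.St (V)
open Vale.Agent.P073.H471 Vale.Agent.P073.H267 Vale.Agent.P073.H926
open Vale.Agent.P073.H73 (Mesh)
open Vale.Agent.P073.H193 (Edges edges)
open Vale.Agent.P073.H304 (Nb In Zmax)
open _root_.P073.H345 (PK)

variable {c₀ n δ : ℝ} {j : ℕ} {Ω Λ : Set V} {v w : V} {ρ : V → ℝ} {M : Mesh Ω}
  {h : ConHomeo Ω Λ} {J₀ J : Set (ℕ × (Fin 3 → ℤ))} {P Z : Set M.ι} {K : BoxCx Λ w}

theorem edge_pG {C : Cells ρ w K} {s : K.S} (hs : s ∈ pS C J₀) {e : K.G}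
    (he : K.edge e ⊆ K.sq s) : e ∈ pG C J₀ := by
  obtain ⟨q, hq, hqs⟩ := exists_of_pS hs
  exact ⟨q, hq, he.trans (sq_sub_of hqs)⟩

theorem vert_pW {C : Cells ρ w K} {s : K.S} (hs : s ∈ pS C J₀) {i : K.W}
    (hi : K.w i ∈ K.sq s) : i ∈ pW C J₀ := by
  obtain ⟨q, hq, hqs⟩ := exists_of_pS hs
  exact ⟨q, hq, sq_sub_of hqs hi⟩

/-- **positions of a set which is deep in the plate `s`** -/
structure PlPos (D : KIn3 c₀ n j δ v w ρ M h J₀ J P Z) (C : Cells ρ w K) (h1 : V → V) (s : K.S)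
    (X : Set V) : Prop where
  hs : s ∈ pS C J₀
  pb : ∀ x ∈ X, h1 x ∈ (D.G C).PB 2 s
  other : ∀ x ∈ X, ∀ s', s' ≠ s → h1 x ∉ (D.G C).PB (1 / 2) s'
  off : ∀ x ∈ X, ∀ b : TBx K, h.toFun x ∉ (D.G C).TB false b
  /-- the cells are drawn -/
  cell : ∀ x ∈ X, ∀ i, x ∈ M.Q i → i ∈ Zmax M w h.toFun J₀ P (2 / 2 ^ j) ∧ i ∉ P
  /-- the faces are peeled -/
  peel : ∀ x ∈ X, ∀ k, x ∈ M.F k → ∀ h1' : ConHomeo Ω Λ, EqOn h1'.toFun h1 Ω →
    (D.dat C).PkS (D.G C) h1' s k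

/-- **the positions** -/
theorem plPos_of_deep (D : KIn3 c₀ n j δ v w ρ M h J₀ J P Z) (C : Cells ρ w K) {h1 : V → V}
    (near : ∀ x ∈ Ω, ∀ q, h.toFun x ∈ K.cube q → ‖h1 x - h.toFun x‖ ≤ (D.G C).om q)
    {X : Set V} (hX : X ⊆ Ω) {m : ℕ} {z : Fin 3 → ℤ} {l : Fin 3}
    (H : H239.Deep c₀ δ w ρ J₀ (Finset.univ.erase l) m z (h.toFun '' X)) :
    ∃ s, K.nrm s = l ∧ (∀ j, K.slo s j = w j + z j / 2 ^ m) ∧
      (∀ j, j ≠ l → K.shi s j = w j + (z j + 1) / 2 ^ m) ∧ PlPos D C h1 s X := by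
  obtain ⟨s, hs, hsS, hlo, hhi, hsp, hball⟩ := D.deep_plate C H
  have hη0 : (0:ℝ) < 1 / 2 ^ j := by positivity
  have h2m : (0:ℝ) < 1 / 2 ^ m := by positivity
  have hκm : κ3 n / 2 ^ m = κ3 n * (1 / 2 ^ m) := by ring
  have hκ := κ3_pos D.pos
  have ho := o3_pos D.pos
  have eo : o3 n = κ3 n / 4000 := rfl
  have hδ0 := D.δpos
  have hδη := D.δle
  -- heights
  have hh : ∀ x ∈ X, |h.toFun x (K.nrm s) - K.slo s (K.nrm s)| ≤ δ * (1 / 2 ^ m) := by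
    intro x hx
    have h1 := H.near _ ⟨x, hx, rfl⟩ l (by simp)
    rw [hs, hlo l]
    refine h1.trans (le_of_eq (by ring))
  have hself : ∀ x ∈ X, h.toFun x ∈ closedBall (h.toFun x) (κ3 n / 2 ^ m) := fun x _ =>
    mem_closedBall_self (by positivity)
  have hPBh : ∀ x ∈ X, h.toFun x ∈ (D.G C).PB 2 s := fun x hx =>
    (hball _ ⟨x, hx, rfl⟩).2.1 (hself x hx)
  have hmove : ∀ x ∈ X, ‖h1 x - h.toFun x‖ ≤ κ3 n / 2 ^ m := by
    intro x hx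
    obtain ⟨q, hq⟩ := K.cover _ (h.mapsTo (hX hx))
    have hqs := Geo.tile_PB (by norm_num : (1:ℝ) / 2 ≤ 2) (hPBh x hx) hq
    refine (near x (hX hx) q hq).trans (((D.G C).om_oS q s hqs).trans ?_)
    show 4 * o3 n * C.sS s ≤ _
    rw [hsS, hκm, eo]
    nlinarith
  have hin : ∀ x ∈ X, h1 x ∈ closedBall (h.toFun x) (κ3 n / 2 ^ m) := fun x hx => by
    rw [mem_closedBall, dist_eq_norm]; exact hmove x hx
  -- no protected cell
  have hnP : ∀ x ∈ X, ∀ i, x ∈ M.Q i → i ∉ P := by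
    intro x hx i hxi hi
    obtain ⟨q, hqJ, he⟩ := D.prot_tile C hi
    have h1 : h.toFun x ∈ H304.mid w (1 / 2 ^ j) (C.fT q) := by
      rw [← he]; exact mem_image_of_mem _ hxi
    have hη1 : (1:ℝ) / 2 ^ j ≤ 1 := D.η_le_one.trans (by norm_num)
    have h2 := (KIn3.mem_mid C hη1).1 h1
    have hT := C.sT_pos q
    have hq : h.toFun x ∈ K.cube q := by
      have h0 : (0:ℝ) < 1 / 2 ^ j / 2 * C.sT q := by positivity
      exact ⟨fun k => by linarith [(h2 k).1], fun k => by linarith [(h2 k).2]⟩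
    have h3 := (D.mid_PB C (by norm_num) (hPBh x hx) hq).1 h1
    have hqs := Geo.tile_PB (by norm_num : (1:ℝ) / 2 ≤ 2) (hPBh x hx) hq
    have h4 := (C.sS_sT D.hρ (sq_sub_of hqs)).1
    have h5 := hh x hx
    rw [hsS] at h4
    nlinarith
  have hZ : ∀ x ∈ X, ∀ i, x ∈ M.Q i → i ∈ Zmax M w h.toFun J₀ P (2 / 2 ^ j) := by
    intro x hx i hxi
    have e : (2:ℝ) / 2 ^ j = 2 * (1 / 2 ^ j) := by ring
    have hηκ := D.η_le_κ
    have hκc := D.κ_le_c₀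
    have hc0 := D.c₀_pos
    obtain ⟨t, ht, hts⟩ := exists_of_pS hsp
    refine D.mem_Zmax C (by rw [e]; linarith) (hnP x hx i hxi) hxi ?_
    refine (D.height_PB C (c := 2) (by norm_num) (by rw [e]; linarith) (hPBh x hx)).2
      ⟨t, ht, hts, (hh x hx).trans ?_⟩
    have h4 := (C.sS_sT D.hρ (sq_sub_of hts)).1
    rw [hsS] at h4
    rw [e]
    nlinarith
  refine ⟨s, hs, hlo, hhi, hsp, fun x hx => (hball _ ⟨x, hx, rfl⟩).2.1 (hin x hx),
    fun x hx s' hs' => (hball _ ⟨x, hx, rfl⟩).2.2.1 _ (hin x hx) s' hs',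
    fun x hx b => (hball _ ⟨x, hx, rfl⟩).2.2.2.1 _ (hself x hx) b,
    fun x hx i hxi => ⟨hZ x hx i hxi, hnP x hx i hxi⟩, fun x hx k hxk h1' he => ?_⟩
  obtain ⟨i, hi⟩ : ∃ i, M.F k ⊆ M.Q i := by
    obtain ⟨i, i', -, hF⟩ := M.two k
    exact ⟨i, hF.trans inter_subset_left⟩
  refine ⟨hsp, ⟨⟨i, hZ x hx i (hi hxk), hi⟩, fun i' hi' hk => hnP x hx i' (hk hxk) hi'⟩, x, hxk, ?_⟩
  rw [he (hX hx)]
  exact Vale.Agent.P073.H805.PB_mono (by norm_num) s ((hball _ ⟨x, hx, rfl⟩).2.1 (hin x hx))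

end Vale.Agent.P073.H212.Pl
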