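import Vale.Agent.P073.H212.Hk5
import Vale.Agent.P073.H253.TubeTv2

/-!
# P073, H212, [SHARP-K3], part 6: the `l1` estimate with numbers

* `num_lc`, `num_plate`, `num_A`: the numbers.
* `l1_top`: `L1Est` of `Φ ∘ f` on all peeled faces, with the constant `31 / 32 * n`.
-/

set_option linter.unusedSectionVars false

open Set Metric Topology Filter MeasureTheory
open scoped ENNReal

namespace Vale.Agent.P073.H212.K3

open _root_.P073 _root_.P073.Net _root_.P073.PA691 _root_.P073.H236 _root_.P073.H579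
open _root_.P073.H936 _root_.P073.H936.K3
open _root_.P073.H142
open _root_.P073.H345 (PK PB_sub_PK PK_sub_ss tg PLev)
open _root_.P073.H880.RP
open _root_.P073.H429
open _root_.P073.FW31 (L1Est)
open Vale.Agent.P073.St (V)
open Vale.Agent.P073.H471 Vale.Agent.P073.H267
open Vale.Agent.P073.H267.K3
open Vale.Agent.P073.H73 (Mesh)
open Vale.Agent.P073.H193 (Edges edges)
open Vale.Agent.P073.H926
open Vale.Agent.P073.H238.K3
open Vale.Agent.P073.H233 (Small3 Xp SoftQ FQ)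

/-! ### the numbers -/

/-- the ratio of the steps and of the bands of the hook: `q`, `r` close to `1`, `e` small -/
theorem num_lc {om0 q r e n' : ℝ} (h0 : 0 < om0) (hn : 0 < n') (hn1 : n' ≤ 1)
    (hq : 1 - n' / 8 ≤ q) (hr : 1 - n' / 8 ≤ r) (he : e ≤ n' / 16 * om0) :
    om0 / 2 / (q * r) ≤ (1 + n') * (om0 / 2 - e) := by
  have h1 : (0:ℝ) < 1 - n' / 8 := by linarith
  have h2 : (1 - n' / 8) * (1 - n' / 8) ≤ q * r := mul_le_mul hq hr h1.le (by linarith)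
  have h3 : 1 - n' / 4 ≤ q * r := by nlinarith [sq_nonneg n']
  have h4 : 0 < q * r := by linarith
  rw [div_le_iff₀ h4]
  have h5 : (1 - n' / 8) * (om0 / 2) ≤ om0 / 2 - e := by nlinarith
  have h6 : (1 + n') * ((1 - n' / 8) * (om0 / 2)) * (1 - n' / 4) ≤
      (1 + n') * (om0 / 2 - e) * (q * r) := by
    refine mul_le_mul (mul_le_mul_of_nonneg_left h5 (by linarith)) h3 (by linarith) ?_
    have h7 : 0 ≤ (1 - n' / 8) * (om0 / 2) := by positivity
    have h8 : 0 ≤ om0 / 2 - e := h7.trans h5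
    positivity
  refine le_trans ?_ h6
  have h7 : 1 ≤ (1 + n') * (1 - n' / 8) * (1 - n' / 4) := by
    have e1 : (1 + n') * (1 - n' / 8) * (1 - n' / 4) =
      1 + n' * (5 / 8 - 11 / 32 * n' + n' ^ 2 / 32) := by ring
    rw [e1]
    have h8 : 0 ≤ 5 / 8 - 11 / 32 * n' + n' ^ 2 / 32 := by nlinarith [sq_nonneg n']
    nlinarith
  nlinarith

variable {c₀ n δ : ℝ} {j : ℕ} {Ω Λ : Set V} {v w : V} {ρ : V → ℝ} {M : Mesh Ω} {h : ConHomeo Ω Λ}
  {J₀ J : Set (ℕ × (Fin 3 → ℤ))} {P Z : Set M.ι} {K : BoxCx Λ w}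

/-- **the constants**: collapse, tubes, hook of the plates -/
theorem num_plate (D : KIn3 c₀ n j δ v w ρ M h J₀ J P Z) {μ₂ κ : ℝ} (h1 : μ₂ ≤ n / 256)
    (h2 : κ ≤ n / 256) :
    (1 + 3 * (20 / (1 / μN n))) * (1 + μ₂ + κ) * (1 + n / 256) ≤ 1 + 31 / 32 * n ∧
      3 * (20 / (1 / μN n)) ≤ 1 := by
  have h3 := D.nle
  have h4 := D.le
  have h5 := D.pos
  have e : 20 / (1 / μN n) = 20 * (n / 64) := by
    unfold μN
    field_simp
  rw [e]
  refine ⟨?_, by linarith⟩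
  have h6 : (1 + μ₂ + κ) * (1 + n / 256) ≤ 1 + n / 80 := by nlinarith
  have h7 : (0:ℝ) ≤ 1 + 3 * (20 * (n / 64)) := by positivity
  calc (1 + 3 * (20 * (n / 64))) * (1 + μ₂ + κ) * (1 + n / 256) =
        (1 + 3 * (20 * (n / 64))) * ((1 + μ₂ + κ) * (1 + n / 256)) := by ring
    _ ≤ (1 + 3 * (20 * (n / 64))) * (1 + n / 80) := mul_le_mul_of_nonneg_left h6 h7
    _ ≤ 1 + 31 / 32 * n := by nlinarith

/-- **the constant of the crossings** `A = 1 + n / 64` -/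
theorem num_A (D : KIn3 c₀ n j δ v w ρ M h J₀ J P Z) :
    (1 + 31 / 32 * n) * (1 + n / 64) ≤ 1 + c₀ := by
  have h3 := D.nle
  have h4 := D.le
  have h5 := D.pos
  nlinarith

variable {D : KIn3 c₀ n j δ v w ρ M h J₀ J P Z} {C : Cells ρ w K} {C₀ μT : ℝ} {X : S1 D C C₀ μT}
  {Y₂ : S2 X} {Ys : Set M.κ} {sc : Sharp} {Y₃ : S3 Y₂ Ys sc} {Y₄ : S4 Y₃}

/-- **[L1-TOP] the `l1` estimate of the last map** on all peeled faces -/
theorem l1_top (Y₅ : S5 Y₄) {om0 : K.S → ℝ} (hom : ∀ s ∈ pS C J₀, ∀ β, Y₂.L.om s β = om0 s)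
    (hq : ∀ s, 1 - n / 2048 ≤ Y₄.q s) (hr : ∀ s, 1 - n / 2048 ≤ Y₄.r s)
    (he : ∀ β s, (Y₃.F β).e s ≤ n / 4096 * om0 s.1)
    (hμ : ∀ b, 0 ≤ Y₅.μ b) (hμ2 : ∀ b, Y₅.μ b ≤ n / 256)
    (hκ : ∀ b : pG C J₀, Y₅.μ b * (ebe (D.W C) b.1 - eal (D.W C) b.1) ≤
      n / 256 * ((D.G C).uT b.1 / 4)) {τ : M.κ → ℝ} (hτ : ∀ k, 0 < τ k)
    (hε5 : ∀ (s : K.S) (k : M.κ) (hk : (D.dat C).PkS (D.G C) X.h1 s k),
      16 * Y₄.ε ⟨s, hk.1⟩ ≤ τ k)
    (hε6 : ∀ (b : pG C J₀) k, (Y₄.f5.toFun '' M.F k ∩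
      YB ((YS (D.G C)).add (rT (D.G C)) (rT_pos (D.G C))
      (fun e k => (YS_p_lt (D.G C) e k).le)
      fun e k => (YS_q_lt (D.G C) e k).le) b.1).Nonempty → 16 * Y₅.ε b ≤ τ k) :
    ∀ (R : Fac K) (N t : M.κ ⊕ M.ι → ℝ) (Φ : ConHomeo Λ Λ), (∀ a, 0 < t a) →
      (∀ k, t (.inl k) ≤ τ k / 16) →
      Small3 (D.W C) (Xp C J₀) R Y₅.f.toFun (FQ M) N t → SoftQ D C R Φ →
      ∀ s k, (D.dat C).PkS (D.G C) X.h1 s k →
        L1Est (D.G C) s (M.F k) (31 / 32 * n) (τ k) (fun x => PS.map Y₃.T3 (Y₃.h3.toFun x))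
          fun x => Φ.toFun (Y₅.f.toFun x) := by
  intro R N t Φ ht0 ht HS HΦ s k hk
  have hn := D.pos
  have hn1 := D.nle
  have hn2 := D.le
  have hom0 : 0 < om0 s := by
    rw [← hom s hk.1 true]
    exact stp_pos (Y₂.L.bx true s)
  obtain ⟨h1, h2⟩ := num_plate D (le_refl (n / 256)) (le_refl (n / 256))
  have hμs : 0 ≤ 20 / (1 / μN n) := (H233.soft_mu D).1
  refine l1_g Y₅ hk Subset.rfl (om0 := om0 s) (Lc := 1 + n / 256) (μ₂ := n / 256)
    (κ := n / 256) (ε₆ := τ k / 16) (hom s hk.1) (fun β => ?_) (by positivity) hμ hμ2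
    (by positivity) (by positivity) hκ (by have := hτ k; positivity) (fun b hb => ?_) HS HΦ
    (ht0 _).le h1 ?_
  · refine num_lc hom0 (n' := n / 256) (by positivity) (by linarith) ?_ ?_ ?_
    · have := hq ⟨s, hk.1⟩
      linarith
    · have := hr ⟨s, hk.1⟩
      linarith
    · have := he β ⟨s, hk.1⟩
      have e1 : n / 256 / 16 * om0 s = n / 4096 * om0 s := by ring
      rw [e1]
      exact this
  · have := hε6 b k hb
    linarith
  · have h3 := hε5 s k hk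
    have h4 := ht k
    have h5 := hτ k
    have h6 := ht0 (.inl k)
    set μs := 20 / (1 / μN n) with hμsd
    have h7 : (1 + 3 * μs) * (1 + n / 256 + n / 256) ≤ 3 := by nlinarith
    have h70 : 0 ≤ (1 + 3 * μs) * (1 + n / 256 + n / 256) := by positivity
    have h8 : (1 + 3 * μs) * (1 + n / 256 + n / 256) * (2 * Y₄.ε ⟨s, hk.1⟩) ≤
        (1 + 3 * μs) * (1 + n / 256 + n / 256) * (2 * (τ k / 16)) :=
      mul_le_mul_of_nonneg_left (by linarith) h70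
    have h9 : (1 + 3 * μs) * (1 + n / 256 + n / 256) * (2 * (τ k / 16)) ≤ 3 * (2 * (τ k / 16)) :=
      mul_le_mul_of_nonneg_right h7 (by positivity)
    have h10 : (1 + 3 * μs) * (τ k / 16) ≤ 2 * (τ k / 16) :=
      mul_le_mul_of_nonneg_right (by linarith) (by positivity)
    linarith

end Vale.Agent.P073.H212.K3
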