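import Vale.Agent.P073.H212.Po
import Vale.Agent.P073.H190.IntPB
import Vale.Agent.P073.H581.EdRow2
import Vale.Agent.P073.H253.EdT2

/-!
# P073, H212, [EDGE-P]: the local theorem, case A: inside a plate

* `S3.mvZ`, `S3.mvH`: `h3 x` against the point of the exchanged curve, against `h4 x`;
* `S3.ctlA`: the first alternative of `CtlAt3`.
-/

open Set Metric Topology Filter
open scoped ENNReal

set_option linter.unusedSectionVars false

namespace Vale.Agent.P073.H212.Ed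

open _root_.P073 _root_.P073.Net _root_.P073.PA691 _root_.P073.H236 _root_.P073.H579
open _root_.P073.H936 _root_.P073.H936.K3
open _root_.P073.H142
open _root_.P073.H345 (PK tg PLev tg_ne bt bt_tg tg_bt PB_sub_PK)
open _root_.P073.H880.RP
open _root_.P073.H228 _root_.P073.H228.EP
open _root_.P073.H190 (IsS2 PT2)
open Vale.Agent.P073.St (V)
open Vale.Agent.P073.H471 Vale.Agent.P073.H267 Vale.Agent.P073.H267.K3
open Vale.Agent.P073.H73 (Mesh onSeg)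
open Vale.Agent.P073.H193 (Edges edges LAtC)
open Vale.Agent.P073.H926
open Vale.Agent.P073.H190.Tvp
open Vale.Agent.P073.H228 (GAt)
open Vale.Agent.P073.H233 (Xp PSet)
open Vale.Agent.P073.Top880 (CtlS)
open _root_.P073.Croft (onS)

variable {c₀ n δ : ℝ} {j : ℕ} {Ω Λ : Set V} {v w : V} {ρ : V → ℝ} {M : Mesh Ω} {h : ConHomeo Ω Λ}
  {J₀ J : Set (ℕ × (Fin 3 → ℤ))} {P Z : Set M.ι} {K : BoxCx Λ w}
  {D : KIn3 c₀ n j δ v w ρ M h J₀ J P Z} {C : Cells ρ w K} {C₀ μT : ℝ}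
  {X : S1 D C C₀ μT} {Y₂ : S2 X} {Ys : Set M.κ} {sc : Sharp}

/-- `h3 x` against the point of the exchanged curve -/
theorem mvZ (Y₃ : S3 Y₂ Ys sc) (y : V) :
    MvB (D.G C) (D.dat C).S₀ (fun _ _ => (∅ : Set (ℝ × ℝ)))
      (fun s => (4 * (Y₃.c s false + Y₃.c s true)) + (4 * (Y₃.c s false + Y₃.c s true)))
      (fun s => (4 * (Y₃.c s false + Y₃.c s true)) + (4 * (Y₃.c s false + Y₃.c s true)))
      y (Y₃.κ true (Y₃.κ false y)) := by
  refine mvB_isQ Y₃.ins.isQ (fun s => ?_) (fun β s => ?_) y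
  · have h1 := (Y₃.c0 s false).le
    have h2 := (Y₃.c0 s true).le
    positivity
  · have h1 := (Y₃.c0 s.1 false).le
    have h2 := (Y₃.c0 s.1 true).le
    change 4 * Y₃.c s.1 β ≤ _
    cases β <;> linarith

/-- `h3 x` against `h4 x` -/
theorem mvH (Y₃ : S3 Y₂ Ys sc) (y : V) :
    MvB (D.G C) (D.dat C).S₀ (fun _ _ => (∅ : Set (ℝ × ℝ)))
      (fun s => (Y₂.muP s + Y₂.J s) + (Y₂.muP s + Y₂.J s))
      (fun s => (Y₂.muP s + Y₂.J s) + (Y₂.muP s + Y₂.J s))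
      y (PS.map Y₃.T2 y) := by
  have h0 : ∀ s, 0 ≤ Y₂.muP s + Y₂.J s := fun s => by
    have h1 := (Y₂.mu_pos s).le
    have h2 := Y₂.J0 s
    linarith
  refine mvB_PT2 Y₃.pt2 h0 h0 (fun β s => ?_) (fun β s p hp => absurd hp (notMem_empty p))
    (fun β s t _ => F3W_disp Y₂.Lw β s t) y
  change Y₂.muP s.1 + Y₂.J s.1 ≤ _
  exact le_rfl

theorem seg_mem (e : (edges M).ε) {t : ℝ} (ht : t ∈ Icc (0:ℝ) 1) :
    (edges M).a e + t • ((edges M).b e - (edges M).a e) ∈ (edges M).seg e := by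
  show _ ∈ segment ℝ _ _
  rw [segment_eq_image']
  exact ⟨t, ht, rfl⟩

theorem H_eq (Y₃ : S3 Y₂ Ys sc) (e : (edges M).ε) {t : ℝ} (ht : t ∈ Icc (0:ℝ) 1) :
    ArcP.H Y₃.T2 (onS Y₃.h3.toFun ((edges M).a e) ((edges M).b e)) t =
      Y₃.h4.toFun ((edges M).a e + t • ((edges M).b e - (edges M).a e)) :=
  (Y₃.map4 _ ((edges M).seg_sub_Ω e (seg_mem e ht))).symm

/-- the interior of the full zone: the exchanged curve and `h4` -/
theorem int_iff (Y₃ : S3 Y₂ Ys sc) {e : (edges M).ε} {γ : ℝ → ℝ} {c₁ : ℝ}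
    (HA : ArcP Y₂.L (D.dat C).S₀ Y₃.c Y₃.c0 Y₃.c1 Y₃.F Y₃.T3 Y₃.κ
      (fun s => (D.dat C).PE (D.G C) s.1)
      (onS Y₂.h2.toFun ((edges M).a e) ((edges M).b e))
      (onS X.h1.toFun ((edges M).a e) ((edges M).b e))
      (onS Y₃.h3.toFun ((edges M).a e) ((edges M).b e)) γ c₁) {t : ℝ} (ht : t ∈ Icc (0:ℝ) 1)
    (s : K.S) :
    onS Y₂.h2.toFun ((edges M).a e) ((edges M).b e) (γ t) ∈ interior ((D.G C).PB (7 / 8) s) ↔
      Y₃.h4.toFun ((edges M).a e + t • ((edges M).b e - (edges M).a e)) ∈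
        interior ((D.G C).PB (7 / 8) s) := by
  have e1 := HA.lift.eq t ht
  have e2 := H_eq Y₃ e ht
  rw [← e1, ← e2]
  have h1 := mvZ Y₃ (onS Y₃.h3.toFun ((edges M).a e) ((edges M).b e) t)
  have h2 := mvH Y₃ (onS Y₃.h3.toFun ((edges M).a e) ((edges M).b e) t)
  constructor
  · intro hs
    exact h2.int_PB (by norm_num) (by norm_num) (h1.int_PB' (by norm_num) (by norm_num) hs)
  · intro hs
    exact h1.int_PB (by norm_num) (by norm_num) (h2.int_PB' (by norm_num) (by norm_num) hs)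

/-- **case A**: inside a plate -/
theorem ctlA (Y₃ : S3 Y₂ Ys sc) {e : (edges M).ε} {f5 f : V → V}
    {Xw : K.S → Bool → Set (ℝ × ℝ)} {dσ ησ q₁ : K.S → ℝ} {Lc m e₁ εT w₁ sk : ℝ}
    (hPO : PO (D.G C) (D.dat C).S₀ Xw dσ ησ f5 Y₃.h4.toFun ((edges M).seg e) Lc m q₁ e₁)
    (hL : 0 ≤ Lc) (he₁ : 0 ≤ e₁) (hεT : 0 ≤ εT) (hsk : 0 ≤ sk)
    (hf5 : ContinuousOn f5 ((edges M).seg e)) {Sv : K.G → Set ℝ}
    (hTO : ∀ x ∈ (edges M).seg e, ∀ cst : V → ℝ, (∀ y, 0 ≤ cst y) →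
      PRes (D.B C) (Xp C J₀) (FlT (D.B C)) Sv cst ((edges M).seg e) f5 x →
      LAtC (D.B C) (Xp C J₀) (fun y => sk * cst y + εT * ‖y - x‖) ((edges M).seg e) f x)
    (hw₁ : 0 ≤ w₁) {g : ℝ → ℝ}
    (hG : ∀ r ∈ Icc (0:ℝ) 1,
      GAt (D.B C) (Xp C J₀) f w₁ ((edges M).a e, (edges M).b e) g r)
    {γ : ℝ → ℝ} {c₁ : ℝ}
    (HA : ArcP Y₂.L (D.dat C).S₀ Y₃.c Y₃.c0 Y₃.c1 Y₃.F Y₃.T3 Y₃.κ
      (fun s => (D.dat C).PE (D.G C) s.1)
      (onS Y₂.h2.toFun ((edges M).a e) ((edges M).b e))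
      (onS X.h1.toFun ((edges M).a e) ((edges M).b e))
      (onS Y₃.h3.toFun ((edges M).a e) ((edges M).b e)) γ c₁) {t : ℝ} (ht : t ∈ Icc (0:ℝ) 1)
    {s : (D.dat C).S₀} (hs : onS Y₂.h2.toFun ((edges M).a e) ((edges M).b e) (γ t) ∈
      interior ((D.G C).PB (7 / 8) s.1)) {A A' i' ee : ℝ} (hAc : 8 * (sk * Lc) ≤ A)
    (hi' : 0 ≤ i')
    (hee : 8 * ((sk * e₁ + εT) * ‖(edges M).b e - (edges M).a e‖) + w₁ ≤ ee)
    (I : Finset (Fin 3)) (f' : Fin 3 → ℝ → ℝ) : CtlS Y₃ e γ A A' i' ee I f' g t := by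
  left
  refine ⟨s, hs, ?_⟩
  have hx : (edges M).a e + t • ((edges M).b e - (edges M).a e) ∈ (edges M).seg e := seg_mem e ht
  set x : V := (edges M).a e + t • ((edges M).b e - (edges M).a e) with hxd
  have hint := (int_iff Y₃ HA ht s.1).1 hs
  rw [← hxd] at hint
  have hPK : Y₃.h4.toFun x ∈ PK (D.G C) s.1 := PB_sub_PK (by norm_num) s.1 (interior_subset hint)
  -- the local estimates
  set cst : V → ℝ := fun y => Lc * ∑ β', |wP (D.G C) s.1 β' (Y₃.h4.toFun y (tg s.1 β')) -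
    wP (D.G C) s.1 β' (Y₃.h4.toFun x (tg s.1 β'))| + e₁ * ‖y - x‖ with hcst
  have hS0 : ∀ y, 0 ≤ ∑ β', |wP (D.G C) s.1 β' (Y₃.h4.toFun y (tg s.1 β')) -
      wP (D.G C) s.1 β' (Y₃.h4.toFun x (tg s.1 β'))| := fun y =>
    Finset.sum_nonneg fun _ _ => abs_nonneg _
  have hc0 : ∀ y, 0 ≤ cst y := fun y =>
    add_nonneg (mul_nonneg hL (hS0 y)) (mul_nonneg he₁ (norm_nonneg _))
  have hres : PRes (D.B C) (Xp C J₀) (FlT (D.B C)) Sv cst ((edges M).seg e) f5 x := by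
    refine pres_PK (s := s.1) (fun e' he' => pG_of_pS s.2 he') s.2
      (fun i hi => pW_of_pS s.2 hi) (hf5 x hx) (hPO.pk x hx s.1 s.2 hPK)
      (hPO.low x hx s.1 s.2 hPK (mem_intPB.1 hint).2) fun β => ?_
    exact hPO.win_in x hx s.1 s.2 hint β
  have hLA := hTO x hx cst hc0 hres
  have hfin := gAt_latC (e := ((edges M).a e, (edges M).b e)) hw₁ (hG t ht)
    (c := fun y => sk * cst y + εT * ‖y - x‖) hLA
    (Eventually.of_forall fun y => by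
      have h1 := mul_nonneg hsk (hc0 y)
      have h2 := mul_nonneg hεT (norm_nonneg (y - x))
      linarith)
  filter_upwards [hfin, self_mem_nhdsWithin] with t' h1 ht'
  have e0 : ∀ t'' ∈ Icc (0:ℝ) 1, ∀ l,
      ArcP.H Y₃.T2 (onS Y₃.h3.toFun ((edges M).a e) ((edges M).b e)) t'' l =
      Y₃.h4.toFun ((edges M).a e + t'' • ((edges M).b e - (edges M).a e)) l := fun t'' h l => by
    rw [H_eq Y₃ e h]
  simp only [e0 t ht, e0 t' ht']
  rw [← hxd]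
  set x' : V := (edges M).a e + t' • ((edges M).b e - (edges M).a e) with hx'd
  have hd : ‖x' - x‖ = |t - t'| * ‖(edges M).b e - (edges M).a e‖ := by
    have e2 : x' - x = (t' - t) • ((edges M).b e - (edges M).a e) := by
      rw [hxd, hx'd, sub_smul]; abel
    rw [e2, norm_smul, Real.norm_eq_abs, abs_sub_comm]
  have h2 : |g t' - g t| ≤ 8 * (sk * (Lc * ∑ β', |wP (D.G C) s.1 β' (Y₃.h4.toFun x' (tg s.1 β')) -
      wP (D.G C) s.1 β' (Y₃.h4.toFun x (tg s.1 β'))| + e₁ * ‖x' - x‖) + εT * ‖x' - x‖) +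
      w₁ * |t' - t| := h1
  have e3 : ∑ β', |wP (D.G C) s.1 β' (Y₃.h4.toFun x' (tg s.1 β')) -
      wP (D.G C) s.1 β' (Y₃.h4.toFun x (tg s.1 β'))| =
      ∑ β', |wP (D.G C) s.1 β' (Y₃.h4.toFun x (tg s.1 β')) -
      wP (D.G C) s.1 β' (Y₃.h4.toFun x' (tg s.1 β'))| :=
    Finset.sum_congr rfl fun _ _ => abs_sub_comm _ _
  rw [e3, hd, abs_sub_comm (g t')] at h2
  rw [abs_sub_comm t' t] at h2
  set Sm := ∑ β', |wP (D.G C) s.1 β' (Y₃.h4.toFun x (tg s.1 β')) -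
      wP (D.G C) s.1 β' (Y₃.h4.toFun x' (tg s.1 β'))| with hSm
  have hSm0 : 0 ≤ Sm := Finset.sum_nonneg fun _ _ => abs_nonneg _
  have h3 := mul_le_mul_of_nonneg_right hAc hSm0
  have h4 := mul_le_mul_of_nonneg_right hee (abs_nonneg (t - t'))
  have h5 : 0 ≤ i' * ∑ l, |Y₃.h4.toFun x l - Y₃.h4.toFun x' l| :=
    mul_nonneg hi' (Finset.sum_nonneg fun _ _ => abs_nonneg _)
  have h6 : 0 ≤ ∑ i ∈ I, |f' i (γ t) - f' i (γ t')| := Finset.sum_nonneg fun _ _ => abs_nonneg _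
  calc |g t - g t'| ≤ 8 * (sk * (Lc * Sm +
        e₁ * (|t - t'| * ‖(edges M).b e - (edges M).a e‖)) +
        εT * (|t - t'| * ‖(edges M).b e - (edges M).a e‖)) + w₁ * |t - t'| := h2
    _ = 8 * (sk * Lc) * Sm + (8 * ((sk * e₁ + εT) * ‖(edges M).b e - (edges M).a e‖) + w₁) *
        |t - t'| := by ring
    _ ≤ _ := by linarith

end Vale.Agent.P073.H212.Ed
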