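import Vale.Agent.P073.H228.EdgeP5F
import Vale.Agent.P073.H581.EdRow5
import Vale.Agent.P073.H919.EdMv

/-!
# P073, [EDGE-P]: the fields `sv`, `small`, `fin`, `hw`, `ho`, `hμ`, `hD`, `cκ` of `EIn` over the
stages
-/

open Set Metric Topology Filter
open scoped ENNReal

set_option linter.unusedSectionVars false

namespace Vale.Agent.P073.H212.Ed

open _root_.P073 _root_.P073.Net _root_.P073.PA691 _root_.P073.H236 _root_.P073.H579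
open _root_.P073.H142
open _root_.P073.H345 (PK tg tg_ne tg_ne_not bt PLev)
open _root_.P073.H880.RP
open _root_.P073.H228.EP
open _root_.P073.H155
open Vale.Agent.P073.H687
open Vale.Agent.P073.St (V)
open Vale.Agent.P073.H471 Vale.Agent.P073.H267
open Vale.Agent.P073.H73 (Mesh)
open Vale.Agent.P073.H193 (Edges Cyc edges)
open Vale.Agent.P073.H926
open Vale.Agent.P073.H238.K3
open Vale.Agent.P073.H267.K3
open Vale.Agent.P073.Top880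
open Vale.Agent.P073.H233 (Xp PSet)

variable {c₀ n δ : ℝ} {j : ℕ} {Ω Λ : Set V} {v w : V} {ρ : V → ℝ} {M : Mesh Ω} {h : ConHomeo Ω Λ}
  {J₀ J : Set (ℕ × (Fin 3 → ℤ))} {P Z : Set M.ι} {K : BoxCx Λ w}
  {D : KIn3 c₀ n j δ v w ρ M h J₀ J P Z} {C : Cells ρ w K} {C₀ μT : ℝ}
  {X : S1 D C C₀ μT} {Y₂ : S2 X} {Ys : Set M.κ} {sc : Sharp} {Y₃ : S3 Y₂ Ys sc} {Y₄ : S4 Y₃}

/-- **the fattened windows of the squares are in the fattened windows of the edges** -/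
theorem fat_sub_SvW {η : K.G → ℝ} (Hη : EtaOk (J₀ := J₀) (C := C) Y₂ η) {s : K.S}
    (hs : s ∈ (D.dat C).S₀) {e : K.G} (he : K.edge e ⊆ K.sq s) {β : Bool}
    (hβ : tg s β = K.dir e) {r : ℝ} (hr : r ≤ 12 * Y₂.muP s) :
    Fat (xw Y₂) s β r ⊆ SvW Y₂ η e := by
  rintro t ⟨p, ⟨q, hq, rfl⟩, h1, h2⟩
  have h3 := Hη.mu e (pG_of_pS hs he) s he
  have e1 : β = bt s (K.dir e) := by
    have e2 : tg s (bt s (K.dir e)) = K.dir e := tg_bt_dir he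
    by_contra hne
    have h4 : β = !bt s (K.dir e) := by
      cases β <;> cases h : bt s (K.dir e) <;> simp_all
    rw [h4] at hβ
    exact tg_ne_not s (bt s (K.dir e)) (e2.trans hβ.symm)
  subst e1
  refine ⟨(q - Y₂.R s, q + Y₂.R s), mem_winE.2 ⟨s, he, q, hq, rfl⟩, ?_, ?_⟩
  · show q - Y₂.R s - 12 * η e ≤ t
    have h5 : q - Y₂.R s - r ≤ t := h1
    linarith
  · show t ≤ q + Y₂.R s + 12 * η e
    have h5 : t ≤ q + Y₂.R s + r := h2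
    linarith

/-- the field `sv` of `EIn` -/
theorem ein_sv {η : K.G → ℝ} (Hη : EtaOk (J₀ := J₀) (C := C) Y₂ η) :
    ∀ s ∈ (D.dat C).S₀, ∀ e, K.edge e ⊆ K.sq s → ∀ β, tg s β = K.dir e →
      Fat (xw Y₂) s β (4 * (2 * Y₂.muP s) + 2 * Y₂.muP s + Y₂.muP s) ⊆ SvW Y₂ η e :=
  fun s hs e he β hβ => fat_sub_SvW Hη hs he hβ (by linarith [Y₂.muP0 s])

/-- the field `small` of `EIn` -/
theorem ein_small (Y₂ : S2 X) (hm : ∀ s, Y₂.muP s ≤ 2048 * ω3S δ C s) :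
    ∀ s ∈ (D.dat C).S₀, ∀ i, K.w i ∈ K.sq s →
      2 * (2 * Y₂.muP s) + 2 * (4096 * ω3S δ C s) + Y₂.muP s ≤ (D.G C).be i / 8 := by
  intro s _ i hi
  have h1 := KIn3.ω3S_be (D := D) (C := C) hi
  have h2 := hm s
  have h3 := D.ω3S_pos C s
  linarith

/-- the field `fin` of `EIn` -/
theorem ein_fin (Y₂ : S2 X) (s : K.S) (β : Bool) : (xw Y₂ s β).Finite := by
  have e : xw Y₂ s β = (fun q => (q - Y₂.R s, q + Y₂.R s)) '' (Y₂.Q s β : Set ℝ) := by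
    ext p
    constructor
    · rintro ⟨q, hq, rfl⟩
      exact ⟨q, hq, rfl⟩
    · rintro ⟨q, hq, rfl⟩
      exact ⟨q, hq, rfl⟩
  rw [e]
  exact (Finset.finite_toSet _).image _

/-- the field `cκ` of `EIn` -/
theorem ein_cκ (Y₃ : S3 Y₂ Ys sc) : ∀ β (s : (D.dat C).S₀), 4 * Y₃.c s.1 β ≤ 2 * Y₂.muP s.1 := by
  intro β s
  have c1 := Y₃.c1 s.1 β
  have c2 : Y₂.L.c s.1 β = Y₂.dP s.1 / 8 := rfl
  have c3 := Y₂.Lw.δμ s.1
  have c4 := Y₂.Lw.δ0 s.1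
  linarith

/-- the field `hD` of `EIn` -/
theorem ein_hD (Y₃ : S3 Y₂ Ys sc) (hJ : ∀ s, Y₂.J s = 2048 * ω3S δ C s)
    (hm : ∀ s, Y₂.muP s ≤ 2048 * ω3S δ C s) :
    ∀ β (s : (D.dat C).S₀), (Y₃.F β).D s ≤ 4096 * ω3S δ C s.1 := by
  intro β s
  show Y₂.muP s.1 + Y₂.J s.1 ≤ _
  rw [hJ]
  linarith [hm s.1]

/-- the field `hw` of `EIn` -/
theorem ein_hw (Y₃ : S3 Y₂ Ys sc) : ∀ β (s : (D.dat C).S₀), ∀ p ∈ xw Y₂ s.1 β,
    |(Y₃.F β).σ s p.1 - p.1| ≤ Y₂.muP s.1 ∧ |(Y₃.F β).σ s p.2 - p.2| ≤ Y₂.muP s.1 := by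
  intro β s p hp
  obtain ⟨h1, h2⟩ := xw_ends Y₂ hp
  exact ⟨F3W_disp_out Y₂.Lw β s h1, F3W_disp_out Y₂.Lw β s h2⟩

/-- the fields `ho`, `hμ` of `EIn` -/
theorem ein_ho (Y₃ : S3 Y₂ Ys sc) : ∀ β (s : (D.dat C).S₀) t, t ∉ Fat (xw Y₂) s.1 β 0 →
    |(Y₃.F β).σ s t - t| ≤ Y₂.muP s.1 :=
  fun β s _ ht => F3W_disp_out Y₂.Lw β s (notMem_wnd_of_fat Y₂ ht)

end Vale.Agent.P073.H212.Ed
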