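import Vale.Agent.P073.H228.EdgeP3
import Vale.Agent.P073.H228.EdgeP4
import Vale.Agent.P073.H142.FaceT
import Vale.Agent.P073.H31.SK3

/-!
# P073, H212, [SHARP-K3], part 1: the second staircases of ROUND P, sum over both directions

`Sg3.lip_part`, `Sg3.lip_sum`: in the box of the hook the sum of the two coordinates (through the
windows) is controlled by the sum over all bands.
`sd_eq`: the distance `sd` of H761 is this sum.
-/

open Set Metric Topology Filter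
open scoped ENNReal

set_option linter.unusedSectionVars false

namespace P073.H880.RP.Sg3

open _root_.P073 _root_.P073.Net _root_.P073.PA691 _root_.P073.H236 _root_.P073.H579
  _root_.P073.H345 _root_.P073.H880 _root_.P073.H142 _root_.P073.H228 _root_.P073.H228.EP
open Vale.Agent.P073.St (V)
open Vale.Agent.P073.H471 Vale.Agent.P073.H267 Vale.Agent.P073.H267.Geo
open P073.H919 (PI bc bw pcen pwid)
open Vale.Agent.P073.H190.Tvp (wP)

variable {Ω Λ : Set V} {v : V} {K : BoxCx Λ v} {S : Rad K} {W : Wid K S} {B : Boxes W}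
  {G : Geo B} {L : PLev G} {S₀ : Set K.S} {F : Bool → BFam 3 S₀ Λ} {ς : Bool → S₀ → ℝ}
  {T : Bool → ConHomeo Λ Λ} {s : S₀} {β : Bool} {y y' : V}

/-- the estimate of one coordinate by its own bands -/
theorem lip_part (P : Sg3 L S₀ F ς T) {g : V → V} {x x' : V} (hx : g x ∈ G.PB (7 / 8) s.1)
    (hx' : g x' ∈ G.PB (7 / 8) s.1) {e : Bool → ℝ} (he0 : ∀ β, 0 ≤ e β) {r : ℝ} (hr : 0 ≤ r)
    (hr1 : r ≤ 1)
    (hw : ∀ β, 0 < bw (L.N s.1 β) (K.slo s.1 (tg s.1 β) + G.a s.1)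
      (K.shi s.1 (tg s.1 β) - G.a s.1) (e β))
    (he : ∀ β, (F β).e s = stp (L.N s.1 β) (K.slo s.1 (tg s.1 β) + G.a s.1)
      (K.shi s.1 (tg s.1 β) - G.a s.1) / 2 - r * bw (L.N s.1 β)
        (K.slo s.1 (tg s.1 β) + G.a s.1) (K.shi s.1 (tg s.1 β) - G.a s.1) (e β))
    {A : ℝ} (hA : ∀ β, slAK (F β) (ς β) s * bw (L.N s.1 β) (K.slo s.1 (tg s.1 β) + G.a s.1)
      (K.shi s.1 (tg s.1 β) - G.a s.1) (e β) ≤ A) (β : Bool) :
    |wP G s.1 β (PS.map T (g x') (tg s.1 β)) - wP G s.1 β (PS.map T (g x) (tg s.1 β))| ≤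
      A * ∑ k : Fin (L.N s.1 β),
          |wlev (ι := PI L s.1) Sigma.fst (tg s.1) r (pcen L s.1) (pwid L e s.1) g ⟨β, k⟩ x' -
            wlev (ι := PI L s.1) Sigma.fst (tg s.1) r (pcen L s.1) (pwid L e s.1) g ⟨β, k⟩ x| +
        ς β s * |wP G s.1 β (g x' (tg s.1 β)) - wP G s.1 β (g x (tg s.1 β))| := by
  have hne : tg s.1 β ≠ tg s.1 (!β) := tg_ne_not s.1 β
  set g' : V → V := fun z => Function.update (g z) (tg s.1 (!β)) (g x (tg s.1 (!β))) with hg'
  have hself : g' x = g x := by simp only [hg', Function.update_eq_self]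
  have hoff : ∀ z, g' z (tg s.1 β) = g z (tg s.1 β) := fun z => by
    simp only [hg', Function.update_of_ne hne]
  have hval : ∀ z, g' z (tg s.1 (!β)) = g x (tg s.1 (!β)) := fun z => by
    simp only [hg', Function.update_self]
  have hmem : g' x' ∈ G.PB (7 / 8) s.1 := by
    obtain ⟨h1, h2⟩ := Geo.mem_PB.1 hx'
    obtain ⟨h3, -⟩ := Geo.mem_PB.1 hx
    refine Geo.mem_PB.2 ⟨fun k hk => ?_, ?_⟩
    · by_cases hkβ : k = tg s.1 (!β)
      · subst hkβ
        rw [hval]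
        exact h3 _ hk
      · simp only [hg', Function.update_of_ne hkβ]
        exact h1 k hk
    · simp only [hg', Function.update_of_ne (tg_ne s.1 (!β)).symm]
      exact h2
  have h1 := P.lip_w (g := g') (x := x) (x' := x') (by rw [hself]; exact hx) hmem he0 hr hr1 hw
    he hA β
  rw [P.apply hmem, hoff, ← P.apply hx', hself] at h1
  refine h1.trans (add_le_add (le_of_eq ?_) le_rfl)
  congr 1
  unfold dsum
  rw [Fintype.sum_sigma]
  have key : ∀ (β' : Bool) (k : Fin (L.N s.1 β')), β' ≠ β →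
      |wlev (ι := PI L s.1) Sigma.fst (tg s.1) r (pcen L s.1) (pwid L e s.1) g' ⟨β', k⟩ x' -
        wlev (ι := PI L s.1) Sigma.fst (tg s.1) r (pcen L s.1) (pwid L e s.1) g' ⟨β', k⟩ x| = 0 := by
    intro β' k hb
    have hb' : β' = !β := by
      revert hb
      cases β <;> cases β' <;> simp
    subst hb'
    unfold wlev cl
    simp only [hval, sub_self, abs_zero]
  have key2 : ∀ (k : Fin (L.N s.1 β)) (z : V),
      wlev (ι := PI L s.1) Sigma.fst (tg s.1) r (pcen L s.1) (pwid L e s.1) g' ⟨β, k⟩ z =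
        wlev (ι := PI L s.1) Sigma.fst (tg s.1) r (pcen L s.1) (pwid L e s.1) g ⟨β, k⟩ z := by
    intro k z
    unfold wlev cl
    simp only [hoff]
  rw [Finset.sum_eq_single β (fun β' _ hb => Finset.sum_eq_zero fun k _ => key β' k hb)
    (fun h => absurd (Finset.mem_univ β) h)]
  exact Finset.sum_congr rfl fun k _ => by rw [key2, key2]

/-- **the sum of the coordinates by the sum over all bands** -/
theorem lip_sum (P : Sg3 L S₀ F ς T) {g : V → V} {x x' : V} (hx : g x ∈ G.PB (7 / 8) s.1)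
    (hx' : g x' ∈ G.PB (7 / 8) s.1) {e : Bool → ℝ} (he0 : ∀ β, 0 ≤ e β) {r : ℝ} (hr : 0 ≤ r)
    (hr1 : r ≤ 1)
    (hw : ∀ β, 0 < bw (L.N s.1 β) (K.slo s.1 (tg s.1 β) + G.a s.1)
      (K.shi s.1 (tg s.1 β) - G.a s.1) (e β))
    (he : ∀ β, (F β).e s = stp (L.N s.1 β) (K.slo s.1 (tg s.1 β) + G.a s.1)
      (K.shi s.1 (tg s.1 β) - G.a s.1) / 2 - r * bw (L.N s.1 β)
        (K.slo s.1 (tg s.1 β) + G.a s.1) (K.shi s.1 (tg s.1 β) - G.a s.1) (e β))
    {A : ℝ} (hA : ∀ β, slAK (F β) (ς β) s * bw (L.N s.1 β) (K.slo s.1 (tg s.1 β) + G.a s.1)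
      (K.shi s.1 (tg s.1 β) - G.a s.1) (e β) ≤ A) :
    ∑ β, |wP G s.1 β (PS.map T (g x') (tg s.1 β)) - wP G s.1 β (PS.map T (g x) (tg s.1 β))| ≤
      A * dsum (wlev (ι := PI L s.1) Sigma.fst (tg s.1) r (pcen L s.1) (pwid L e s.1) g) x x' +
        ∑ β, ς β s * |wP G s.1 β (g x' (tg s.1 β)) - wP G s.1 β (g x (tg s.1 β))| := by
  refine (Finset.sum_le_sum fun β _ => P.lip_part hx hx' he0 hr hr1 hw he hA β).trans
    (le_of_eq ?_)
  rw [Finset.sum_add_distrib, ← Finset.mul_sum]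
  unfold dsum
  rw [Fintype.sum_sigma]

end P073.H880.RP.Sg3
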