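import Vale.Agent.P073.H212.Hk1

/-!
# P073, H212, [SHARP-K3], part 2: the local `l1` estimate of the last map, plates

`hkGO_sum`: through the hook of the plate and the second staircases, on passive sets in the box.
`l1_last`: through the layer of the tubes and the soft collapse.
-/

open Set Metric Topology Filter
open scoped ENNReal

set_option linter.unusedSectionVars false

namespace P073.H212.Hk

open P073 P073.Net P073.PA691 P073.H936 P073.H936.K3 P073.H142 P073.H880 P073.H880.RP P073.H236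
  P073.H579 P073.H345 P073.H228 P073.H228.EP
open Vale.Agent.P073.St (V)
open Vale.Agent.P073.H471 Vale.Agent.P073.H267 Vale.Agent.P073.H267.Geo
open Vale.Agent.P073.H73 (Mesh)
open P073.H919
open Vale.Agent.P073.H190.Tvp (wP)
open P073.H761.SE (cw wlo whi mx sd_nonneg sd_comm term_le_sd cw_eventually soft_loc sum_abs_le)


open P073.FW31 (L1Est)

variable {Ω Λ : Set V} {v : V} {K : BoxCx Λ v} {S : Rad K} {W : Wid K S} {B : Boxes W}
  {G : Geo B}

theorem tg_inj (s : K.S) : Function.Injective (tg s) := by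
  intro β β' h
  by_contra hne
  have hb' : β' = !β := by
    revert hne
    cases β <;> cases β' <;> simp
  subst hb'
  exact tg_ne_not s β h

theorem erase_eq (s : K.S) :
    Finset.univ.erase (K.nrm s) = (Finset.univ : Finset Bool).image (tg s) := by
  ext j
  simp only [Finset.mem_erase, Finset.mem_univ, and_true, Finset.mem_image, true_and]
  constructor
  · intro h
    exact ⟨bt s j, tg_bt s h⟩
  · rintro ⟨β, rfl⟩
    exact tg_ne s β

theorem cw_wP (s : K.S) (β : Bool) (y : V) :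
    cw (wlo G s) (whi G s) (tg s β) y = wP G s β (y (tg s β)) := by
  show max _ (min _ _) = max _ (min _ _)
  rw [min_comm]
  rfl

/-- the distance `sd` through the windows -/
theorem sd_eq (G : Geo B) (s : K.S) (y y' : V) :
    H761.SE.sd G s y y' = ∑ β, |wP G s β (y' (tg s β)) - wP G s β (y (tg s β))| := by
  unfold P073.H761.SE.sd
  rw [erase_eq, Finset.sum_image fun β _ β' _ h => tg_inj s h]
  exact Finset.sum_congr rfl fun β _ => by rw [cw_wP, cw_wP]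

variable {L : PLev G} {S₀ : Set K.S} {F : Bool → BFam 3 S₀ Λ}
  {T : Bool → ConHomeo Λ Λ} {M : Mesh Ω} {κ₀ κ₁ : V → V} {c d : ℝ} {Zb : S₀ → Set M.ι}
  {h2 h3 h4 : ConHomeo Ω Λ} {u : V}
  {H : HkG M L (Subtype.val : S₀ → K.S) F T κ₀ κ₁ c d Zb h2 h3 h4 u} {hΩ : IsOpen Ω}
  {r : S₀ → ℝ} {h5 : ConHomeo Ω Λ} {s : S₀}
  {Fσ : Bool → BFam 3 S₀ Λ} {ς : Bool → S₀ → ℝ} {Tσ : Bool → ConHomeo Λ Λ}

/-- **the hook of the plate, sum over both directions**: on passive sets in the box -/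
theorem hkGO_sum (O : HkGO H hΩ r h5) (P : Sg3 L S₀ Fσ ς Tσ) (r0 : 0 < r s) (r1 : r s < 1)
    (he0 : ∀ β, 0 ≤ (F β).e s)
    (hw : ∀ β, 0 < bw (L.N s.1 β) (K.slo s.1 (tg s.1 β) + G.a s.1)
      (K.shi s.1 (tg s.1 β) - G.a s.1) ((F β).e s))
    (he : ∀ β, (Fσ β).e s = stp (L.N s.1 β) (K.slo s.1 (tg s.1 β) + G.a s.1)
      (K.shi s.1 (tg s.1 β) - G.a s.1) / 2 - r s * bw (L.N s.1 β)
        (K.slo s.1 (tg s.1 β) + G.a s.1) (K.shi s.1 (tg s.1 β) - G.a s.1) ((F β).e s))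
    {A Lc ςs : ℝ} (hA0 : 0 ≤ A)
    (hA : ∀ β, slAK (Fσ β) (ς β) s * bw (L.N s.1 β) (K.slo s.1 (tg s.1 β) + G.a s.1)
      (K.shi s.1 (tg s.1 β) - G.a s.1) ((F β).e s) ≤ A)
    (hAw : ∀ i, A ≤ Lc * pwid L (fun β => (F β).e s) s.1 i) (hL0 : 0 ≤ Lc)
    (hςs : ∑ β, ς β s ≤ ςs)
    {Z : Set V} (hZ : Z ⊆ Ω) (hZd : ∀ q, ∀ x ∈ Z, x ∉ interior ((H.hookIn s).K.C q))
    (hbox : ∀ x ∈ Z, h4.toFun x ∈ HB G c d s.1) {x : V} (hx : x ∈ Z) :
    ∀ᶠ y in 𝓝[Z] x, H761.SE.sd G s.1 (PS.map Tσ (h5.toFun x)) (PS.map Tσ (h5.toFun y)) ≤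
      Lc * H761.SE.sd G s.1 (h4.toFun x) (h4.toFun y) + ςs * ‖h5.toFun y - h5.toFun x‖ := by
  have hone : ∀ (z : V) (i : Fin 3), |z i| ≤ ‖z‖ := fun z i => by
    rw [← Real.norm_eq_abs]; exact norm_le_pi_norm z _
  have hxU : x ∈ (phook M L (Subtype.val : S₀ → K.S) F c d Zb s).U h4 :=
    (H.mem_U s (hZ hx)).2 (hbox x hx)
  have h6 := eventually_nhdsWithin_iff.1 ((O.loc s r0 r1).rest hxU)
  filter_upwards [nhdsWithin_le_nhds h6, self_mem_nhdsWithin] with y h7 hyZ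
  have hyU : y ∈ (phook M L (Subtype.val : S₀ → K.S) F c d Zb s).U h4 :=
    (H.mem_U s (hZ hyZ)).2 (hbox y hyZ)
  have h10 := h7 hyU fun q => hZd q y hyZ
  have hx5 : h5.toFun x ∈ G.PB (7 / 8) s.1 :=
    HB_PB H.hc H.hd s.1 ((O.mem s (hZ hx)).2 (hbox x hx))
  have hy5 : h5.toFun y ∈ G.PB (7 / 8) s.1 :=
    HB_PB H.hc H.hd s.1 ((O.mem s (hZ hyZ)).2 (hbox y hyZ))
  have h11 := P.lip_sum (g := h5.toFun) hx5 hy5 he0 r0.le r1.le hw he hA
  have h12 := dsum_clamp_le (H.hookIn s).H (g := h4.toFun) hL0 hAw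
    (al := fun b => K.slo s.1 (tg s.1 b) + G.a s.1)
    (be := fun b => K.shi s.1 (tg s.1 b) - G.a s.1)
    (fun i => by
      have h20 := P.band_win (e := fun β => (F β).e s) he0 le_rfl hw i
      rw [one_mul] at h20
      exact h20) x y
  have h13 : A * dsum (wlev (ι := PI L s.1) Sigma.fst (tg s.1) (r s) (pcen L s.1)
      (pwid L (fun β => (F β).e s) s.1) h5.toFun) x y ≤
      Lc * ∑ β', |wP G s.1 β' (h4.toFun y (tg s.1 β')) -
        wP G s.1 β' (h4.toFun x (tg s.1 β'))| :=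
    (mul_le_mul_of_nonneg_left h10 hA0).trans h12
  have hn := norm_nonneg (h5.toFun y - h5.toFun x)
  have h14 : ∑ β, ς β s * |wP G s.1 β (h5.toFun y (tg s.1 β)) -
      wP G s.1 β (h5.toFun x (tg s.1 β))| ≤ ςs * ‖h5.toFun y - h5.toFun x‖ := by
    refine (Finset.sum_le_sum fun β _ => mul_le_mul_of_nonneg_left
      ((abs_clamp_le _ _ _ _).trans ?_) ((P.isS β).s0 s).le).trans
      (le_of_eq_of_le (Finset.sum_mul _ _ _).symm (mul_le_mul_of_nonneg_right hςs hn))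
    have := hone (h5.toFun y - h5.toFun x) (tg s.1 β)
    rwa [Pi.sub_apply] at this
  rw [sd_eq, sd_eq]
  linarith

end P073.H212.Hk
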