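import Vale.Agent.P073.H212.Hk2

/-!
# P073, H212, [SHARP-K3], part 3: the layer of the tubes and the soft collapse over a plate

`l1_tail`: on passive sets with images over the plate `s`, wherever they are: the sum of the
coordinates of the last map is controlled by the coordinates of `f5` through the windows.
-/

open Set Metric Topology Filter
open scoped ENNReal

set_option linter.unusedSectionVars false

namespace P073.H212.Hk

open P073 P073.Net P073.PA691 P073.H936 P073.H936.K3 P073.H142 P073.H880 P073.H880.RP P073.H236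
  P073.H579 P073.H345 P073.H228 P073.H228.EP P073.H429
open Vale.Agent.P073.St (V)
open Vale.Agent.P073.H471 Vale.Agent.P073.H267 Vale.Agent.P073.H267.Geo
open Vale.Agent.P073.H73 (Mesh)
open P073.H919
open Vale.Agent.P073.H190.Tvp (wP)
open P073.H761.SE (cw wlo whi mx sd_nonneg sd_comm term_le_sd cw_eventually soft_loc sum_abs_le)



variable {Ω Λ : Set V} {v : V} {K : BoxCx Λ v} {S : Rad K} {W : Wid K S} {B : Boxes W}
  {G : Geo B} {s : K.S}

section tail

variable {γ : Type} {φ : γ → K.G} {Pb : γ → Set V} {FT : HFam 3 γ Λ} {D : Set V}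
  {ι : γ → Type} [∀ b, Fintype (ι b)] {l h : ∀ b, ι b → ℝ} {ςt : γ → ℝ}
  {f5 h6 : ConHomeo Ω Λ} {Sm : ConHomeo Λ Λ} {R : Fac K} {Φ : ConHomeo Λ Λ} {μ : ℝ}

/-- a point over the plate in a support of the layer of the tubes: transversally in the full zone,
or inside the window -/
def YOk (G : Geo B) (s : K.S) (φ : γ → K.G) (FT : HFam 3 γ Λ) : Prop :=
  ∀ b, ∀ y ∈ (FT.X b).K, y ∈ G.PB (7 / 8) s → |y (K.nrm s) - K.slo s (K.nrm s)| < B.τ s →
    ∀ i, i ≠ K.dir (φ b) → y i ∈ Ioo ((FT.X b).lo i) ((FT.X b).hi i) ∨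
      (i ≠ K.nrm s ∧ K.slo s i + G.a s < y i ∧ y i < K.shi s i - G.a s)

/-- **the layer of the tubes and the soft collapse**, over a plate -/
theorem l1_tail (TL : TLay B φ Pb FT D l h ςt f5 h6 Sm) (HΦ : IsSoft1 B μ R Φ) (hμ : 0 ≤ μ)
    {X : Set V} (hX : X ⊆ Ω) (hXD : Disjoint X D)
    (hpos : ∀ x ∈ X, f5.toFun x ∈ G.PB (7 / 8) s ∧
      |f5.toFun x (K.nrm s) - K.slo s (K.nrm s)| < B.τ s)
    (hY : YOk G s φ FT) {sl κ m : ℝ}
    (hκ : ∀ b, ∃ ρ > 0, (∀ i, ρ ≤ (FT.X b).r i) ∧ (FT.X b).D / ρ ≤ κ)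
    (hsl : ∀ b, slG (FT.X b).al (FT.X b).be (l b) (h b) (ςt b) ≤ sl) (hm1 : 1 ≤ m)
    (hm : sl + κ ≤ m) {N q t ε : ℝ}
    (hς : ∀ b, ∀ x ∈ X, f5.toFun x ∈ (FT.X b).K →
      ∀ᶠ y in 𝓝[X] x, ςt b * ‖h6.toFun y - h6.toFun x‖ ≤ ε * ‖y - x‖) (hε : 0 ≤ ε)
    (hN : ∀ x ∈ X, ∀ y ∈ X, ‖Sm.toFun (h6.toFun y) - Sm.toFun (h6.toFun x)‖ ≤ N * ‖y - x‖)
    (hq0 : 0 ≤ q)
    (qs : ∀ x ∈ X, Sm.toFun (h6.toFun x) ∈ Zs W s → R.ρs s ≤ q)
    (qe : ∀ x ∈ X, ∀ e, Sm.toFun (h6.toFun x) ∈ Ze W e → R.ρe e ≤ q)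
    (qv : ∀ x ∈ X, ∀ i, Sm.toFun (h6.toFun x) ∈ Zv W i → R.ρv i ≤ q)
    (hqN : 7 * (q * N) ≤ t) {x : V} (hx : x ∈ X) :
    ∀ᶠ y in 𝓝[X] x, ∑ j, |Φ.toFun (Sm.toFun (h6.toFun y)) j - Φ.toFun (Sm.toFun (h6.toFun x)) j| ≤
      (1 + 3 * μ) * m * H761.SE.sd G s (f5.toFun x) (f5.toFun y) +
        (3 * t + (1 + 3 * μ) * ε) * ‖y - x‖ := by
  classical
  have hμ3 : 0 ≤ 1 + 3 * μ := by linarith
  have hμm : 1 + 3 * μ ≤ (1 + 3 * μ) * m := le_mul_of_one_le_right hμ3 hm1
  have hcf : ContinuousWithinAt f5.toFun X x := (f5.cont.mono hX) x hx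
  -- the Lipschitz term
  have hqq : ∀ y ∈ X, 7 * (q * ‖Sm.toFun (h6.toFun y) - Sm.toFun (h6.toFun x)‖) ≤
      t * ‖y - x‖ := by
    intro y hy
    have h1 := mul_le_mul_of_nonneg_left (hN x hx y hy) hq0
    have h2 := mul_le_mul_of_nonneg_right hqN (norm_nonneg (y - x))
    linarith
  by_cases hK : ∃ b, f5.toFun x ∈ (FT.X b).K
  · obtain ⟨b, hb⟩ := hK
    set e := φ b with he
    have hj : (FT.X b).j = K.dir e := TL.j b
    have hbE : f5.toFun x ∈ B.E e := TL.KE b hb
    obtain ⟨hPB, hn⟩ := hpos x hx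
    have hPK : f5.toFun x ∈ PK G s := PB_sub_PK (by norm_num) s hPB
    have hes := sq_of_PK_E hPK hbE
    have hd : K.dir e ≠ K.nrm s := (nrm_ne_dir hes).symm
    obtain ⟨w1, w2⟩ := win_of_PK_E hPK hbE
    have hse : f5.toFun x ∈ W.se e := TL.Ese b hb
    -- coordinates inside the window are controlled by `sd`
    have hwin : ∀ i, i ≠ K.nrm s → K.slo s i + G.a s < f5.toFun x i →
        f5.toFun x i < K.shi s i - G.a s →
        ∀ᶠ y in 𝓝[X] x, |f5.toFun y i - f5.toFun x i| ≤ H761.SE.sd G s (f5.toFun x) (f5.toFun y) := by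
      intro i hi a1 a2
      have h1 := cw_eventually (G := G) (s := s) (j := i) (y := f5.toFun x) a1 a2
      have h0 := h1.self_of_nhds
      filter_upwards [hcf.eventually h1] with y h2
      have := term_le_sd G s (f5.toFun x) (f5.toFun y) hi
      rwa [h2, h0] at this
    have hv := hwin (K.dir e) hd w1 w2
    obtain ⟨ρ, hρ, hρr, hρκ⟩ := hκ b
    have hest := TL.estC (b := b) hX hXD hx hse (c₀ := fun y => H761.SE.sd G s (f5.toFun x) (f5.toFun y))
      (c₁ := fun y => H761.SE.sd G s (f5.toFun x) (f5.toFun y))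
      (c₂ := fun y => ‖h6.toFun y - h6.toFun x‖)
      (c := fun y => m * H761.SE.sd G s (f5.toFun x) (f5.toFun y) + ε * ‖y - x‖) hρ hρr (hsl b) hρκ
      (by rw [hj]; exact hv)
      (fun i hi => by
        rw [hj] at hi
        rcases hY b _ hb hPB hn i hi with h1 | ⟨h1, h2, h3⟩
        · exact Or.inl h1
        · exact Or.inr (hwin i h1 h2 h3))
      (Eventually.of_forall fun y => sd_nonneg G s _ _)
      (by
        filter_upwards with y
        have h1 := norm_le_pi_norm (h6.toFun y - h6.toFun x) (FT.X b).j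
        rwa [Real.norm_eq_abs, Pi.sub_apply] at h1)
      (by
        filter_upwards [hς b x hx hb] with y h2
        have h1 := mul_le_mul_of_nonneg_right hm (sd_nonneg G s (f5.toFun x) (f5.toFun y))
        have e1 : sl * H761.SE.sd G s (f5.toFun x) (f5.toFun y) + κ * H761.SE.sd G s (f5.toFun x) (f5.toFun y) +
            ςt b * ‖h6.toFun y - h6.toFun x‖ = (sl + κ) * H761.SE.sd G s (f5.toFun x) (f5.toFun y) +
            ςt b * ‖h6.toFun y - h6.toFun x‖ := by ring
        linarith)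
    rw [hj] at hest
    -- the collapse
    have hfK : Sm.toFun (h6.toFun x) ∈ (FT.X b).K := TL.isH.mem ((TL.memK (hX hx)).2 hb)
    have hfc : ContinuousWithinAt (fun y => Sm.toFun (h6.toFun y)) X x :=
      (Sm.cont.comp (h6.cont.mono hX) fun y hy => h6.mapsTo (hX hy)) x hx
    have hv' : ∀ i, Sm.toFun (h6.toFun x) ∈ interior (Zv W i) → ∀ᶠ y in 𝓝[X] x,
        ∑ j, |Φ.toFun (Sm.toFun (h6.toFun y)) j - Φ.toFun (Sm.toFun (h6.toFun x)) j| ≤
          (1 + 3 * μ) * m * H761.SE.sd G s (f5.toFun x) (f5.toFun y) +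
          (3 * t + (1 + 3 * μ) * ε) * ‖y - x‖ := by
      intro i hi
      have hqi := qv x hx i (interior_subset hi)
      filter_upwards [hfc.eventually (isOpen_interior.mem_nhds hi), self_mem_nhdsWithin]
        with y h1 hy
      have h2 := hqq y hy
      have hn0 := norm_nonneg (Sm.toFun (h6.toFun y) - Sm.toFun (h6.toFun x))
      have h3 : R.ρv i * ‖Sm.toFun (h6.toFun y) - Sm.toFun (h6.toFun x)‖ ≤
          q * ‖Sm.toFun (h6.toFun y) - Sm.toFun (h6.toFun x)‖ :=
        mul_le_mul_of_nonneg_right hqi hn0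
      have h4 : ∀ j ∈ (Finset.univ : Finset (Fin 3)), |Φ.toFun (Sm.toFun (h6.toFun y)) j -
          Φ.toFun (Sm.toFun (h6.toFun x)) j| ≤ t * ‖y - x‖ := by
        intro j _
        have h5 := HΦ.zv i _ (interior_subset h1) _ (interior_subset hi) j
        have h6 : 0 ≤ q * ‖Sm.toFun (h6.toFun y) - Sm.toFun (h6.toFun x)‖ := by positivity
        linarith
      refine (Finset.sum_le_sum h4).trans ?_
      rw [Finset.sum_const, Finset.card_univ, Fintype.card_fin, nsmul_eq_mul]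
      have h5 : 0 ≤ (1 + 3 * μ) * m * H761.SE.sd G s (f5.toFun x) (f5.toFun y) :=
        mul_nonneg (hμ3.trans hμm) (sd_nonneg _ _ _ _)
      have h6 : 0 ≤ (1 + 3 * μ) * ε * ‖y - x‖ := by positivity
      push_cast
      linarith
    rcases TL.zone hfK with h1 | h1 | h1
    · have hqi := qe x hx e (B.E_subset e (interior_subset h1))
      filter_upwards [hfc.eventually (isOpen_interior.mem_nhds h1), hest, self_mem_nhdsWithin]
        with y h2 h3 hy
      have h4 := hqq y hy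
      have hn0 := norm_nonneg (Sm.toFun (h6.toFun y) - Sm.toFun (h6.toFun x))
      have h5 : R.ρe e * ‖Sm.toFun (h6.toFun y) - Sm.toFun (h6.toFun x)‖ ≤
          q * ‖Sm.toFun (h6.toFun y) - Sm.toFun (h6.toFun x)‖ :=
        mul_le_mul_of_nonneg_right hqi hn0
      set dv := |Sm.toFun (h6.toFun y) (K.dir e) - Sm.toFun (h6.toFun x) (K.dir e)| with hdv
      have h6 : ∀ j ∈ (Finset.univ : Finset (Fin 3)), |Φ.toFun (Sm.toFun (h6.toFun y)) j -
          Φ.toFun (Sm.toFun (h6.toFun x)) j| ≤ (if j = K.dir e then dv else 0) +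
            (μ * dv + t * ‖y - x‖) := by
        intro j _
        have h7 := HΦ.ze e _ (interior_subset h2) _ (interior_subset h1) j
        have h8 : (if j = K.dir e then |Sm.toFun (h6.toFun y) j - Sm.toFun (h6.toFun x) j|
            else 0) = if j = K.dir e then dv else 0 := by
          split_ifs with h9
          · rw [h9]
          · rfl
        rw [h8] at h7
        linarith
      refine (Finset.sum_le_sum h6).trans ?_
      rw [Finset.sum_add_distrib, Finset.sum_ite_eq', if_pos (Finset.mem_univ _),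
        Finset.sum_const, Finset.card_univ, Fintype.card_fin, nsmul_eq_mul]
      have h9 := mul_le_mul_of_nonneg_left h3 hμ3
      push_cast
      have e1 : (1 + 3 * μ) * (m * H761.SE.sd G s (f5.toFun x) (f5.toFun y) + ε * ‖y - x‖) =
        (1 + 3 * μ) * m * H761.SE.sd G s (f5.toFun x) (f5.toFun y) + (1 + 3 * μ) * ε * ‖y - x‖ := by
        ring
      rw [e1] at h9
      linarith
    · exact hv' _ h1
    · exact hv' _ h1
  · push Not at hK
    have e := TL.eventually_eq hX hx hK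
    have e0 : Sm.toFun (h6.toFun x) = f5.toFun x := e.self_of_nhdsWithin hx
    obtain ⟨hPB, hn⟩ := hpos x hx
    have h1 := soft_loc (G := G) HΦ hμ (c := 7 / 8) (by norm_num) hPB hn (q := q)
      (fun h => qs x hx (by rw [e0]; exact h)) (fun i h => qe x hx i (by rw [e0]; exact h))
      (fun i h => qv x hx i (by rw [e0]; exact h))
    filter_upwards [hcf.eventually h1, e, self_mem_nhdsWithin] with y h2 h3 hy
    have h4 := hqq y hy
    rw [h3, e0] at h4 ⊢
    have h5 := sum_abs_le G s (y := f5.toFun x) (y' := f5.toFun y) (z := Φ.toFun (f5.toFun x))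
      (z' := Φ.toFun (f5.toFun y))
      (c := μ * H761.SE.sd G s (f5.toFun x) (f5.toFun y) + t * ‖y - x‖) fun j => by
        obtain ⟨h6, h7⟩ := h2 j
        constructor <;> linarith
    have h6 := sd_nonneg G s (f5.toFun x) (f5.toFun y)
    have h7 := mul_le_mul_of_nonneg_right hμm h6
    have h8 : 0 ≤ (1 + 3 * μ) * ε * ‖y - x‖ := by positivity
    linarith

end tail

end P073.H212.Hk
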