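import Vale.Agent.P073.H212.Hk3
import Vale.Agent.P073.H919.PEx
import Vale.Agent.P073.H233.Tail3I

/-!
# P073, H212, [SHARP-K3], part 4: the `l1` estimate of the last map (`L1Est`)

* `hkGO_sum_le`: as `hkGO_sum`, with windows of any smaller size.
* `l1_last`: hook of the plate, second staircases, layer of the tubes, soft collapse.
-/

open Set Metric Topology Filter
open scoped ENNReal

set_option linter.unusedSectionVars false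

namespace P073.H212.Hk

open P073 P073.Net P073.PA691 P073.H936 P073.H936.K3 P073.H142 P073.H880 P073.H880.RP P073.H236
  P073.H579 P073.H345 P073.H228 P073.H228.EP P073.H429
open Vale.Agent.P073.St (V)
open Vale.Agent.P073.H471 Vale.Agent.P073.H267 Vale.Agent.P073.H267.Geo
open Vale.Agent.P073.H73 (Mesh)
open P073.H919
open Vale.Agent.P073.H190.Tvp (wP)
open P073.H761.SE (cw wlo whi mx sd_nonneg sd_comm term_le_sd cw_eventually soft_loc sum_abs_le)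
open P073.FW31 (L1Est)



variable {Ω Λ : Set V} {v : V} {K : BoxCx Λ v} {S : Rad K} {W : Wid K S} {B : Boxes W}
  {G : Geo B}

variable {L : PLev G} {S₀ : Set K.S} {F : Bool → BFam 3 S₀ Λ}
  {T : Bool → ConHomeo Λ Λ} {M : Mesh Ω} {κ₀ κ₁ : V → V} {c d : ℝ} {Zb : S₀ → Set M.ι}
  {h2 h3 h4 : ConHomeo Ω Λ} {u : V}
  {H : HkG M L (Subtype.val : S₀ → K.S) F T κ₀ κ₁ c d Zb h2 h3 h4 u} {hΩ : IsOpen Ω}
  {r : S₀ → ℝ} {h5 : ConHomeo Ω Λ} {s : S₀}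
  {Fσ : Bool → BFam 3 S₀ Λ} {ς : Bool → S₀ → ℝ} {Tσ : Bool → ConHomeo Λ Λ}

/-- **the hook of the plate, sum over both directions**: on passive sets in the box, windows of
any smaller size -/
theorem hkGO_sum_le (O : HkGO H hΩ r h5) (P : Sg3 L S₀ Fσ ς Tσ) (r1 : r s < 1) {ρ : ℝ}
    (ρ0 : 0 < ρ) (hρ : ρ ≤ r s) (he0 : ∀ β, 0 ≤ (F β).e s)
    (hw : ∀ β, 0 < bw (L.N s.1 β) (K.slo s.1 (tg s.1 β) + G.a s.1)
      (K.shi s.1 (tg s.1 β) - G.a s.1) ((F β).e s))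
    (he : ∀ β, (Fσ β).e s = stp (L.N s.1 β) (K.slo s.1 (tg s.1 β) + G.a s.1)
      (K.shi s.1 (tg s.1 β) - G.a s.1) / 2 - ρ * bw (L.N s.1 β)
        (K.slo s.1 (tg s.1 β) + G.a s.1) (K.shi s.1 (tg s.1 β) - G.a s.1) ((F β).e s))
    {A Lc ςs : ℝ} (hA0 : 0 ≤ A)
    (hA : ∀ β, slAK (Fσ β) (ς β) s * bw (L.N s.1 β) (K.slo s.1 (tg s.1 β) + G.a s.1)
      (K.shi s.1 (tg s.1 β) - G.a s.1) ((F β).e s) ≤ A)
    (hAw : ∀ i, A ≤ Lc * pwid L (fun β => (F β).e s) s.1 i) (hL0 : 0 ≤ Lc)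
    (hςs : ∑ β, ς β s ≤ ςs)
    {Z : Set V} (hZ : Z ⊆ Ω) (hZd : ∀ q, ∀ x ∈ Z, x ∉ interior ((H.hookIn s).K.C q))
    (hbox : ∀ x ∈ Z, h4.toFun x ∈ HB G c d s.1) {x : V} (hx : x ∈ Z) :
    ∀ᶠ y in 𝓝[Z] x, H761.SE.sd G s.1 (PS.map Tσ (h5.toFun x)) (PS.map Tσ (h5.toFun y)) ≤
      Lc * H761.SE.sd G s.1 (h4.toFun x) (h4.toFun y) + ςs * ‖h5.toFun y - h5.toFun x‖ := by
  have hone : ∀ (z : V) (i : Fin 3), |z i| ≤ ‖z‖ := fun z i => by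
    rw [← Real.norm_eq_abs]; exact norm_le_pi_norm z _
  have hxU : x ∈ (phook M L (Subtype.val : S₀ → K.S) F c d Zb s).U h4 :=
    (H.mem_U s (hZ hx)).2 (hbox x hx)
  have h6 := eventually_nhdsWithin_iff.1 ((O.loc_le s r1 ρ0 hρ).rest hxU)
  filter_upwards [nhdsWithin_le_nhds h6, self_mem_nhdsWithin] with y h7 hyZ
  have hyU : y ∈ (phook M L (Subtype.val : S₀ → K.S) F c d Zb s).U h4 :=
    (H.mem_U s (hZ hyZ)).2 (hbox y hyZ)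
  have h10 := h7 hyU fun q => hZd q y hyZ
  have hx5 : h5.toFun x ∈ G.PB (7 / 8) s.1 :=
    HB_PB H.hc H.hd s.1 ((O.mem s (hZ hx)).2 (hbox x hx))
  have hy5 : h5.toFun y ∈ G.PB (7 / 8) s.1 :=
    HB_PB H.hc H.hd s.1 ((O.mem s (hZ hyZ)).2 (hbox y hyZ))
  have ρ1 : ρ ≤ 1 := hρ.trans r1.le
  have h11 := P.lip_sum (g := h5.toFun) hx5 hy5 he0 ρ0.le ρ1 hw he hA
  have h12 := dsum_clamp_le (H.hookIn s).H (g := h4.toFun) hL0 hAw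
    (al := fun b => K.slo s.1 (tg s.1 b) + G.a s.1)
    (be := fun b => K.shi s.1 (tg s.1 b) - G.a s.1)
    (fun i => by
      have h20 := P.band_win (e := fun β => (F β).e s) he0 le_rfl hw i
      rw [one_mul] at h20
      exact h20) x y
  have h13 : A * dsum (wlev (ι := PI L s.1) Sigma.fst (tg s.1) ρ (pcen L s.1)
      (pwid L (fun β => (F β).e s) s.1) h5.toFun) x y ≤
      Lc * ∑ β', |wP G s.1 β' (h4.toFun y (tg s.1 β')) -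
        wP G s.1 β' (h4.toFun x (tg s.1 β'))| :=
    (mul_le_mul_of_nonneg_left h10 hA0).trans h12
  have hn := norm_nonneg (h5.toFun y - h5.toFun x)
  have h14 : ∑ β, ς β s * |wP G s.1 β (h5.toFun y (tg s.1 β)) -
      wP G s.1 β (h5.toFun x (tg s.1 β))| ≤ ςs * ‖h5.toFun y - h5.toFun x‖ := by
    refine (Finset.sum_le_sum fun β _ => mul_le_mul_of_nonneg_left
      ((abs_clamp_le _ _ _ _).trans ?_) ((P.isS β).s0 s).le).trans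
      (le_of_eq_of_le (Finset.sum_mul _ _ _).symm (mul_le_mul_of_nonneg_right hςs hn))
    have := hone (h5.toFun y - h5.toFun x) (tg s.1 β)
    rwa [Pi.sub_apply] at this
  rw [sd_eq, sd_eq]
  linarith

/-- the box is kept by the second staircases -/
theorem mem_box5 (O : HkGO H hΩ r h5) (P : Sg3 L S₀ Fσ ς Tσ) {f5 : V → V}
    (hf5 : ∀ x ∈ Ω, f5 x = PS.map Tσ (h5.toFun x)) {x : V} (hx : x ∈ Ω) :
    f5 x ∈ HB G c d s.1 ↔ h4.toFun x ∈ HB G c d s.1 := by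
  rw [hf5 x hx, (Sg3_prodOn P s H.hc H.hc2 H.hd).mem _ (h5.mapsTo hx), O.mem s hx]

section last

variable {γ : Type} {φ : γ → K.G} {Pb : γ → Set V} {FT : HFam 3 γ Λ} {D : Set V}
  {ι : γ → Type} [∀ b, Fintype (ι b)] {l h : ∀ b, ι b → ℝ} {ςt : γ → ℝ}
  {f5 h6 : ConHomeo Ω Λ} {Sm : ConHomeo Λ Λ} {R : Fac K} {Φ : ConHomeo Λ Λ} {μ : ℝ}

/-- **the `l1` estimate of the last map over a plate** -/
theorem l1_last (O : HkGO H hΩ r h5) (P : Sg3 L S₀ Fσ ς Tσ) (r1 : r s < 1) {ρ : ℝ}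
    (ρ0 : 0 < ρ) (hρ : ρ ≤ r s) (he0 : ∀ β, 0 ≤ (F β).e s)
    (hw : ∀ β, 0 < bw (L.N s.1 β) (K.slo s.1 (tg s.1 β) + G.a s.1)
      (K.shi s.1 (tg s.1 β) - G.a s.1) ((F β).e s))
    (he : ∀ β, (Fσ β).e s = stp (L.N s.1 β) (K.slo s.1 (tg s.1 β) + G.a s.1)
      (K.shi s.1 (tg s.1 β) - G.a s.1) / 2 - ρ * bw (L.N s.1 β)
        (K.slo s.1 (tg s.1 β) + G.a s.1) (K.shi s.1 (tg s.1 β) - G.a s.1) ((F β).e s))
    {A Lc ςs : ℝ} (hA0 : 0 ≤ A)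
    (hA : ∀ β, slAK (Fσ β) (ς β) s * bw (L.N s.1 β) (K.slo s.1 (tg s.1 β) + G.a s.1)
      (K.shi s.1 (tg s.1 β) - G.a s.1) ((F β).e s) ≤ A)
    (hAw : ∀ i, A ≤ Lc * pwid L (fun β => (F β).e s) s.1 i) (hL0 : 0 ≤ Lc)
    (hςs : ∑ β, ς β s ≤ ςs)
    (hf5 : ∀ x ∈ Ω, f5.toFun x = PS.map Tσ (h5.toFun x)) (hd1 : d < 1)
    -- the layer of the tubes and the collapse
    (TL : TLay B φ Pb FT D l h ςt f5 h6 Sm) (HΦ : IsSoft1 B μ R Φ) (hμ : 0 ≤ μ)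
    (hY : YOk G s.1 φ FT) {sl κ m : ℝ}
    (hκ : ∀ b, ∃ ρ > 0, (∀ i, ρ ≤ (FT.X b).r i) ∧ (FT.X b).D / ρ ≤ κ)
    (hsl : ∀ b, slG (FT.X b).al (FT.X b).be (l b) (h b) (ςt b) ≤ sl) (hm1 : 1 ≤ m)
    (hm : sl + κ ≤ m)
    -- the set
    {X : Set V} (hX : X ⊆ Ω) (hXZ : ∀ q, ∀ x ∈ X, x ∉ interior ((H.hookIn s).K.C q))
    (hXD : Disjoint X D) (hbox : ∀ x ∈ X, h4.toFun x ∈ HB G c d s.1) {N q t ε ε₅ : ℝ}
    (hς5 : ∀ x ∈ X, ∀ᶠ y in 𝓝[X] x, ςs * ‖h5.toFun y - h5.toFun x‖ ≤ ε₅ * ‖y - x‖)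
    (hς6 : ∀ b, ∀ x ∈ X, f5.toFun x ∈ (FT.X b).K →
      ∀ᶠ y in 𝓝[X] x, ςt b * ‖h6.toFun y - h6.toFun x‖ ≤ ε * ‖y - x‖) (hε : 0 ≤ ε)
    (hN : ∀ x ∈ X, ∀ y ∈ X, ‖Sm.toFun (h6.toFun y) - Sm.toFun (h6.toFun x)‖ ≤ N * ‖y - x‖)
    (hq0 : 0 ≤ q)
    (qs : ∀ x ∈ X, Sm.toFun (h6.toFun x) ∈ Zs W s.1 → R.ρs s.1 ≤ q)
    (qe : ∀ x ∈ X, ∀ e, Sm.toFun (h6.toFun x) ∈ Ze W e → R.ρe e ≤ q)
    (qv : ∀ x ∈ X, ∀ i, Sm.toFun (h6.toFun x) ∈ Zv W i → R.ρv i ≤ q)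
    (hqN : 7 * (q * N) ≤ t) {μ' τ' : ℝ} (hμ' : (1 + 3 * μ) * m * Lc ≤ 1 + μ')
    (hτ' : (1 + 3 * μ) * m * ε₅ + 3 * t + (1 + 3 * μ) * ε ≤ τ') :
    L1Est G s.1 X μ' τ' (fun x => PS.map T (h3.toFun x))
      (fun x => Φ.toFun (Sm.toFun (h6.toFun x))) := by
  intro x hx
  have hτs := B.τ_pos s.1
  have hpos : ∀ x ∈ X, f5.toFun x ∈ G.PB (7 / 8) s.1 ∧
      |f5.toFun x (K.nrm s.1) - K.slo s.1 (K.nrm s.1)| < B.τ s.1 := by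
    intro x hx
    have h1 := (mem_box5 (s := s) O P hf5 (hX hx)).2 (hbox x hx)
    refine ⟨HB_PB H.hc H.hd s.1 h1, ?_⟩
    have h2 := (mem_HB.1 h1).2
    nlinarith
  have hμ3 : 0 ≤ (1 + 3 * μ) * m := by positivity
  filter_upwards [hkGO_sum_le O P r1 ρ0 hρ he0 hw he hA0 hA hAw hL0 hςs hX hXZ hbox hx,
    l1_tail TL HΦ hμ hX hXD hpos hY hκ hsl hm1 hm hς6 hε hN hq0 qs qe qv hqN hx, hς5 x hx,
    self_mem_nhdsWithin] with y a1 a2 a3 hy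
  rw [← hf5 x (hX hx), ← hf5 y (hX hy)] at a1
  have e4 : ∀ z ∈ X, PS.map T (h3.toFun z) = h4.toFun z := fun z hz => (H.map z (hX hz)).symm
  show ∑ j, |_| ≤ (1 + μ') * H761.SE.sd G s.1 (PS.map T (h3.toFun x)) (PS.map T (h3.toFun y)) + _
  rw [e4 x hx, e4 y hy]
  have a5 := mul_le_mul_of_nonneg_left (a1.trans (add_le_add_right a3 _)) hμ3
  have a6 := mul_le_mul_of_nonneg_right hμ' (sd_nonneg G s.1 (h4.toFun x) (h4.toFun y))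
  have a7 := mul_le_mul_of_nonneg_right hτ' (norm_nonneg (y - x))
  have e1 : (1 + 3 * μ) * m * (Lc * H761.SE.sd G s.1 (h4.toFun x) (h4.toFun y) + ε₅ * ‖y - x‖) =
      (1 + 3 * μ) * m * Lc * H761.SE.sd G s.1 (h4.toFun x) (h4.toFun y) +
        (1 + 3 * μ) * m * ε₅ * ‖y - x‖ := by ring
  rw [e1] at a5
  linarith

end last

end P073.H212.Hk
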