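import Vale.Agent.P073.H212.Hk4
import Vale.Agent.P073.H31.SK5
import Vale.Agent.P073.H142.FaceF
import Vale.Agent.P073.H267.K3T2

/-!
# P073, H212, [SHARP-K3], part 5: the `l1` estimate of the last map, over the stages of H267

* `yok_of_fit`: the condition `YOk` for the boxes of the tubes.
* `small_last`: the reduction factors at the points of the last map over a plate.
* `l1_g`: `L1Est` for `Φ ∘ f`, `f` the last map of the stage `S5`.
-/

set_option linter.unusedSectionVars false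

open Set Metric Topology Filter MeasureTheory
open scoped ENNReal

namespace P073.H212.Hk

open P073 P073.Net P073.PA691 P073.H936 P073.H936.K3 P073.H142 P073.H880 P073.H880.RP P073.H236
  P073.H579 P073.H345 P073.H228 P073.H228.EP P073.H429
open Vale.Agent.P073.St (V)
open Vale.Agent.P073.H471 Vale.Agent.P073.H267 Vale.Agent.P073.H267.Geo
open Vale.Agent.P073.H73 (Mesh)

section fit

variable {Λ : Set V} {v : V} {K : BoxCx Λ v} {S : Rad K} {W : Wid K S} {B : Boxes W}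
  {G : Geo B} {s : K.S} {γ : Type} {φ : γ → K.G} {FT : HFam 3 γ Λ}

/-- **`YOk` from the fit of the boxes of the tubes** -/
theorem yok_of_fit (hE : ∀ b, (FT.X b).K ⊆ B.E (φ b)) (hj : ∀ b, (FT.X b).j = K.dir (φ b))
    (hfit : ∀ b, K.edge (φ b) ⊆ K.sq s → TFit G (FT.X b) s) : YOk G s φ FT := by
  intro b y hb hPB hn i hi
  have Ft := hfit b (edge_sub_of_PB (by norm_num) hPB (hE b hb))
  have hij : i ≠ (FT.X b).j := by rw [hj]; exact hi
  have hbi := hb.2 i hij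
  have ha := G.a_pos s
  have hau := G.a_u s
  have hp := Geo.p_pos (G := G) s
  by_cases hin : i = K.nrm s
  · subst hin
    left
    have h1 := abs_lt.1 hn
    exact ⟨by linarith [Ft.nlo], by linarith [Ft.nhi]⟩
  · have hPl := hPB.1 i
    have hPh := hPB.2 i
    simp only [Geo.plo, Geo.phi, if_neg hin] at hPl hPh
    rcases Ft.tan i hij hin with ⟨h1, h2, h3⟩ | ⟨h1, h2, h3⟩
    · by_cases h4 : y i < (FT.X b).hi i
      · left
        exact ⟨by linarith, h4⟩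
      · right
        push Not at h4
        exact ⟨hin, by linarith, by linarith [hbi.2]⟩
    · by_cases h4 : (FT.X b).lo i < y i
      · left
        exact ⟨h4, by linarith⟩
      · right
        push Not at h4
        exact ⟨hin, by linarith [hbi.1], by linarith⟩

end fit

end P073.H212.Hk

namespace Vale.Agent.P073.H212.K3

open _root_.P073 _root_.P073.Net _root_.P073.PA691 _root_.P073.H236 _root_.P073.H579
open _root_.P073.H936 _root_.P073.H936.K3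
open _root_.P073.H142
open _root_.P073.H345 (PK PB_sub_PK PK_sub_ss tg PLev)
open _root_.P073.H880.RP
open _root_.P073.H919 (HkG HkGF HkGO ZbP sfam HB PI bw_pos' sfam_e slAK_sfam_plate)
open _root_.P073.H429
open _root_.P073.FW31 (L1Est)
open _root_.P073.H212.Hk
open Vale.Agent.P073.St (V)
open Vale.Agent.P073.H471 Vale.Agent.P073.H267
open Vale.Agent.P073.H267.K3
open Vale.Agent.P073.H73 (Mesh)
open Vale.Agent.P073.H193 (Edges edges)
open Vale.Agent.P073.H926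
open Vale.Agent.P073.H238.K3
open Vale.Agent.P073.H233 (Small3 Xp SoftQ FQ)
open Vale.Agent.P073.H31.K3 (pG_of_plate pW_of_plate pos3)

variable {c₀ n δ : ℝ} {j : ℕ} {Ω Λ : Set V} {v w : V} {ρ : V → ℝ} {M : Mesh Ω} {h : ConHomeo Ω Λ}
  {J₀ J : Set (ℕ × (Fin 3 → ℤ))} {P Z : Set M.ι} {K : BoxCx Λ w}
  {D : KIn3 c₀ n j δ v w ρ M h J₀ J P Z} {C : Cells ρ w K}

/-- the ends of the processed edges are processed -/
theorem pW_of_pG {e : K.G} (he : e ∈ pG C J₀) {i : K.W} (hi : i = K.a e ∨ i = K.b e) :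
    i ∈ pW C J₀ := by
  obtain ⟨q, hq, h⟩ := he
  rcases hi with rfl | rfl
  · exact ⟨q, hq, h (TM.wa_mem K e)⟩
  · exact ⟨q, hq, h (TM.wb_mem K e)⟩

/-- **the reduction factors over a plate**: at a point `f x` which is in the plate or in the zone of
a processed edge -/
theorem small_last {α : Type*} {A : α → Set V} {N t : α → ℝ} {f : V → V} {R : Fac K} {s : K.S}
    (HS : Small3 (D.W C) (Xp C J₀) R f A N t) (hs : s ∈ pS C J₀) {k : α} {x : V}
    (hx : x ∈ A k) (hK : f x ∈ PK (D.G C) s ∨ ∃ e ∈ pG C J₀, f x ∈ (D.W C).se e) :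
    (f x ∈ Zs (D.W C) s → R.ρs s ≤ t k / 7 / (N k * (1 + diam (A k)))) ∧
    (∀ e, f x ∈ Ze (D.W C) e → R.ρe e ≤ t k / 7 / (N k * (1 + diam (A k)))) ∧
    ∀ i, f x ∈ Zv (D.W C) i → R.ρv i ≤ t k / 7 / (N k * (1 + diam (A k))) := by
  rcases hK with hK | ⟨e₀, he₀, hK⟩
  · exact (Vale.Agent.P073.H31.K3.small3_plate HS hs hx hK).2
  · have hN := HS.pos k
    have hD : 0 ≤ diam (A k) := diam_nonneg
    have hND : 0 < N k * (1 + diam (A k)) := by positivity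
    have him : ∀ {Z : Set V}, f x ∈ Z → (f '' A k ∩ Z).Nonempty := fun h =>
      ⟨f x, mem_image_of_mem _ hx, h⟩
    refine ⟨fun h => ?_, fun e h => ?_, fun i h => ?_⟩
    · rw [le_div_iff₀ hND]; exact HS.s k s hs (him h)
    · have hee : e = e₀ := by
        by_contra hne
        exact Set.disjoint_left.1 (disjoint_se hne) (Ze_subset h) hK
      rw [le_div_iff₀ hND]; exact HS.e k e (by rw [hee]; exact he₀) (him h)
    · have hi : i = K.a e₀ ∨ i = K.b e₀ := by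
        refine end_of_se hK ?_
        have h1 := mem_closedBall.1 h
        rw [dist_eq_norm] at h1
        have h2 := (D.W C).wv_le i
        have h3 := (D.W C).wv_pos i
        linarith
      rw [le_div_iff₀ hND]; exact HS.v k i (pW_of_pG he₀ hi) (him h)

variable {C₀ μT : ℝ} {X : S1 D C C₀ μT} {Y₂ : S2 X} {Ys : Set M.κ} {sc : Sharp}
  {Y₃ : S3 Y₂ Ys sc} {Y₄ : S4 Y₃} {s : K.S} {k : M.κ}

/-- on the peeled faces the one-stage maps are the two-stage maps -/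
theorem map4_peeled (Y₃ : S3 Y₂ Ys sc) (hk : (D.dat C).PkS (D.G C) X.h1 s k) {x : V}
    (hx : x ∈ M.F k) :
    Y₃.h4.toFun x = PS.map Y₃.T3 (Y₃.h3.toFun x) ∧ Y₃.h3p.toFun x = Y₃.h3.toFun x :=
  Y₃.map4B hk.1 (H193.mesh_sub M k hx)
    (Vale.Agent.P073.H805.PB_mono (by norm_num) s (pos3 Y₃ hk hx).1)

/-- **position of the peeled faces in the box of the hook** -/
theorem box4 (Y₃ : S3 Y₂ Ys sc) (hk : (D.dat C).PkS (D.G C) X.h1 s k) {x : V} (hx : x ∈ M.F k) :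
    Y₃.h4.toFun x ∈ HB (D.G C) (29 / 32) (3 / 4) s := by
  obtain ⟨h1, h2⟩ := pos3 Y₃ hk hx
  rw [(map4_peeled Y₃ hk hx).1, _root_.P073.H919.mem_HB_iff (by norm_num)]
  have h3 := PS3.nrm (s := (⟨s, hk.1⟩ : (D.dat C).S₀)) Y₃.ps
    (Vale.Agent.P073.H805.PB_mono (by norm_num) s h1)
  have h3' : PS.map Y₃.T3 (Y₃.h3.toFun x) (K.nrm s) = Y₃.h3.toFun x (K.nrm s) := h3
  refine ⟨PS3.mem_PB (s := (⟨s, hk.1⟩ : (D.dat C).S₀)) Y₃.ps (by norm_num) (by norm_num)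
    (Vale.Agent.P073.H805.PB_mono (by norm_num) s h1), ?_⟩
  rw [h3']
  have h4 := (D.B C).τ_pos s
  linarith

/-- **[L1EST-G] the `l1` estimate of the last map** over a plate: `E` a part of a peeled face -/
theorem l1_g (Y₅ : S5 Y₄) (hk : (D.dat C).PkS (D.G C) X.h1 s k) {E : Set V} (hE : E ⊆ M.F k)
    {om0 Lc μ₂ κ ε₆ μ' τ' : ℝ} (hom : ∀ β, Y₂.L.om s β = om0)
    (hLc : ∀ β, om0 / 2 / (Y₄.q ⟨s, hk.1⟩ * Y₄.r ⟨s, hk.1⟩) ≤
      Lc * (om0 / 2 - (Y₃.F β).e ⟨s, hk.1⟩)) (hLc0 : 0 ≤ Lc)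
    (hμ : ∀ b, 0 ≤ Y₅.μ b) (hμ2 : ∀ b, Y₅.μ b ≤ μ₂) (hμ20 : 0 ≤ μ₂) (hκ0 : 0 ≤ κ)
    (hκ : ∀ b : pG C J₀, Y₅.μ b * (ebe (D.W C) b.1 - eal (D.W C) b.1) ≤
      κ * ((D.G C).uT b.1 / 4))
    (hε6 : 0 ≤ ε₆)
    (hεb : ∀ b : pG C J₀, (Y₄.f5.toFun '' M.F k ∩
      YB ((YS (D.G C)).add (rT (D.G C)) (rT_pos (D.G C))
      (fun e k => (YS_p_lt (D.G C) e k).le)
      fun e k => (YS_q_lt (D.G C) e k).le) b.1).Nonempty → Y₅.ε b ≤ ε₆)
    {R : Fac K} {N t : M.κ ⊕ M.ι → ℝ} {Φ : ConHomeo Λ Λ}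
    (HS : Small3 (D.W C) (Xp C J₀) R Y₅.f.toFun (FQ M) N t) (HΦ : SoftQ D C R Φ)
    (ht : 0 ≤ t (.inl k))
    (hμ' : (1 + 3 * (20 / (1 / μN n))) * (1 + μ₂ + κ) * Lc ≤ 1 + μ')
    (hτ' : (1 + 3 * (20 / (1 / μN n))) * (1 + μ₂ + κ) * (2 * Y₄.ε ⟨s, hk.1⟩) +
      3 * t (.inl k) + (1 + 3 * (20 / (1 / μN n))) * ε₆ ≤ τ') :
    L1Est (D.G C) s E μ' τ' (fun x => PS.map Y₃.T3 (Y₃.h3.toFun x))
      (fun x => Φ.toFun (Y₅.f.toFun x)) := by
  have hEΩ : E ⊆ Ω := hE.trans (H193.mesh_sub M k)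
  have hμs : 0 ≤ 20 / (1 / μN n) := (H233.soft_mu D).1
  set sS : (D.dat C).S₀ := ⟨s, hk.1⟩ with hsS
  have hT := Y₅.lay
  have PST := _root_.P073.H919.PSt.of_PS3 Y₃.ps
  have hst : ∀ β, stp (Y₃.Lt.N s β) (K.slo s (tg s β) + (D.G C).a s)
      (K.shi s (tg s β) - (D.G C).a s) = om0 := hom
  have hom0 : 0 < om0 := by
    rw [← hst true]
    exact stp_pos (Y₃.Lt.bx true s)
  have hqr := Y₄.p0 sS
  -- positions
  have hbox : ∀ x ∈ E, Y₃.h4.toFun x ∈ HB (D.G C) (29 / 32) (3 / 4) s := fun x hx =>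
    box4 Y₃ hk (hE hx)
  have hpos : ∀ x ∈ E, Y₄.f5.toFun x ∈ (D.G C).PB (7 / 8) s := fun x hx =>
    _root_.P073.H919.HB_PB Y₄.H.hc Y₄.H.hd s
      ((mem_box5 (s := sS) Y₄.hko Y₄.sg Y₄.map5 (hEΩ hx)).2 (hbox x hx))
  have hsm : ∀ x ∈ E, Y₅.f.toFun x ∈ PK (D.G C) s ∨ ∃ e ∈ pG C J₀,
      Y₅.f.toFun x ∈ (D.W C).se e := by
    intro x hx
    by_cases hb : ∃ b : pG C J₀, Y₄.f5.toFun x ∈ ((tfam (YS (D.G C)) (rT (D.G C))
        (rT_pos (D.G C)) (fun e k => (YS_p_lt (D.G C) e k).le)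
        (fun e k => (YS_q_lt (D.G C) e k).le) Y₅.H.inj Y₅.Th Y₅.ς0 Y₅.ς1).X b).K
    · obtain ⟨b, hb⟩ := hb
      exact Or.inr ⟨b.1, b.2, hT.Ese b (hT.isH.mem ((hT.memK (hEΩ hx)).2 hb))⟩
    · push Not at hb
      have e0 : Y₅.f.toFun x = Y₄.f5.toFun x :=
        (hT.eventually_eq hEΩ hx hb).self_of_nhdsWithin hx
      exact Or.inl (by rw [e0]; exact PB_sub_PK (by norm_num) s (hpos x hx))
  have hND : 0 < N (.inl k) * (1 + diam (M.F k)) := by
    have h1 := HS.pos (.inl k)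
    have h2 : 0 ≤ diam (M.F k) := diam_nonneg
    positivity
  have hsl := fun x (hx : x ∈ E) => small_last HS hk.1 (k := .inl k) (hE hx) (hsm x hx)
  have key : L1Est (D.G C) s E μ' τ' (fun x => PS.map Y₃.T3 (Y₃.h3p.toFun x))
      (fun x => Φ.toFun (Y₅.f.toFun x)) := ?_
  · intro x hx
    filter_upwards [key x hx, self_mem_nhdsWithin] with y h1 hy
    rw [(map4_peeled Y₃ hk (hE hx)).2, (map4_peeled Y₃ hk (hE hy)).2] at h1
    exact h1
  refine l1_last (s := sS) (H := Y₄.H) (r := Y₄.r) (F := Y₃.F) (A := om0 / 2 / (Y₄.q sS * Y₄.r sS))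
    (Lc := Lc) (ςs := ∑ β, Y₄.ς β sS) (sl := 1 + μ₂) (κ := κ) (m := 1 + μ₂ + κ)
    (N := N (.inl k)) (q := t (.inl k) / 7 / (N (.inl k) * (1 + diam (M.F k)))) (t := t (.inl k))
    (ε := ε₆) (ε₅ := 2 * Y₄.ε sS) Y₄.hko Y₄.sg (Y₄.r1 sS) hqr ?_ ?_ (fun β => bw_pos' PST β sS)
    (fun β => sfam_e PST Y₄.p0 Y₄.p1 β sS) (by positivity) (fun β => ?_) (fun i => ?_) hLc0
    le_rfl Y₄.map5 (by norm_num) hT HΦ.2.1 hμs ?_ ?_ ?_ (by linarith) (by linarith) hEΩ ?_ ?_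
    hbox ?_ ?_ hε6 ?_ (by positivity) (fun x hx => (hsl x hx).1) (fun x hx => (hsl x hx).2.1)
    (fun x hx => (hsl x hx).2.2) ?_ hμ' hτ'
  · exact mul_le_of_le_one_left (Y₄.r0 sS).le (Y₄.q1 sS).le
  · exact fun β => ((Y₃.F β).he sS).le
  · have h1 := slAK_sfam_plate PST Y₄.p0 Y₄.p1 (ς := Y₄.ς β) (fun b => (Y₄.ς0 β b).le) β sS
    have h2 : stp (Y₃.Lt.N sS.1 β) (K.slo sS.1 (tg sS.1 β) + (D.G C).a sS.1)
      (K.shi sS.1 (tg sS.1 β) - (D.G C).a sS.1) = om0 := hst β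
    rw [h2] at h1
    exact h1
  · obtain ⟨β, i⟩ := i
    have h1 := hLc β
    show _ ≤ Lc * (stp (Y₃.Lt.N s β) (K.slo s (tg s β) + (D.G C).a s)
      (K.shi s (tg s β) - (D.G C).a s) / 2 - _)
    rw [hst β]
    exact h1
  · exact yok_of_fit hT.KE hT.j fun b hb => tfit_of hb
  · intro b
    refine ⟨(D.G C).uT b.1 / 4, by have := (D.G C).uT_pos b.1; positivity, fun i => le_rfl, ?_⟩
    have h1 : 0 < (D.G C).uT b.1 / 4 := by have := (D.G C).uT_pos b.1; positivity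
    rw [div_le_iff₀ h1]
    exact ((Y₅.Th b).disp_le (hμ b)).trans (hκ b)
  · intro b
    exact ((Y₅.Th b).slG_le (Y₅.ς0 b).le (Y₅.ς1 b) (hμ b)).trans (by linarith [hμ2 b])
  · intro q x hx
    rw [_root_.P073.H919.HkG.hookIn_C]
    exact _root_.P073.H919.not_interior_of_face M q.1 (hE hx)
  · rw [Set.disjoint_left]
    intro y hy hy'
    obtain ⟨b', hy'⟩ := mem_iUnion.1 hy'
    obtain ⟨i', -, hy'⟩ := mem_iUnion₂.1 hy'
    exact _root_.P073.H919.not_interior_of_face M i' (hE hy) hy'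
  · intro x hx
    have h1 : Y₄.h5.toFun x ∈ PK (D.G C) s := by
      have h2 := (Y₄.hko.mem sS (hEΩ hx)).2 (hbox x hx)
      exact PB_sub_PK (by norm_num) s (_root_.P073.H919.HB_PB Y₄.H.hc Y₄.H.hd s h2)
    filter_upwards [nhdsWithin_le_nhds (Y₄.lip5 sS x (hEΩ hx) h1)] with y h2
    have h3 := Y₄.ςK true sS
    have h4 := Y₄.ςK false sS
    have h5 := (Y₄.ς0 true sS).le
    have h6 := (Y₄.ς0 false sS).le
    rw [Fintype.sum_bool]
    have h7 : (Y₄.ς true sS + Y₄.ς false sS) * ‖Y₄.h5.toFun y - Y₄.h5.toFun x‖ ≤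
        (Y₄.ς true sS + Y₄.ς false sS) * (Y₄.K₂ sS * ‖y - x‖) :=
      mul_le_mul_of_nonneg_left h2 (by linarith)
    have h8 : (Y₄.ς true sS * Y₄.K₂ sS + Y₄.ς false sS * Y₄.K₂ sS) * ‖y - x‖ ≤
        2 * Y₄.ε sS * ‖y - x‖ := mul_le_mul_of_nonneg_right (by linarith) (norm_nonneg _)
    nlinarith
  · intro b x hx hb
    have h1 : Y₄.f5.toFun x ∈ YB ((YS (D.G C)).add (rT (D.G C)) (rT_pos (D.G C))
        (fun e k => (YS_p_lt (D.G C) e k).le)
        fun e k => (YS_q_lt (D.G C) e k).le) b.1 := by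
      have hb' := hb
      change Y₄.f5.toFun x ∈ (tX (YS (D.G C)) (rT (D.G C)) (rT_pos (D.G C)) (Y₅.Th b)
        (Y₅.ς0 b) (Y₅.ς1 b)).K at hb'
      rwa [tX_K (hp := fun e k => (YS_p_lt (D.G C) e k).le)
        (hq := fun e k => (YS_q_lt (D.G C) e k).le)] at hb'
    have h2 : Y₅.h6.toFun x ∈ YB ((YS (D.G C)).add (rT (D.G C)) (rT_pos (D.G C))
        (fun e k => (YS_p_lt (D.G C) e k).le)
        fun e k => (YS_q_lt (D.G C) e k).le) b.1 := by
      have hb' := (hT.memK (hEΩ hx)).2 hb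
      change Y₅.h6.toFun x ∈ (tX (YS (D.G C)) (rT (D.G C)) (rT_pos (D.G C)) (Y₅.Th b)
        (Y₅.ς0 b) (Y₅.ς1 b)).K at hb'
      rwa [tX_K (hp := fun e k => (YS_p_lt (D.G C) e k).le)
        (hq := fun e k => (YS_q_lt (D.G C) e k).le)] at hb'
    have h3 := hεb b ⟨_, mem_image_of_mem _ (hE hx), h1⟩
    filter_upwards [nhdsWithin_le_nhds (Y₅.lip6 b x (hEΩ hx) h2)] with y h4
    have h5 := mul_le_mul_of_nonneg_left h4 (Y₅.ς0 b).le
    have h6 := mul_le_mul_of_nonneg_right ((Y₅.ςK b).trans h3) (norm_nonneg (y - x))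
    linarith
  · exact fun x hx y hy => HS.lip (.inl k) y (hE hy) x (hE hx)
  · have h1 := HS.pos (.inl k)
    have h2 : 0 ≤ diam (M.F k) := diam_nonneg
    have h3 : 7 * (t (.inl k) / 7 / (N (.inl k) * (1 + diam (M.F k))) * N (.inl k)) =
        t (.inl k) * (1 / (1 + diam (M.F k))) := by
      have : N (.inl k) ≠ 0 := h1.ne'
      have : 1 + diam (M.F k) ≠ 0 := by positivity
      field_simp
    rw [h3]
    exact mul_le_of_le_one_right ht (by rw [div_le_one (by positivity)]; linarith)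

end Vale.Agent.P073.H212.K3
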