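import Vale.Agent.P073.H212.Hk6

/-!
# P073, H212, [SHARP-K3], part 7: the one-sided estimate for the auxiliary map

The auxiliary map of the sharp faces is `Φ ∘ Sm ∘ h4`: the last staircase of the tubes is applied
without the hooks.

* `hx_dir_le`: the one-sided estimate of a box map.
* `TLay.triv`: the layer of the tubes without the hook.
* `loc_tail`: `LocEst` of `Φ ∘ Sm ∘ f`.
* `locEst_fq`: the same over the stages.
-/

set_option linter.unusedSectionVars false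

open Set Metric Topology Filter MeasureTheory
open scoped ENNReal

namespace P073.H212.Hk

open P073 P073.Net P073.PA691 P073.H936 P073.H936.K3 P073.H142 P073.H880 P073.H880.RP P073.H236
  P073.H579 P073.H345 P073.H228 P073.H228.EP P073.H429
open Vale.Agent.P073.St (V)
open Vale.Agent.P073.H471 Vale.Agent.P073.H267 Vale.Agent.P073.H267.Geo
open Vale.Agent.P073.H73 (Mesh)
open P073.H761.SE (cw wlo whi mx mx_nonneg sd_nonneg sd_comm term_le_sd cw_eventually soft_loc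
  sum_abs_le)
open P073.FW31 (L1Est LocEst)

section dir

variable {n : ℕ}

/-- **the one-sided estimate of a box map** -/
theorem hx_dir_le (B : HX n) {A : ℝ} (hA : 1 ≤ A)
    (hs : ∀ s t, |B.k s - B.k t| ≤ A * |s - t|) {ρ d : ℝ} (hρ : 0 < ρ) (hr : ∀ i, ρ ≤ B.r i)
    {y y' : Fin n → ℝ} (hd : ∀ i, i ≠ B.j → (B.lo i ≤ y i ∧ y i ≤ B.hi i) ∧
      (B.lo i ≤ y' i ∧ y' i ≤ B.hi i) ∨ |y i - y' i| ≤ d) (hd0 : 0 ≤ d) :
    B.H.toFun y B.j - B.H.toFun y' B.j ≤ A * max 0 (y B.j - y' B.j) + B.D * (d / ρ) := by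
  have e1 : B.H.toFun y B.j = cl B.k (B.m y) (y B.j) := vc_same y
  have e2 : B.H.toFun y' B.j = cl B.k (B.m y') (y' B.j) := vc_same y'
  have h1 : |cl B.k (B.m y) (y B.j) - cl B.k (B.m y') (y B.j)| ≤ B.D * (d / ρ) := by
    refine (abs_cl_sub_cl_le hA (by simp)).trans ?_
    rw [sub_self, abs_zero, mul_zero, zero_add]
    exact abs_bmp_sub_le' B.D0 hρ hr hd hd0
  have h2 : cl B.k (B.m y') (y B.j) - cl B.k (B.m y') (y' B.j) ≤ A * max 0 (y B.j - y' B.j) := by
    rcases le_total (y' B.j) (y B.j) with h | h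
    · rw [max_eq_right (sub_nonneg.2 h)]
      have h3 := abs_cl_sub_cl_le (m := B.m y') (m' := B.m y') hA (hs (y B.j) (y' B.j))
      rw [sub_self, abs_zero, add_zero, abs_of_nonneg (sub_nonneg.2 h)] at h3
      exact (le_abs_self _).trans h3
    · rw [max_eq_left (sub_nonpos.2 h), mul_zero]
      exact sub_nonpos.2 (cl_mono B.l1.km.monotone _ h)
  rw [e1, e2]
  have h3 := le_abs_self (cl B.k (B.m y) (y B.j) - cl B.k (B.m y') (y B.j))
  linarith

end dir

section tail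

variable {Ω Λ : Set V} {v : V} {K : BoxCx Λ v} {S : Rad K} {W : Wid K S} {B : Boxes W}
  {G : Geo B} {s : K.S}

variable {γ : Type} {φ : γ → K.G} {Pb : γ → Set V} {FT : HFam 3 γ Λ} {D : Set V}
  {ι : γ → Type} [∀ b, Fintype (ι b)] {l h : ∀ b, ι b → ℝ} {ςt : γ → ℝ}
  {f5 h6 f4 : ConHomeo Ω Λ} {Sm : ConHomeo Λ Λ} {R : Fac K} {Φ : ConHomeo Λ Λ} {μ : ℝ}

/-- **the layer of the tubes without the hook** -/
theorem tlay_triv (TL : TLay B φ Pb FT D l h ςt f5 h6 Sm) (f : ConHomeo Ω Λ) (D' : Set V) :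
    TLay B φ Pb FT D' l h ςt f f Sm where
  inj := TL.inj
  cl := TL.cl
  j := TL.j
  PF := TL.PF
  KE := TL.KE
  KT := TL.KT
  isH := TL.isH
  bs := TL.bs
  ς0 := TL.ς0
  ς1 := TL.ς1
  k := TL.k
  off := fun _ _ _ => rfl
  mem := fun _ _ _ => Iff.rfl
  loc := fun _ _ _ _ => Eventually.of_forall fun _ _ => le_rfl

/-- **`LocEst` of the last staircase of the tubes and the soft collapse**, over a plate -/
theorem loc_tail (TL : TLay B φ Pb FT D l h ςt f4 f4 Sm) (HΦ : IsSoft1 B μ R Φ) (hμ : 0 ≤ μ)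
    {X : Set V} (hX : X ⊆ Ω)
    (hpos : ∀ x ∈ X, f4.toFun x ∈ G.PB (7 / 8) s ∧
      |f4.toFun x (K.nrm s) - K.slo s (K.nrm s)| < B.τ s)
    (hY : YOk G s φ FT) {sl κ μ' : ℝ}
    (hκ : ∀ b, ∃ ρ > 0, (∀ i, ρ ≤ (FT.X b).r i) ∧ (FT.X b).D / ρ ≤ κ) (hκ0 : 0 ≤ κ)
    (hsl : ∀ b, slG (FT.X b).al (FT.X b).be (l b) (h b) (ςt b) ≤ sl) (hsl1 : 1 ≤ sl)
    (hm : (1 + μ) * (sl + κ) ≤ 1 + μ') {N q t : ℝ}
    (hN : ∀ x ∈ X, ∀ y ∈ X, ‖Sm.toFun (f4.toFun y) - Sm.toFun (f4.toFun x)‖ ≤ N * ‖y - x‖)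
    (hq0 : 0 ≤ q)
    (qs : ∀ x ∈ X, Sm.toFun (f4.toFun x) ∈ Zs W s → R.ρs s ≤ q)
    (qe : ∀ x ∈ X, ∀ e, Sm.toFun (f4.toFun x) ∈ Ze W e → R.ρe e ≤ q)
    (qv : ∀ x ∈ X, ∀ i, Sm.toFun (f4.toFun x) ∈ Zv W i → R.ρv i ≤ q)
    (hqN : 7 * (q * N) ≤ t) :
    LocEst G s X μ' t f4.toFun (fun x => Φ.toFun (Sm.toFun (f4.toFun x))) := by
  classical
  intro x hx
  have hcf : ContinuousWithinAt f4.toFun X x := (f4.cont.mono hX) x hx
  have hμκ : 0 ≤ μ * (sl + κ) := mul_nonneg hμ (by linarith)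
  have hμμ' : μ ≤ μ' := by nlinarith
  -- the Lipschitz term
  have hqq : ∀ y ∈ X, 7 * (q * ‖Sm.toFun (f4.toFun y) - Sm.toFun (f4.toFun x)‖) ≤
      t * ‖y - x‖ := by
    intro y hy
    have h1 := mul_le_mul_of_nonneg_left (hN x hx y hy) hq0
    have h2 := mul_le_mul_of_nonneg_right hqN (norm_nonneg (y - x))
    linarith
  by_cases hK : ∃ b, f4.toFun x ∈ (FT.X b).K
  · obtain ⟨b, hb⟩ := hK
    set e := φ b with he
    have hj : (FT.X b).j = K.dir e := TL.j b
    have hbE : f4.toFun x ∈ B.E e := TL.KE b hb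
    obtain ⟨hPB, hn⟩ := hpos x hx
    have hPK : f4.toFun x ∈ PK G s := PB_sub_PK (by norm_num) s hPB
    have hes := sq_of_PK_E hPK hbE
    have hd : K.dir e ≠ K.nrm s := (nrm_ne_dir hes).symm
    obtain ⟨w1, w2⟩ := win_of_PK_E hPK hbE
    have hse : f4.toFun x ∈ W.se e := TL.Ese b hb
    obtain ⟨ρ, hρ, hρr, hρκ⟩ := hκ b
    -- the coordinate of the edge is not clamped
    have hcwv : ∀ᶠ y in 𝓝[X] x, cw (wlo G s) (whi G s) (K.dir e) (f4.toFun y) =
        f4.toFun y (K.dir e) :=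
      hcf.eventually (cw_eventually (G := G) (s := s) (j := K.dir e) (y := f4.toFun x) w1 w2)
    have hcw0 : cw (wlo G s) (whi G s) (K.dir e) (f4.toFun x) = f4.toFun x (K.dir e) :=
      (cw_eventually (G := G) (s := s) (j := K.dir e) (y := f4.toFun x) w1 w2).self_of_nhds
    -- the lateral coordinates
    have hlat : ∀ᶠ y in 𝓝[X] x, ∀ i, i ≠ (FT.X b).j →
        ((FT.X b).lo i ≤ f4.toFun y i ∧ f4.toFun y i ≤ (FT.X b).hi i) ∧
        ((FT.X b).lo i ≤ f4.toFun x i ∧ f4.toFun x i ≤ (FT.X b).hi i) ∨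
        |f4.toFun y i - f4.toFun x i| ≤ H761.SE.sd G s (f4.toFun x) (f4.toFun y) := by
      rw [eventually_all]
      intro i
      by_cases hij : i = (FT.X b).j
      · exact Eventually.of_forall fun x' h => absurd hij h
      have hij' : i ≠ K.dir e := by rwa [hj] at hij
      rcases hY b _ hb hPB hn i hij' with h4 | ⟨h4, h5, h6⟩
      · have h5 : Tendsto (fun x' => f4.toFun x' i) (𝓝[X] x) (𝓝 (f4.toFun x i)) :=
          ((continuous_apply i).tendsto _).comp hcf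
        filter_upwards [h5.eventually (Ioo_mem_nhds h4.1 h4.2)] with x' h6 _
        exact Or.inl ⟨⟨h6.1.le, h6.2.le⟩, h4.1.le, h4.2.le⟩
      · have h7 := cw_eventually (G := G) (s := s) (j := i) (y := f4.toFun x) h5 h6
        have h8 := h7.self_of_nhds
        filter_upwards [hcf.eventually h7] with y h9 _
        right
        have := term_le_sd G s (f4.toFun x) (f4.toFun y) h4
        rwa [h9, h8] at this
    have hlip : ∀ s t, |(FT.X b).k s - (FT.X b).k t| ≤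
        slG (FT.X b).al (FT.X b).be (l b) (h b) (ςt b) * |s - t| := fun s t => by
      rw [TL.k b]; exact (TL.bs b).lip (TL.ς0 b) (TL.ς1 b) s t
    have hsG1 : 1 ≤ slG (FT.X b).al (FT.X b).be (l b) (h b) (ςt b) :=
      (TL.bs b).one_le_slG (TL.ς1 b)
    -- the staircase
    have hst : ∀ᶠ y in 𝓝[X] x,
        Sm.toFun (f4.toFun y) (K.dir e) - Sm.toFun (f4.toFun x) (K.dir e) ≤
          mx G s (K.dir e) (f4.toFun x) (f4.toFun y) +
            (sl - 1 + κ) * H761.SE.sd G s (f4.toFun x) (f4.toFun y) ∧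
        Sm.toFun (f4.toFun x) (K.dir e) - Sm.toFun (f4.toFun y) (K.dir e) ≤
          mx G s (K.dir e) (f4.toFun y) (f4.toFun x) +
            (sl - 1 + κ) * H761.SE.sd G s (f4.toFun x) (f4.toFun y) ∧
        |Sm.toFun (f4.toFun y) (K.dir e) - Sm.toFun (f4.toFun x) (K.dir e)| ≤
          (sl + κ) * H761.SE.sd G s (f4.toFun x) (f4.toFun y) := by
      filter_upwards [hcwv, hlat, hcf.eventually ((TLay.isOpen_se e).mem_nhds hse)]
        with y h1 h2 h3
      have hsd := sd_nonneg G s (f4.toFun x) (f4.toFun y)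
      have hDκ : (FT.X b).D * (H761.SE.sd G s (f4.toFun x) (f4.toFun y) / ρ) ≤
          κ * H761.SE.sd G s (f4.toFun x) (f4.toFun y) := by
        have e1 : (FT.X b).D * (H761.SE.sd G s (f4.toFun x) (f4.toFun y) / ρ) =
          (FT.X b).D / ρ * H761.SE.sd G s (f4.toFun x) (f4.toFun y) := by ring
        rw [e1]
        exact mul_le_mul_of_nonneg_right hρκ hsd
      have h4 := hx_dir_le (FT.X b) hsG1 hlip hρ hρr (y := f4.toFun y) (y' := f4.toFun x) h2 hsd
      have h5 := hx_dir_le (FT.X b) hsG1 hlip hρ hρr (y := f4.toFun x) (y' := f4.toFun y)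
        (d := H761.SE.sd G s (f4.toFun x) (f4.toFun y)) (fun i hi => by
          rcases h2 i hi with h | h
          · exact Or.inl ⟨h.2, h.1⟩
          · exact Or.inr (by rwa [abs_sub_comm])) hsd
      rw [hj] at h4 h5
      have hm1 : mx G s (K.dir e) (f4.toFun x) (f4.toFun y) =
          max 0 (f4.toFun y (K.dir e) - f4.toFun x (K.dir e)) := by
        unfold mx
        rw [if_neg hd, h1, hcw0]
      have hm2 : mx G s (K.dir e) (f4.toFun y) (f4.toFun x) =
          max 0 (f4.toFun x (K.dir e) - f4.toFun y (K.dir e)) := by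
        unfold mx
        rw [if_neg hd, h1, hcw0]
      have hv : |f4.toFun y (K.dir e) - f4.toFun x (K.dir e)| ≤
          H761.SE.sd G s (f4.toFun x) (f4.toFun y) := by
        have := term_le_sd G s (f4.toFun x) (f4.toFun y) hd
        rwa [h1, hcw0] at this
      obtain ⟨hv1, hv2⟩ := abs_le.1 hv
      have hmax1 : max 0 (f4.toFun y (K.dir e) - f4.toFun x (K.dir e)) ≤
          H761.SE.sd G s (f4.toFun x) (f4.toFun y) := max_le hsd (by linarith)
      have hmax2 : max 0 (f4.toFun x (K.dir e) - f4.toFun y (K.dir e)) ≤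
          H761.SE.sd G s (f4.toFun x) (f4.toFun y) := max_le hsd (by linarith)
      have hmax10 : 0 ≤ max 0 (f4.toFun y (K.dir e) - f4.toFun x (K.dir e)) := le_max_left _ _
      have hmax20 : 0 ≤ max 0 (f4.toFun x (K.dir e) - f4.toFun y (K.dir e)) := le_max_left _ _
      rw [hm1, hm2, TL.eq_H h3, TL.eq_H hse]
      have g1 := mul_le_mul_of_nonneg_right (hsl b) hmax10
      have g2 := mul_le_mul_of_nonneg_right (hsl b) hmax20
      have g3 := mul_le_mul_of_nonneg_left hmax1 (sub_nonneg.2 hsl1)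
      have g4 := mul_le_mul_of_nonneg_left hmax2 (sub_nonneg.2 hsl1)
      have h40 : (FT.X b).H.toFun (f4.toFun y) (K.dir e) -
          (FT.X b).H.toFun (f4.toFun x) (K.dir e) ≤
          max 0 (f4.toFun y (K.dir e) - f4.toFun x (K.dir e)) +
            (sl - 1 + κ) * H761.SE.sd G s (f4.toFun x) (f4.toFun y) := by nlinarith
      have h50 : (FT.X b).H.toFun (f4.toFun x) (K.dir e) -
          (FT.X b).H.toFun (f4.toFun y) (K.dir e) ≤
          max 0 (f4.toFun x (K.dir e) - f4.toFun y (K.dir e)) +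
            (sl - 1 + κ) * H761.SE.sd G s (f4.toFun x) (f4.toFun y) := by nlinarith
      refine ⟨h40, h50, abs_le.2 ⟨?_, ?_⟩⟩
      · have g5 : (sl - 1 + κ) * H761.SE.sd G s (f4.toFun x) (f4.toFun y) =
            (sl + κ) * H761.SE.sd G s (f4.toFun x) (f4.toFun y) -
              H761.SE.sd G s (f4.toFun x) (f4.toFun y) := by ring
        rw [g5] at h50
        linarith
      · have g5 : (sl - 1 + κ) * H761.SE.sd G s (f4.toFun x) (f4.toFun y) =
            (sl + κ) * H761.SE.sd G s (f4.toFun x) (f4.toFun y) -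
              H761.SE.sd G s (f4.toFun x) (f4.toFun y) := by ring
        rw [g5] at h40
        linarith
    -- the collapse
    have hfK : Sm.toFun (f4.toFun x) ∈ (FT.X b).K := TL.isH.mem hb
    have hfc : ContinuousWithinAt (fun y => Sm.toFun (f4.toFun y)) X x :=
      (Sm.cont.comp (f4.cont.mono hX) fun y hy => f4.mapsTo (hX hy)) x hx
    have hμ'0 : 0 ≤ μ' := hμ.trans hμμ'
    have hv' : ∀ i, Sm.toFun (f4.toFun x) ∈ interior (Zv W i) → ∀ᶠ y in 𝓝[X] x, ∀ j,
        Φ.toFun (Sm.toFun (f4.toFun y)) j - Φ.toFun (Sm.toFun (f4.toFun x)) j ≤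
          mx G s j (f4.toFun x) (f4.toFun y) + μ' * H761.SE.sd G s (f4.toFun x) (f4.toFun y) +
            t * ‖y - x‖ ∧
        Φ.toFun (Sm.toFun (f4.toFun x)) j - Φ.toFun (Sm.toFun (f4.toFun y)) j ≤
          mx G s j (f4.toFun y) (f4.toFun x) + μ' * H761.SE.sd G s (f4.toFun x) (f4.toFun y) +
            t * ‖y - x‖ := by
      intro i hi
      have hqi := qv x hx i (interior_subset hi)
      filter_upwards [hfc.eventually (isOpen_interior.mem_nhds hi), self_mem_nhdsWithin]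
        with y h1 hy j
      have h2 := hqq y hy
      have hn0 := norm_nonneg (Sm.toFun (f4.toFun y) - Sm.toFun (f4.toFun x))
      have h3 : R.ρv i * ‖Sm.toFun (f4.toFun y) - Sm.toFun (f4.toFun x)‖ ≤
          q * ‖Sm.toFun (f4.toFun y) - Sm.toFun (f4.toFun x)‖ :=
        mul_le_mul_of_nonneg_right hqi hn0
      have h5 := HΦ.zv i _ (interior_subset h1) _ (interior_subset hi) j
      have h6 : 0 ≤ q * ‖Sm.toFun (f4.toFun y) - Sm.toFun (f4.toFun x)‖ := by positivity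
      have h7 := mx_nonneg G s j (f4.toFun x) (f4.toFun y)
      have h8 := mx_nonneg G s j (f4.toFun y) (f4.toFun x)
      have h9 := mul_nonneg hμ'0 (sd_nonneg G s (f4.toFun x) (f4.toFun y))
      have h10 := abs_le.1 h5
      constructor <;> linarith
    rcases TL.zone hfK with h1 | h1 | h1
    · have hqi := qe x hx e (B.E_subset e (interior_subset h1))
      filter_upwards [hfc.eventually (isOpen_interior.mem_nhds h1), hst, self_mem_nhdsWithin]
        with y h2 h3 hy j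
      obtain ⟨h3a, h3b, h3c⟩ := h3
      have h4 := hqq y hy
      have hn0 := norm_nonneg (Sm.toFun (f4.toFun y) - Sm.toFun (f4.toFun x))
      have h5 : R.ρe e * ‖Sm.toFun (f4.toFun y) - Sm.toFun (f4.toFun x)‖ ≤
          q * ‖Sm.toFun (f4.toFun y) - Sm.toFun (f4.toFun x)‖ :=
        mul_le_mul_of_nonneg_right hqi hn0
      have hsd := sd_nonneg G s (f4.toFun x) (f4.toFun y)
      have h6 := mul_le_mul_of_nonneg_left h3c hμ
      have h7 : (sl - 1 + κ) * H761.SE.sd G s (f4.toFun x) (f4.toFun y) +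
          μ * ((sl + κ) * H761.SE.sd G s (f4.toFun x) (f4.toFun y)) ≤
            μ' * H761.SE.sd G s (f4.toFun x) (f4.toFun y) := by
        have e1 : (sl - 1 + κ) * H761.SE.sd G s (f4.toFun x) (f4.toFun y) +
          μ * ((sl + κ) * H761.SE.sd G s (f4.toFun x) (f4.toFun y)) =
            ((1 + μ) * (sl + κ) - 1) * H761.SE.sd G s (f4.toFun x) (f4.toFun y) := by ring
        rw [e1]
        exact mul_le_mul_of_nonneg_right (by linarith) hsd
      have h8 : 0 ≤ (sl - 1 + κ) * H761.SE.sd G s (f4.toFun x) (f4.toFun y) :=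
        mul_nonneg (by linarith) hsd
      constructor
      · have h9 := HΦ.ze1 e _ (interior_subset h1) _ (interior_subset h2) j
        have h10 : (if j = K.dir e then max 0 (Sm.toFun (f4.toFun y) j -
            Sm.toFun (f4.toFun x) j) else 0) ≤ mx G s j (f4.toFun x) (f4.toFun y) +
              (sl - 1 + κ) * H761.SE.sd G s (f4.toFun x) (f4.toFun y) := by
          have h11 := mx_nonneg G s j (f4.toFun x) (f4.toFun y)
          split_ifs with h12
          · subst h12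
            exact max_le (by linarith) h3a
          · linarith
        linarith
      · have h9 := HΦ.ze1 e _ (interior_subset h2) _ (interior_subset h1) j
        have h10 : (if j = K.dir e then max 0 (Sm.toFun (f4.toFun x) j -
            Sm.toFun (f4.toFun y) j) else 0) ≤ mx G s j (f4.toFun y) (f4.toFun x) +
              (sl - 1 + κ) * H761.SE.sd G s (f4.toFun x) (f4.toFun y) := by
          have h11 := mx_nonneg G s j (f4.toFun y) (f4.toFun x)
          split_ifs with h12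
          · subst h12
            exact max_le (by linarith) h3b
          · linarith
        rw [norm_sub_rev, abs_sub_comm (Sm.toFun (f4.toFun x) (K.dir e))] at h9
        linarith
    · exact hv' _ h1
    · exact hv' _ h1
  · push Not at hK
    have e := TL.eventually_eq hX hx hK
    have e0 : Sm.toFun (f4.toFun x) = f4.toFun x := e.self_of_nhdsWithin hx
    obtain ⟨hPB, hn⟩ := hpos x hx
    have h1 := soft_loc (G := G) HΦ hμ (c := 7 / 8) (by norm_num) hPB hn (q := q)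
      (fun h => qs x hx (by rw [e0]; exact h)) (fun i h => qe x hx i (by rw [e0]; exact h))
      (fun i h => qv x hx i (by rw [e0]; exact h))
    filter_upwards [hcf.eventually h1, e, self_mem_nhdsWithin] with y h2 h3 hy j
    have h4 := hqq y hy
    rw [h3, e0] at h4 ⊢
    obtain ⟨h6, h7⟩ := h2 j
    have h8 := mul_le_mul_of_nonneg_right hμμ' (sd_nonneg G s (f4.toFun x) (f4.toFun y))
    constructor <;> linarith

end tail

end P073.H212.Hk

namespace Vale.Agent.P073.H212.K3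

open _root_.P073 _root_.P073.Net _root_.P073.PA691 _root_.P073.H236 _root_.P073.H579
open _root_.P073.H936 _root_.P073.H936.K3
open _root_.P073.H142
open _root_.P073.H345 (PK PB_sub_PK PK_sub_ss tg PLev)
open _root_.P073.H880.RP
open _root_.P073.H429
open _root_.P073.FW31 (L1Est LocEst)
open _root_.P073.H212.Hk
open Vale.Agent.P073.St (V)
open Vale.Agent.P073.H471 Vale.Agent.P073.H267
open Vale.Agent.P073.H267.K3
open Vale.Agent.P073.H73 (Mesh)
open Vale.Agent.P073.H193 (Edges edges)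
open Vale.Agent.P073.H926
open Vale.Agent.P073.H238.K3
open Vale.Agent.P073.H233 (Small3 Xp SoftQ FQ)

variable {c₀ n δ : ℝ} {j : ℕ} {Ω Λ : Set V} {v w : V} {ρ : V → ℝ} {M : Mesh Ω} {h : ConHomeo Ω Λ}
  {J₀ J : Set (ℕ × (Fin 3 → ℤ))} {P Z : Set M.ι} {K : BoxCx Λ w}
  {D : KIn3 c₀ n j δ v w ρ M h J₀ J P Z} {C : Cells ρ w K} {C₀ μT : ℝ} {X : S1 D C C₀ μT}
  {Y₂ : S2 X} {Ys : Set M.κ} {sc : Sharp} {Y₃ : S3 Y₂ Ys sc} {Y₄ : S4 Y₃} {s : K.S} {k : M.κ}

/-- **`LocEst` of the auxiliary map** `Φ ∘ Sm ∘ h4` on the peeled faces -/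
theorem locEst_fq (Y₅ : S5 Y₄) (hk : (D.dat C).PkS (D.G C) X.h1 s k) {μ₂ κ μ' : ℝ}
    (hμ : ∀ b, 0 ≤ Y₅.μ b) (hμ2 : ∀ b, Y₅.μ b ≤ μ₂) (hμ20 : 0 ≤ μ₂) (hκ0 : 0 ≤ κ)
    (hκ : ∀ b : pG C J₀, Y₅.μ b * (ebe (D.W C) b.1 - eal (D.W C) b.1) ≤
      κ * ((D.G C).uT b.1 / 4))
    {R : Fac K} {N t : M.κ ⊕ M.ι → ℝ} {Φ : ConHomeo Λ Λ}
    (HS : Small3 (D.W C) (Xp C J₀) R (Y₃.h4.trans Y₅.Sm).toFun (FQ M) N t)
    (HΦ : SoftQ D C R Φ) (ht : 0 ≤ t (.inl k))
    (hμ' : (1 + 20 / (1 / μN n)) * (1 + μ₂ + κ) ≤ 1 + μ') :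
    LocEst (D.G C) s (M.F k) μ' (t (.inl k)) (fun x => PS.map Y₃.T3 (Y₃.h3.toFun x))
      (fun x => Φ.toFun ((Y₃.h4.trans Y₅.Sm).toFun x)) := by
  have hEΩ : M.F k ⊆ Ω := H193.mesh_sub M k
  have hμs : 0 ≤ 20 / (1 / μN n) := (H233.soft_mu D).1
  have hT := tlay_triv Y₅.lay Y₃.h4 (∅ : Set V)
  have hτs := (D.B C).τ_pos s
  -- positions
  have hpos : ∀ x ∈ M.F k, Y₃.h4.toFun x ∈ (D.G C).PB (7 / 8) s ∧
      |Y₃.h4.toFun x (K.nrm s) - K.slo s (K.nrm s)| < (D.B C).τ s := by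
    intro x hx
    have h1 := box4 Y₃ hk hx
    refine ⟨_root_.P073.H919.HB_PB (by norm_num) (by norm_num) s h1, ?_⟩
    have h2 := (_root_.P073.H919.mem_HB.1 h1).2
    linarith
  have hsm : ∀ x ∈ M.F k, (Y₃.h4.trans Y₅.Sm).toFun x ∈ PK (D.G C) s ∨ ∃ e ∈ pG C J₀,
      (Y₃.h4.trans Y₅.Sm).toFun x ∈ (D.W C).se e := by
    intro x hx
    by_cases hb : ∃ b : pG C J₀, Y₃.h4.toFun x ∈ ((tfam (YS (D.G C)) (rT (D.G C))
        (rT_pos (D.G C)) (fun e k => (YS_p_lt (D.G C) e k).le)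
        (fun e k => (YS_q_lt (D.G C) e k).le) Y₅.H.inj Y₅.Th Y₅.ς0 Y₅.ς1).X b).K
    · obtain ⟨b, hb⟩ := hb
      exact Or.inr ⟨b.1, b.2, hT.Ese b (hT.isH.mem hb)⟩
    · push Not at hb
      have e0 : (Y₃.h4.trans Y₅.Sm).toFun x = Y₃.h4.toFun x := hT.isH.off _ hb
      exact Or.inl (by rw [e0]; exact PB_sub_PK (by norm_num) s (hpos x hx).1)
  have hND : 0 < N (.inl k) * (1 + diam (M.F k)) := by
    have h1 := HS.pos (.inl k)
    have h2 : 0 ≤ diam (M.F k) := diam_nonneg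
    positivity
  have hsl := fun x (hx : x ∈ M.F k) => small_last HS hk.1 (k := .inl k) hx (hsm x hx)
  have key : LocEst (D.G C) s (M.F k) μ' (t (.inl k)) Y₃.h4.toFun
      (fun x => Φ.toFun (Y₅.Sm.toFun (Y₃.h4.toFun x))) := by
    refine loc_tail (sl := 1 + μ₂) (κ := κ) (N := N (.inl k))
      (q := t (.inl k) / 7 / (N (.inl k) * (1 + diam (M.F k)))) hT HΦ.2.1 hμs hEΩ hpos
      (yok_of_fit hT.KE hT.j fun b hb => tfit_of hb) ?_ hκ0 ?_ (by linarith) ?_ ?_
      (by positivity) (fun x hx => (hsl x hx).1) (fun x hx => (hsl x hx).2.1)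
      (fun x hx => (hsl x hx).2.2) ?_
    · intro b
      refine ⟨(D.G C).uT b.1 / 4, by have := (D.G C).uT_pos b.1; positivity,
        fun i => le_rfl, ?_⟩
      have h1 : 0 < (D.G C).uT b.1 / 4 := by have := (D.G C).uT_pos b.1; positivity
      rw [div_le_iff₀ h1]
      exact ((Y₅.Th b).disp_le (hμ b)).trans (hκ b)
    · intro b
      exact ((Y₅.Th b).slG_le (Y₅.ς0 b).le (Y₅.ς1 b) (hμ b)).trans (by linarith [hμ2 b])
    · exact hμ'
    · exact fun x hx y hy => HS.lip (.inl k) y hy x hx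
    · have h1 := HS.pos (.inl k)
      have h2 : 0 ≤ diam (M.F k) := diam_nonneg
      have h3 : 7 * (t (.inl k) / 7 / (N (.inl k) * (1 + diam (M.F k))) * N (.inl k)) =
          t (.inl k) * (1 / (1 + diam (M.F k))) := by
        have : N (.inl k) ≠ 0 := h1.ne'
        have : 1 + diam (M.F k) ≠ 0 := by positivity
        field_simp
      rw [h3]
      exact mul_le_of_le_one_right ht (by rw [div_le_one (by positivity)]; linarith)
  intro x hx
  filter_upwards [key x hx, self_mem_nhdsWithin] with y h1 hy j'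
  have h2 := h1 j'
  rw [(map4_peeled Y₃ hk hx).1, (map4_peeled Y₃ hk hy).1] at h2
  show Φ.toFun (Y₅.Sm.toFun (Y₃.h4.toFun y)) j' - Φ.toFun (Y₅.Sm.toFun (Y₃.h4.toFun x)) j' ≤ _ ∧
    Φ.toFun (Y₅.Sm.toFun (Y₃.h4.toFun x)) j' - Φ.toFun (Y₅.Sm.toFun (Y₃.h4.toFun y)) j' ≤ _
  rw [(map4_peeled Y₃ hk hx).1, (map4_peeled Y₃ hk hy).1]
  exact h2

/-- the constant of the auxiliary map -/
theorem num_q (D : KIn3 c₀ n j δ v w ρ M h J₀ J P Z) :
    (1 + 20 / (1 / μN n)) * (1 + n / 256 + n / 256) ≤ 1 + 31 / 96 * n := by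
  have h3 := D.nle
  have h4 := D.le
  have h5 := D.pos
  have e : 20 / (1 / μN n) = 20 * (n / 64) := by
    unfold μN
    field_simp
  rw [e]
  nlinarith

/-- **[LOC-Q] the auxiliary map** on all peeled faces: `LocEst` and `L1Est` -/
theorem locq_top (Y₅ : S5 Y₄) (hμ : ∀ b, 0 ≤ Y₅.μ b) (hμ2 : ∀ b, Y₅.μ b ≤ n / 256)
    (hκ : ∀ b : pG C J₀, Y₅.μ b * (ebe (D.W C) b.1 - eal (D.W C) b.1) ≤
      n / 256 * ((D.G C).uT b.1 / 4)) :
    ∀ (R : Fac K) (N t : M.κ ⊕ M.ι → ℝ) (Φ : ConHomeo Λ Λ), (∀ a, 0 < t a) →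
      Small3 (D.W C) (Xp C J₀) R (Y₃.h4.trans Y₅.Sm).toFun (FQ M) N t → SoftQ D C R Φ →
      ∀ s k, (D.dat C).PkS (D.G C) X.h1 s k →
        LocEst (D.G C) s (M.F k) (31 / 96 * n) (t (.inl k))
          (fun x => PS.map Y₃.T3 (Y₃.h3.toFun x))
          (fun x => Φ.toFun ((Y₃.h4.trans Y₅.Sm).toFun x)) ∧
        L1Est (D.G C) s (M.F k) (31 / 32 * n) (3 * t (.inl k))
          (fun x => PS.map Y₃.T3 (Y₃.h3.toFun x))
          (fun x => Φ.toFun ((Y₃.h4.trans Y₅.Sm).toFun x)) := by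
  intro R N t Φ ht0 HS HΦ s k hk
  have hn := D.pos
  have h1 := locEst_fq Y₅ hk (μ₂ := n / 256) (κ := n / 256) hμ hμ2 (by positivity)
    (by positivity) hκ HS HΦ (ht0 _).le (num_q D)
  refine ⟨h1, ?_⟩
  have h2 := h1.l1
  have e : 3 * (31 / 96 * n) = 31 / 32 * n := by ring
  rwa [e] at h2

end Vale.Agent.P073.H212.K3
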