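import Vale.Agent.P073.H212.SharpTube
import Vale.Agent.P073.H471.SoftTwo

/-!
# P073, H212: **[SHARP-TV]**, assembly of the field `tv` of `SharpOut`

`sharp_tv_of`: the field, from the plate case.
-/

open Set Metric Topology Filter
open scoped ENNReal

namespace Vale.Agent.P073.H212

open _root_.P073 _root_.P073.Net _root_.P073.PA691 _root_.P073.H236 _root_.P073.H345
open _root_.P073.H579 (AkP EAct GEP)
open _root_.P073.H142 (FStar lastMap lastMap_apply PS)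
open Vale.Agent.P073.St (V)
open Vale.Agent.P073.H471 Vale.Agent.P073.H267
open Vale.Agent.P073.H73 (Mesh onSeg)
open Vale.Agent.P073.H193 (Edges edges)
open Vale.Agent.P073.H805 (ROut RIn)
open _root_.P073.H267 (TOut tvE)

theorem card_cases : ∀ A : Finset (Fin 3), A.Nonempty → A ≠ Finset.univ →
    (∃ l, A = {l}) ∨ ∃ l, A = Finset.univ.erase l := by
  decide

/-- an edge of the interface, or its reversal, belongs to `edges M` -/
theorem exists_edge {Ω : Set V} {M : Mesh Ω} {e : V × V} (he : H304.IsEdge M e) :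
    ∃ e' : (edges M).ε, (edges M).seg e' = segment ℝ e.1 e.2 ∧ ∀ (g : V → V) A,
      H239.tv g e A = H239.tv g ((edges M).a e', (edges M).b e') A := by
  rcases _root_.P073.H950.isEdge_iff.1 he with h1 | h1
  · exact ⟨⟨(e.1, e.2), h1⟩, rfl, fun g A => rfl⟩
  · exact ⟨⟨(e.2, e.1), h1⟩, segment_symm ℝ _ _, fun g A => (tv_swap g e A).symm⟩

/-- the plate case: hypothesis -/
def PlateTV {η₀ : ℝ} {Ω Λ : Set V} {w : V} {ρ : V → ℝ} {M : Mesh Ω} {h : ConHomeo Ω Λ}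
    {Pr : Set M.ι} {K : BoxCx Λ w} (D : KIn η₀ w ρ M h Pr) (C : Cells ρ w K)
    (h1 f : ConHomeo Ω Λ) (μs η₁ : ℝ) (εk : M.κ → ℝ) : Prop :=
  ∃ t₀ : M.κ → ℝ, (∀ k, 0 < t₀ k) ∧ ∀ (R : Fac K) (N t : M.κ → ℝ) (Φ : ConHomeo Λ Λ),
    (∀ k, 0 < t k) → (∀ k, t k ≤ t₀ k) → Small (D.W C) R f.toFun M.F N t →
    IsSoft1 (D.B C) μs R Φ → ∀ (k : M.κ) (e : (edges M).ε), (edges M).seg e ⊆ M.F k →
    ∀ s : K.S, (∀ l, (∃ x ∈ (edges M).seg e, x ∈ M.F l) →
      AkP (D.G C) M h1 univ s l ∧ EqOn h1.toFun h.toFun (M.F l)) →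
    H239.tv (f.trans Φ).toFun ((edges M).a e, (edges M).b e) Finset.univ ≤
      ENNReal.ofReal (1 + η₁) * H239.tv h.toFun ((edges M).a e, (edges M).b e)
        (Finset.univ.erase (K.nrm s)) + ENNReal.ofReal (εk k)

variable {η₀ : ℝ} {Ω Λ : Set V} {w : V} {ρ : V → ℝ} {M : Mesh Ω} {h h1 h2 h3 : ConHomeo Ω Λ}
  {Pr : Set M.ι} {K : BoxCx Λ w}

/-- **the field `tv` of `SharpOut`** -/
theorem sharp_tv_of (D : KIn η₀ w ρ M h Pr) (C : Cells ρ w K) {T : ∀ k, FStar (edges M) k}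
    {C₀ μ₁ : ℝ} {ε LaT : (edges M).ε → ℝ} {LfT : M.κ → (edges M).ε → ℝ} {Lam1 : M.κ → ℝ}
    {sl : TBx K → Finset (ℝ × ℝ)}
    (TO : TOut (D.G C) M (edges M) ρ w Pr h h1 (ωT η₀ C) T C₀ μ₁ ε LaT LfT Lam1 sl)
    {L : PLev (D.G C)} {κ₀ κ₁ : V → V} {GE : (edges M).ε → (V → V) → Prop}
    {GF : M.κ → (V → V) → Prop}
    (RP : RPOut (D.G C) M (edges M) Pr L h1 κ₀ κ₁ h2 GE GF h3)
    {F : Bool → BFam 3 K.S Λ} {Sm : Bool → ConHomeo Λ Λ} (PF : PS L F Sm) {μs η₁ : ℝ}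
    (hμs : 0 ≤ μs) (hμs1 : 3 * μs ≤ 1) (hη : η₀ ≤ η₁)
    (hnum : (1 + 3 * μs) * (1 + μ₁) ≤ 1 + η₁) {εk : M.κ → ℝ} (hεk : ∀ k, 0 < εk k)
    (hε : ∀ k e, (edges M).seg e ⊆ M.F k → 4 * ε e ≤ εk k)
    (hP : PlateTV D C h1 (lastMap h3 Sm) μs η₁ εk) :
    ∃ t₀ : M.κ → ℝ, (∀ k, 0 < t₀ k) ∧ ∀ (R : Fac K) (N t : M.κ → ℝ) (Φ : ConHomeo Λ Λ),
      (∀ k, 0 < t k) → (∀ k, t k ≤ t₀ k) →
      Small (D.W C) R (lastMap h3 Sm).toFun M.F N t → IsSoft1 (D.B C) μs R Φ →
      ∀ k e, H304.IsEdge M e → segment ℝ e.1 e.2 ⊆ M.F k → ∀ A : Finset (Fin 3), A.Nonempty →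
      A ≠ Finset.univ → ∀ m z,
      H239.Deep η₁ (δN η₀) w ρ univ A m z (h.toFun '' segment ℝ e.1 e.2) →
      H239.tv ((lastMap h3 Sm).trans Φ).toFun e Finset.univ ≤
        ENNReal.ofReal (1 + η₁) * H239.tv h.toFun e A + ENNReal.ofReal (εk k) := by
  obtain ⟨t₁, ht₁, hP⟩ := hP
  refine ⟨fun k => min (t₁ k) (εk k / 6), fun k => lt_min (ht₁ k) (by have := hεk k; positivity),
    ?_⟩
  intro R N t Φ htp ht HS HΦ k e he hek A hA hA' m z hDeep
  obtain ⟨e', he', htv⟩ := exists_edge he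
  have hek' : (edges M).seg e' ⊆ M.F k := by rw [he']; exact hek
  rw [htv, htv]
  rw [← he'] at hDeep
  rcases card_cases A hA hA' with ⟨l, rfl⟩ | ⟨l, rfl⟩
  · -- tubes
    obtain ⟨i, hi, h4, h5⟩ := tube_edge D C TO RP PF hη hDeep
    have h6 := tv_softE (f := (lastMap h3 Sm).toFun) HS HΦ.toIsSoft hμs (i := i)
      (e := ((edges M).a e', (edges M).b e')) hek' (fun x hx => by
        rw [(h4 x hx).1]; exact (h4 x hx).2)
    have h7 : H239.tv (lastMap h3 Sm).toFun ((edges M).a e', (edges M).b e') {K.dir i} =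
        H239.tv h1.toFun ((edges M).a e', (edges M).b e') {K.dir i} :=
      H669.PLv.tv_congr (e := ((edges M).a e', (edges M).b e')) (fun x hx => (h4 x hx).1) _
    rw [h7, hi, tv_single] at h6
    rw [tv_single h.toFun]
    refine (show _ ≤ _ from h6).trans ?_
    have h8 : eVariationOn (fun t => onSeg h1.toFun ((edges M).a e', (edges M).b e') t l)
        (Icc 0 1) ≤ _ := h5
    have h9 : 0 ≤ 1 + 3 * μs := by linarith
    calc _ ≤ ENNReal.ofReal (1 + 3 * μs) * (ENNReal.ofReal (1 + μ₁) *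
            tvE (edges M) h.toFun e' l + ENNReal.ofReal (ε e')) + ENNReal.ofReal (3 * t k) := by
          gcongr
      _ = ENNReal.ofReal ((1 + 3 * μs) * (1 + μ₁)) * tvE (edges M) h.toFun e' l +
            (ENNReal.ofReal ((1 + 3 * μs) * ε e') + ENNReal.ofReal (3 * t k)) := by
          rw [mul_add, ← mul_assoc, ← ENNReal.ofReal_mul h9, ← ENNReal.ofReal_mul h9, add_assoc]
      _ ≤ _ := by
          refine add_le_add (mul_le_mul' (ENNReal.ofReal_le_ofReal hnum) le_rfl) ?_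
          have h10 := hε k e' hek'
          have h11 := (ht k).trans (min_le_right _ _)
          have h12 := htp k
          have h13 := hεk k
          have e1 : ENNReal.ofReal ((1 + 3 * μs) * ε e') ≤ ENNReal.ofReal (εk k / 2) := by
            rcases le_total 0 (ε e') with h14 | h14
            · exact ENNReal.ofReal_le_ofReal (by nlinarith)
            · rw [ENNReal.ofReal_of_nonpos (by nlinarith)]
              exact bot_le
          have e2 : ENNReal.ofReal (3 * t k) ≤ ENNReal.ofReal (εk k / 2) :=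
            ENNReal.ofReal_le_ofReal (by linarith)
          refine (add_le_add e1 e2).trans (le_of_eq ?_)
          rw [← ENNReal.ofReal_add (by linarith) (by linarith)]
          congr 1
          ring
  · -- plates
    obtain ⟨s, hs, -, h4⟩ := plate_edge D C TO.toT3Out hη hDeep
    have h5 := hP R N t Φ htp (fun k => (ht k).trans (min_le_left _ _)) HS HΦ k e' hek' s
      fun l ⟨x, hx, hxl⟩ => h4 l ⟨x, hx, hxl⟩
    rwa [hs] at h5

end Vale.Agent.P073.H212
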