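import Vale.Agent.P073.H239.Sharp

/-!
# P073, H212: the sharp output of `K3C` (ranks 1 and 2)

`SharpOut3` is the twin of `H239.SharpOut` for the theorem with 3-cells.  The last map `g` is
obtained from the map `q` of the square faces (levels drawn, before the local changes of the
sheets); `q` is close to `h` and has the same estimates of the lengths of the edges.  A square face
is drawn nearly isometrically by `g` if its sides are nearly monotone for `g` AND for `q`.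

* `AuxOut`: off, closeness, edges and sharp edges of an arbitrary function `q`;
* `SharpOut3`: `tv` as in `SharpOut`; `aux`: the function `q` and the sharp faces.
-/

open Set Metric Topology MeasureTheory Filter
open scoped ENNReal

namespace Vale.Agent.P073.H212

open Vale.Agent.P073
open Vale.Agent.P073.St (V)
open Vale.Agent.P073.SQ (ev)
open Vale.Agent.P073.H73 (Mesh sqr onSeg)
open Vale.Agent.P073.H304 (IsEdge Nb)
open Vale.Agent.P073.H239 (Deep faceI)
open _root_.P073 (ConHomeo)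
open _root_.P073.Net (len)

/-- the sharp edges of a function `q` (field `tv` of `H239.SharpOut`) -/
def TvOut {Ω : Set V} (c δ : ℝ) (w : V) (ρ : V → ℝ) (M : Mesh Ω) (h : V → V)
    (J₀ : Set (ℕ × (Fin 3 → ℤ))) (ε : M.κ → ℝ) (q : V → V) : Prop :=
  ∀ k e, IsEdge M e → segment ℝ e.1 e.2 ⊆ M.F k → ∀ A : Finset (Fin 3), A.Nonempty →
    A ≠ Finset.univ → ∀ m z, Deep c δ w ρ J₀ A m z (h '' segment ℝ e.1 e.2) →
    H239.tv q e Finset.univ ≤ ENNReal.ofReal (1 + c) * H239.tv h e A + ENNReal.ofReal (ε k)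

/-- the side `[x, x + 2 σ ev i]` is nearly monotone for `q` -/
def MonSide (r σ : ℝ) (q : V → V) (i : Fin 3) (x : V) : Prop :=
  (1 - r) * (2 * σ) ≤ q (x + (2 * σ) • ev i) i - q x i ∧
    H239.tv q (x, x + (2 * σ) • ev i) Finset.univ ≤ ENNReal.ofReal ((1 + r) * (2 * σ))

/-- **the auxiliary function** of the sharp faces: the fields `off`, `close`, `edge` of `H304.Out`
and the sharp edges -/
structure AuxOut {Ω : Set V} (D c₀ δ : ℝ) (w : V) (ρ : V → ℝ) (M : Mesh Ω) (h : V → V)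
    (J₀ : Set (ℕ × (Fin 3 → ℤ))) (ε : M.κ → ℝ) (q : V → V) : Prop where
  off : ∀ x ∈ Ω, h x ∉ Nb w J₀ c₀ → q x = h x
  close : ∀ x ∈ Ω, ∀ t ∈ J₀, h x ∈ Nb w {t} c₀ → ‖q x - h x‖ ≤ D / 2 ^ t.1
  edge : ∀ k, ∀ e, IsEdge M e → segment ℝ e.1 e.2 ⊆ M.F k →
    len (onSeg q e) (Icc 0 1) ≤
      ENNReal.ofReal D * len (onSeg h e) (Icc 0 1) + ENNReal.ofReal (ε k)
  tv : TvOut c₀ δ w ρ M h J₀ ε q

/-- the sharp output of `K3C`. The hypothesis of `faces` is on the sides `[x, x + 2 σ ev i]` of the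
square, which are edges of the mesh: nearly monotone for `g` and for `q`, and not too long for `h` -/
structure SharpOut3 {Ω Λ : Set V} (p D c₀ δ μ r : ℝ) (w : V) (ρ : V → ℝ) (M : Mesh Ω)
    (h : V → V) (J₀ : Set (ℕ × (Fin 3 → ℤ))) (Y : Set M.κ) (ε : M.κ → ℝ) (g : ConHomeo Ω Λ) :
    Prop where
  /-- sharp edges -/
  tv : TvOut c₀ δ w ρ M h J₀ ε g.toFun
  /-- sharp faces -/
  aux : ∃ q : V → V, AuxOut D c₀ δ w ρ M h J₀ ε q ∧
    ∀ k ∈ Y, ∀ (a : V) (l : Fin 3) (σ : ℝ), 0 < σ → M.F k = sqr a l σ →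
    ∀ m z, Deep c₀ δ w ρ J₀ (Finset.univ.erase l) m z (h '' M.F k) →
    (∀ i, i ≠ l → ∀ x : V, x ∈ sqr a l σ → x + (2 * σ) • ev i ∈ sqr a l σ →
      (∀ j, j ≠ i → j ≠ l → |x j - a j| = σ) →
      IsEdge M (x, x + (2 * σ) • ev i) ∧ MonSide r σ g.toFun i x ∧ MonSide r σ q i x ∧
      H239.tv h (x, x + (2 * σ) • ev i) (Finset.univ.erase l) ≤
        ENNReal.ofReal ((1 + r) * (2 * σ))) →
    faceI p g.toFun a l σ ≤ ENNReal.ofReal ((μ + ε k) * σ ^ 3)

/-- smaller error terms -/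
theorem TvOut.mono {Ω : Set V} {c δ : ℝ} {w : V} {ρ : V → ℝ} {M : Mesh Ω} {h : V → V}
    {J₀ : Set (ℕ × (Fin 3 → ℤ))} {ε ε' : M.κ → ℝ} {q : V → V} (H : TvOut c δ w ρ M h J₀ ε q)
    (hε : ∀ k, ε k ≤ ε' k) : TvOut c δ w ρ M h J₀ ε' q := fun k e he hs A hA hA' m z hD =>
  (H k e he hs A hA hA' m z hD).trans (by gcongr; exact hε k)

end Vale.Agent.P073.H212
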