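import Vale.Agent.P073.H212.DeepP
import Vale.Agent.P073.H212.SharpTV
import Vale.Agent.P073.H31.SK3
import Vale.Agent.P073.H190.ImgE
import Vale.Agent.P073.H190.TvpS
import Vale.Agent.P073.H579.Act3
import Vale.Agent.P073.H253.TubeTv
import Vale.Agent.P073.H581.T5d
import Vale.Agent.P073.H212.Hk2

/-!
# P073, H212, [SHARP-K3]: the plate case of the sharp edges (`TvPlate`)

* `card_le_cnt`: the crossing points of `h2` on a deep edge.
* `tv_deep`: the sharp clause for one deep edge, for any last map with `L1Est`.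
-/

open Set Metric Topology Filter
open scoped ENNReal

namespace Vale.Agent.P073.H212.Pl

open _root_.P073 _root_.P073.Net _root_.P073.PA691 _root_.P073.H236 _root_.P073.TM
open _root_.P073.H345 _root_.P073.H579 _root_.P073.H880 _root_.P073.FW31
open _root_.P073.H880.RP (Dat ROut3 thinL)
open Vale.Agent.P073.St (V)
open Vale.Agent.P073.H471 Vale.Agent.P073.H267 Vale.Agent.P073.H926
open Vale.Agent.P073.H73 (Mesh onSeg)
open Vale.Agent.P073.H193 (Edges edges)
open Vale.Agent.P073.H304 (Nb In Zmax)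
open Vale.Agent.P073.H190.Tvp (crK mem_lv_tg cnt_h2_le mem_PK_h2)
open _root_.P073.Croft (levs onS cross varIn)
open _root_.P073.H267 (tvE lenE)

section count

variable {Ω Λ : Set V} {v : V} {K : BoxCx Λ v} {S : Rad K} {W : Wid K S} {B : Boxes W} {G : Geo B}
  {M : Mesh Ω} {E : Edges M} {D : Dat K M} {h1 h2 : ConHomeo Ω Λ} {L : PLev G}
  {ι : Type} {F : ι → Set V} {i : ι}

/-- **the crossing points of `h2` on an edge over one plate** -/
theorem card_le_cnt (O : ROut3 G E D h1 h2 L.lv F) (ht : ∀ s ∈ D.S₀, ∀ β, D.ht s β ≤ B.τ s / 2)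
    {e : E.ε} (hi : F i = E.seg e) {s : K.S} (hs : s ∈ D.S₀)
    (hPK : ∀ x ∈ E.seg e, h1.toFun x ∈ PK G s)
    (hone : ∀ s' ∈ D.S₀, s' ≠ s → ∀ x ∈ E.seg e, h1.toFun x ∉ D.PE G s') {X : Finset V}
    (hX : ∀ x ∈ X, CrsPt (E.a e) (E.b e) h2.toFun (L.lv s) x) :
    (X.card : ℝ≥0∞) ≤ cnt (crK L h1 (E.a e) (E.b e) s true) +
      cnt (crK L h1 (E.a e) (E.b e) s false) := by
  have hsΩ : segment ℝ (E.a e) (E.b e) ⊆ Ω := E.seg_sub_Ω e
  refine le_trans ?_ (cnt_h2_le O ht (E.ne e) hi hsΩ hs hone)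
  set φ : ℝ → V := fun t => E.a e + t • (E.b e - E.a e) with hφ
  have hsub : (X : Set V) ⊆ φ '' (crK L h2 (E.a e) (E.b e) s true ∪
      crK L h2 (E.a e) (E.b e) s false) := by
    intro x hx
    obtain ⟨hxs, j, hj⟩ := hX x hx
    have hxs' := hxs
    rw [segment_eq_image'] at hxs
    obtain ⟨t, ht1, rfl⟩ := hxs
    obtain ⟨hjn, -⟩ := PLev.mem_lv.1 hj
    have key : t ∈ crK L h2 (E.a e) (E.b e) s (bt s j) := by
      refine ⟨ht1, (mem_PK_h2 O ht (hsΩ hxs') s).2 (hPK _ hxs'), ?_⟩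
      have h3 : h2.toFun (E.a e + t • (E.b e - E.a e)) (tg s (bt s j)) ∈
          L.lv s (tg s (bt s j)) := by
        rw [tg_bt s hjn]; exact hj
      exact mem_lv_tg.1 h3
    refine ⟨t, ?_, rfl⟩
    revert key
    cases bt s j
    · exact Or.inr
    · exact Or.inl
  have h3 : (X.card : ℕ∞) ≤ (crK L h2 (E.a e) (E.b e) s true).encard +
      (crK L h2 (E.a e) (E.b e) s false).encard := by
    rw [← Set.encard_coe_eq_coe_finsetCard]
    exact (Set.encard_le_encard hsub).trans ((Set.encard_image_le _ _).trans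
      (Set.encard_union_le _ _))
  unfold _root_.P073.Net.cnt
  exact_mod_cast h3

end count

variable {c₀ n δ : ℝ} {j : ℕ} {Ω Λ : Set V} {v w : V} {ρ : V → ℝ} {M : Mesh Ω}
  {h : ConHomeo Ω Λ} {J₀ J : Set (ℕ × (Fin 3 → ℤ))} {P Z : Set M.ι} {K : BoxCx Λ w}

theorem tv_erase {s : K.S} {E : Edges M}
    (g : V → V) (e : E.ε) :
    H239.tv g (E.a e, E.b e) (Finset.univ.erase (K.nrm s)) = ∑ β, tvE E g e (tg s β) := by
  unfold H239.tv
  rw [_root_.P073.H212.Hk.erase_eq, Finset.sum_image fun β _ β' _ h =>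
    _root_.P073.H212.Hk.tg_inj s h]
  rfl

/-- **the sharp clause for one deep edge** -/
theorem tv_deep (D : KIn3 c₀ n j δ v w ρ M h J₀ J P Z) (C : Cells ρ w K)
    {h1 h2 h3 : ConHomeo Ω Λ}
    (imge : ∀ e, (∀ x ∈ (edges M).seg e, ∀ b ∈ pB C J₀, h.toFun x ∉ (D.G C).TB false b) →
      h1.toFun '' (edges M).seg e = h.toFun '' (edges M).seg e)
    {L : PLev (D.G C)} {ι : Type} {F : ι → Set V}
    (O : ROut3 (D.G C) (edges M) (D.dat C) h1 h2 L.lv F) (hF : ∀ e, ∃ i, F i = (edges M).seg e)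
    {κ : V → V} {kP loP hiP omP : K.S → Fin 3 → ℝ → ℝ} {La mu : (edges M).ε → ℝ}
    {GF : M.κ → (V → V) → Prop}
    (PA : PAct M (edges M) h2 κ Λ ((D.dat C).PkS (D.G C) h1) kP L.lv loP hiP omP)
    (O3 : Out2 M (edges M) h2 κ ((D.dat C).Peel (D.G C) h1)
      (GEP (edges M) h2 ((D.dat C).PkS (D.G C) h1) kP L.lv loP hiP omP La mu) GF h3)
    {fm : V → V} {om0 θ : ℝ} {s : K.S}
    (hW : PlW (D.G C) s (kP s) (L.lv s) (loP s) (hiP s) (omP s) om0 θ fm)
    {μc εE : ℝ} (hμc : 0 ≤ μc) (hεE : 0 ≤ εE) {e : (edges M).ε}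
    (hcr : ∀ β, ENNReal.ofReal om0 * cnt (crK L h1 ((edges M).a e) ((edges M).b e) s β) ≤
      ENNReal.ofReal (1 + μc) * varIn (onS h1.toFun ((edges M).a e) ((edges M).b e)) (tg s β)
        (PK (D.G C) s) 0 1 + ENNReal.ofReal εE)
    {k : M.κ} (hek : (edges M).seg e ⊆ M.F k) (hp : PlPos D C h1.toFun s ((edges M).seg e))
    {g : V → V} {μs τ Lam : ℝ} (hμs : 0 ≤ μs) (hτ : 0 ≤ τ)
    (HL : L1Est (D.G C) s ((edges M).seg e) μs τ (fun x => fm (h3.toFun x)) g)
    (hpos3 : ∀ x ∈ (edges M).seg e, h3.toFun x ∈ (D.G C).PB (7 / 8) s)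
    (hLam : ∀ x ∈ (edges M).seg e, ∀ y ∈ (edges M).seg e,
      ‖h3.toFun x - h3.toFun y‖ ≤ Lam * ‖x - y‖) :
    H239.tv g ((edges M).a e, (edges M).b e) Finset.univ ≤
      ENNReal.ofReal ((1 + μs) * (1 + μc)) *
        H239.tv h.toFun ((edges M).a e, (edges M).b e) (Finset.univ.erase (K.nrm s)) +
      ENNReal.ofReal ((1 + μs) * (2 * εE) +
        ((1 + μs) * (2 * (θ * Lam)) + τ) * ‖(edges M).b e - (edges M).a e‖) := by
  classical
  have hmem : (edges M).a e ∈ (edges M).seg e := left_mem_segment ℝ _ _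
  have hpk : ∀ l, (edges M).seg e ⊆ M.F l → (D.dat C).PkS (D.G C) h1 s l := fun l hl =>
    hp.peel _ hmem l (hl hmem) h1 fun _ _ => rfl
  obtain ⟨X, hX, hle⟩ := tv_act1 PA O3 hW ⟨s, hpk k hek⟩ (hpk k hek) hek
    (fun l hl => ⟨s, hpk l hl⟩) hμs HL hpos3 hLam rfl
  refine hle.trans ?_
  obtain ⟨i, hi⟩ := hF e
  have hht : ∀ s ∈ (D.dat C).S₀, ∀ β, (D.dat C).ht s β ≤ (D.B C).τ s / 2 :=
    fun s hs β => (D.htOk C).le s hs β
  have hPK : ∀ x ∈ (edges M).seg e, h1.toFun x ∈ PK (D.G C) s := fun x hx =>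
    PB_sub_PK (by norm_num) s (hp.pb x hx)
  have hcard := card_le_cnt O hht hi (hp.hs) hPK
    (fun s' hs' hne x hx hE => hp.other x hx s' hne
      (Vale.Agent.P073.H805.PB_mono (by norm_num) s'
        ((D.htOk C).pe_PB hs' hE)))
    fun x hx => (hX x).1 hx
  -- the variation of the coordinates
  have himg := imge e fun x hx b _ => hp.off x hx b
  have hvar : ∀ β, varIn (onS h1.toFun ((edges M).a e) ((edges M).b e)) (tg s β)
      (PK (D.G C) s) 0 1 ≤ tvE (edges M) h.toFun e (tg s β) := by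
    intro β
    rw [← Vale.Agent.P073.H190.ImgE.tvE_eq_of_image himg]
    exact H581.varIn_le_evar zero_le_one
      (Croft.conicalOn_onS h1.conical ((edges M).seg_sub_Ω e)) (tg s β)
      (Vale.Agent.P073.H669.PK_convex (D.G C) s)
  have hom := hW.pos
  have h1μ : 0 ≤ 1 + μs := by linarith
  have h1c : 0 ≤ 1 + μc := by linarith
  have key : ENNReal.ofReal (om0 * X.card) ≤ ENNReal.ofReal (1 + μc) *
      H239.tv h.toFun ((edges M).a e, (edges M).b e) (Finset.univ.erase (K.nrm s)) +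
        ENNReal.ofReal (2 * εE) := by
    rw [ENNReal.ofReal_mul hom.le, ENNReal.ofReal_natCast, tv_erase]
    have h2 := mul_le_mul' (le_refl (ENNReal.ofReal om0)) hcard
    refine h2.trans ?_
    rw [mul_add, Fintype.sum_bool, mul_add]
    have h3 : ENNReal.ofReal (2 * εE) = ENNReal.ofReal εE + ENNReal.ofReal εE := by
      rw [← ENNReal.ofReal_add hεE hεE]; congr 1; ring
    rw [h3]
    have h4 := fun β => (hcr β).trans (add_le_add (mul_le_mul' le_rfl (hvar β)) le_rfl)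
    refine (add_le_add (h4 true) (h4 false)).trans (le_of_eq ?_)
    ring
  have hΘ : 0 ≤ ((1 + μs) * (2 * (θ * Lam)) + τ) * ‖(edges M).b e - (edges M).a e‖ := by
    have hθ := hW.θ0
    have hab : 0 < ‖(edges M).a e - (edges M).b e‖ :=
      norm_pos_iff.2 (sub_ne_zero.2 ((edges M).ne e))
    have h5 := hLam _ hmem _ (right_mem_segment ℝ _ _)
    have h6 : 0 ≤ Lam := by
      have h7 := (norm_nonneg _).trans h5
      exact nonneg_of_mul_nonneg_left h7 hab
    positivity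
  calc ENNReal.ofReal ((1 + μs) * (om0 * X.card) +
        ((1 + μs) * (2 * (θ * Lam)) + τ) * ‖(edges M).b e - (edges M).a e‖)
      = ENNReal.ofReal (1 + μs) * ENNReal.ofReal (om0 * X.card) + ENNReal.ofReal
        (((1 + μs) * (2 * (θ * Lam)) + τ) * ‖(edges M).b e - (edges M).a e‖) := by
        rw [ENNReal.ofReal_add (by positivity) hΘ, ENNReal.ofReal_mul h1μ]
    _ ≤ ENNReal.ofReal (1 + μs) * (ENNReal.ofReal (1 + μc) *
        H239.tv h.toFun ((edges M).a e, (edges M).b e) (Finset.univ.erase (K.nrm s)) +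
        ENNReal.ofReal (2 * εE)) + ENNReal.ofReal
        (((1 + μs) * (2 * (θ * Lam)) + τ) * ‖(edges M).b e - (edges M).a e‖) :=
        add_le_add (mul_le_mul' le_rfl key) le_rfl
    _ = _ := by
        rw [mul_add, ← mul_assoc, ← ENNReal.ofReal_mul h1μ, ← ENNReal.ofReal_mul h1μ, add_assoc,
          ← ENNReal.ofReal_add (by positivity) hΘ]

end Vale.Agent.P073.H212.Pl
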