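import Vale.Agent.P073.H212.PoDef
import Vale.Agent.P073.H212.RelInR
import Vale.Agent.P073.H190.RelNum
import Vale.Agent.P073.H236.SlotP

/-!
# P073, H212, [EDGE-P], (P1): `PO` for the stage `S4`

* `PO.mono`: larger numbers;
* `S4.po`: `f5` relative to `h4` on a set which is off the open cells;
* **`S4.po_seg`**: on an edge, `Lc = m = 3`, `q₁ s = 10 * muP s / τ s`, moves at most `muP s`;
* `S3.po_refl`: the auxiliary map (`f5 := h4`);
* `exists_t4E`: slot (6), the tolerance of the second staircases for given numbers of the edges.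
-/

open Set Metric Topology Filter
open scoped ENNReal

set_option linter.unusedSectionVars false

namespace Vale.Agent.P073.H267.K3

open _root_.P073 _root_.P073.Net _root_.P073.PA691 _root_.P073.H236 _root_.P073.H579
open _root_.P073.H936 _root_.P073.H936.K3
open _root_.P073.H142
open _root_.P073.H345 (PK tg PLev tg_ne bt bt_tg tg_bt PB_sub_PK)
open _root_.P073.H880.RP
open _root_.P073.H919 (PSt HkG HkGF HkGO ZbP sfam HB PI sfam_e bw_pos' slAK_sfam_plate pwid bw mem_HB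
  HB_PB)
open _root_.P073.H228 _root_.P073.H228.EP
open _root_.P073.H429
open _root_.P073.H237.Cov (pst)
open Vale.Agent.P073.St (V)
open Vale.Agent.P073.H471 Vale.Agent.P073.H267
open Vale.Agent.P073.H73 (Mesh)
open Vale.Agent.P073.H193 (Edges Cyc edges)
open Vale.Agent.P073.H926
open Vale.Agent.P073.H190.Tvp (wP)

variable {c₀ n δ : ℝ} {j : ℕ} {Ω Λ : Set V} {v w : V} {ρ : V → ℝ} {M : Mesh Ω} {h : ConHomeo Ω Λ}
  {J₀ J : Set (ℕ × (Fin 3 → ℤ))} {P Z : Set M.ι} {K : BoxCx Λ w}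
  {D : KIn3 c₀ n j δ v w ρ M h J₀ J P Z} {C : Cells ρ w K} {C₀ μT : ℝ}
  {X : S1 D C C₀ μT} {Y₂ : S2 X} {Ys : Set M.κ} {sc : Sharp} {Y₃ : S3 Y₂ Ys sc}
  {Y₄ : S4 Y₃} {Sr : Rad K} {Wr : Wid K Sr} {B₀ : Boxes Wr}

/-- the box of the hook lies in the interior of the full zone -/
theorem HB_int (G : Geo B₀) (s : K.S) :
    _root_.P073.H919.HB G (29 / 32) (3 / 4) s ⊆ interior (G.PB (7 / 8) s) := by
  rw [← _root_.P073.H919.HB_one]
  exact _root_.P073.H919.HB_interior (by norm_num) (by norm_num) s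

/-- off the full zone the hook does nothing -/
theorem S4.h5_eq (Y₄ : S4 Y₃) {x : V} (hx : x ∈ Ω) {s : (D.dat C).S₀}
    (hs : Y₃.h4.toFun x ∈ PK (D.G C) s.1)
    (hn : Y₃.h4.toFun x ∉ HB (D.G C) (29 / 32) (3 / 4) s.1) :
    Y₄.h5.toFun x = Y₃.h4.toFun x :=
  hkGO_off' Y₄.hko (s := s) hx
    (fun _ hne h' => hne (Subtype.ext (_root_.P073.H345.PK_unique h' hs)))
    fun h' => hn (interior_subset h')

/-- the move of the second staircases -/
theorem S4.mv5 (Y₄ : S4 Y₃) {Xw : K.S → Bool → Set (ℝ × ℝ)} {ησ : K.S → ℝ} (hη0 : ∀ s, 0 ≤ ησ s)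
    (hη : ∀ β (s : (D.dat C).S₀),
      (sfam (Y₃.F β) (fun s => Y₄.q s * Y₄.r s) Y₄.p0 Y₄.p1).e s ≤ ησ s.1) {x : V} (hx : x ∈ Ω) :
    MvB (D.G C) (D.dat C).S₀ Xw (fun s => ησ s + ησ s) (fun s => ησ s + ησ s)
      (Y₄.h5.toFun x) (Y₄.f5.toFun x) := by
  rw [Y₄.map5 x hx]
  exact mvB_sg3 Y₄.sg hη0 hη _

/-- **[PO]** for the stage `S4` -/
theorem S4.po (Y₄ : S4 Y₃) (hrq : ∀ s : (D.dat C).S₀, 1 / 2 ≤ Y₄.q s * Y₄.r s) {qs : K.S → ℝ}
    (hq0 : ∀ s, 0 ≤ qs s)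
    (hq : ∀ (s : (D.dat C).S₀) (β : Bool),
      4 * (sfam (Y₃.F β) (fun s => Y₄.q s * Y₄.r s) Y₄.p0 Y₄.p1).e s / (D.B C).τ s.1 ≤ qs s.1)
    {Xw : K.S → Bool → Set (ℝ × ℝ)} {ησ : K.S → ℝ} (hη0 : ∀ s, 0 ≤ ησ s)
    (hη : ∀ β (s : (D.dat C).S₀),
      (sfam (Y₃.F β) (fun s => Y₄.q s * Y₄.r s) Y₄.p0 Y₄.p1).e s ≤ ησ s.1)
    {A : Set V} (hA : A ⊆ Ω) (hAd : ∀ i, ∀ x ∈ A, x ∉ interior (M.Q i)) {e₁ : ℝ}
    (he : ∀ s : (D.dat C).S₀, (Y₃.h4.toFun '' A ∩ PK (D.G C) s.1).Nonempty → Y₄.ε s ≤ e₁) :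
    PO (D.G C) (D.dat C).S₀ Xw (fun s => ησ s + ησ s) (fun s => ησ s + ησ s) Y₄.f5.toFun
      Y₃.h4.toFun A 3 3 (fun s => qs s * (3 + qs s)) e₁ := by
  have hmv := fun x (hx : x ∈ A) => Y₄.mv5 (Xw := Xw) hη0 hη (hA hx)
  have hσ0 : ∀ s, 0 ≤ ησ s + ησ s := fun s => by linarith [hη0 s]
  refine ⟨fun x hx s hs h => (hmv x hx).pk' ((hkGO_PK Y₄.hko (hA hx) s).2 h),
    fun x hx s hs h h' => ?_,
    fun x hx s hs h β => ?_, fun x hx s hs h β => ?_, fun x hx s hs h h' => ?_,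
    fun x hx s hs h h' => ?_, fun x hx h => ?_⟩
  · -- low
    set s' : (D.dat C).S₀ := ⟨s, hs⟩ with hs'
    have h1 := ((hmv x hx).at ((hkGO_PK Y₄.hko (hA hx) s).2 h) (hσ0 s) (hσ0 s)).1
    rw [h1]
    by_cases hB : Y₃.h4.toFun x ∈ HB (D.G C) (29 / 32) (3 / 4) s
    · have h2 := (Y₄.hko.mem s' (hA hx)).2 hB
      have h3 := (mem_HB.1 h2).2
      have h4 := (D.B C).τ_pos s
      linarith
    · rw [Y₄.h5_eq (hA hx) (s := s') h hB]
      exact h'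
  · -- win_in
    set s' : (D.dat C).S₀ := ⟨s, hs⟩ with hs'
    have hbw := fun β => bw_pos' Y₃.pst' β s'
    have hPK : Y₃.h4.toFun x ∈ PK (D.G C) s :=
      PB_sub_PK (by norm_num) s (interior_subset h)
    have h1 := hkGO_rel_in' Y₄.hko Y₄.sg (r' := Y₄.q s' * Y₄.r s') (s := s') (Y₄.p0 s')
      (by have := Y₄.q1 s'; have := Y₄.r0 s'; nlinarith) (Y₄.r1 s')
      (fun β => (Y₃.e0 β s').le) hbw (fun β => sfam_e Y₃.pst' Y₄.p0 Y₄.p1 β s')
      (A := pst Y₃.Lt s false) (Lc := 3) (m := 3) (Y₃.pst_pos s false).le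
      (fun β => by rw [Y₃.pst_eq s false β]; exact (Y₄.slope hrq s' β).1)
      (fun i => by
        have h2 := Y₃.bw_ge s' i.1
        have h3 : pwid Y₃.Lt (fun β => (Y₃.F β).e s') s i = bw (Y₃.Lt.N s i.1)
          (K.slo s (tg s i.1) + (D.G C).a s) (K.shi s (tg s i.1) - (D.G C).a s)
          ((Y₃.F i.1).e s') := rfl
        have h4 := Y₃.pst_pos s i.1
        rw [h3, Y₃.pst_eq s false i.1]
        linarith)
      (by norm_num) le_rfl (fun β => (Y₄.slope hrq s' β).2) hA (fun q x hx => by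
        rw [_root_.P073.H919.HkG.hookIn_C]
        exact hAd _ x hx) hx h β
    have h5x : Y₄.h5.toFun x ∈ PK (D.G C) s := (hkGO_PK Y₄.hko (hA hx) s).2 hPK
    have h2 := nhdsWithin_le_nhds (s := A) (Y₄.lip5 s' x (hA hx) h5x)
    filter_upwards [h1, h2, self_mem_nhdsWithin] with y h3 h4 hy
    rw [Y₄.map5 y (hA hy), Y₄.map5 x (hA hx)]
    have h7 := mul_le_mul_of_nonneg_left h4 (Y₄.ς0 β s').le
    have h8 := mul_le_mul_of_nonneg_right (Y₄.ςK β s') (norm_nonneg (y - x))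
    have h9 : Y₄.ς β s' * (Y₄.K₂ s' * ‖y - x‖) = Y₄.ς β s' * Y₄.K₂ s' * ‖y - x‖ := by ring
    have h10 := mul_le_mul_of_nonneg_right (he s' ⟨_, ⟨x, hx, rfl⟩, hPK⟩) (norm_nonneg (y - x))
    linarith
  · -- win
    set s' : (D.dat C).S₀ := ⟨s, hs⟩ with hs'
    have hbw := fun β => bw_pos' Y₃.pst' β s'
    have h1 := hkGO_rel_w Y₄.hko Y₄.sg (r' := Y₄.q s' * Y₄.r s') (s := s') (Y₄.p0 s')
      (by have := Y₄.q1 s'; have := Y₄.r0 s'; nlinarith) (Y₄.r1 s')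
      (fun β => (Y₃.e0 β s').le) hbw (fun β => sfam_e Y₃.pst' Y₄.p0 Y₄.p1 β s')
      (A := pst Y₃.Lt s false) (Lc := 3) (m := 3) (q := qs s) (Y₃.pst_pos s false).le
      (fun β => by rw [Y₃.pst_eq s false β]; exact (Y₄.slope hrq s' β).1)
      (fun i => by
        have h2 := Y₃.bw_ge s' i.1
        have h3 : pwid Y₃.Lt (fun β => (Y₃.F β).e s') s i = bw (Y₃.Lt.N s i.1)
          (K.slo s (tg s i.1) + (D.G C).a s) (K.shi s (tg s i.1) - (D.G C).a s)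
          ((Y₃.F i.1).e s') := rfl
        have h4 := Y₃.pst_pos s i.1
        rw [h3, Y₃.pst_eq s false i.1]
        linarith)
      (by norm_num) (by norm_num) (by norm_num) (hq0 s) (fun β => (Y₄.slope hrq s' β).2)
      (hq s') hA (fun q x hx => by
        rw [_root_.P073.H919.HkG.hookIn_C]
        exact hAd _ x hx) hx h β
    have h5x : Y₄.h5.toFun x ∈ PK (D.G C) s := (hkGO_PK Y₄.hko (hA hx) s).2 h
    have h2 := nhdsWithin_le_nhds (s := A) (Y₄.lip5 s' x (hA hx) h5x)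
    filter_upwards [h1, h2, self_mem_nhdsWithin] with y h3 h4 hy
    rw [Y₄.map5 y (hA hy), Y₄.map5 x (hA hx)]
    have h7 := mul_le_mul_of_nonneg_left h4 (Y₄.ς0 β s').le
    have h8 := mul_le_mul_of_nonneg_right (Y₄.ςK β s') (norm_nonneg (y - x))
    have h9 : Y₄.ς β s' * (Y₄.K₂ s' * ‖y - x‖) = Y₄.ς β s' * Y₄.K₂ s' * ‖y - x‖ := by ring
    have h10 := mul_le_mul_of_nonneg_right (he s' ⟨_, ⟨x, hx, rfl⟩, h⟩) (norm_nonneg (y - x))
    linarith
  · -- far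
    set s' : (D.dat C).S₀ := ⟨s, hs⟩ with hs'
    have h1 := hkGO_rel_far Y₄.hko Y₄.sg (s := s') (m := 3) (q := qs s) (by norm_num) (hq0 s)
      (fun β => (Y₄.slope hrq s' β).2) (hq s') hA hx h fun hB => h' (HB_int (D.G C) s hB)
    filter_upwards [h1, self_mem_nhdsWithin] with y h2 hy l
    rw [Y₄.map5 y (hA hy), Y₄.map5 x (hA hx)]
    exact h2 l
  · -- mv
    have h1 := hmv x hx
    rwa [Y₄.h5_eq (hA hx) (s := ⟨s, hs⟩) h fun hB => h' (HB_int (D.G C) s hB)] at h1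
  · have h1 := hkGO_rel_off Y₄.hko Y₄.sg hA hx fun s => h s.1 s.2
    filter_upwards [h1, self_mem_nhdsWithin] with y h2 hy
    rw [Y₄.map5 y (hA hy), h2]

/-! ### larger numbers, the edges -/

section mono

variable {Λ' : Set V} {v' : V} {K' : BoxCx Λ' v'} {S' : Rad K'} {W' : Wid K' S'} {B' : Boxes W'}

/-- larger numbers -/
theorem PO.mono {G : Geo B'} {S₀ : Set K'.S} {Xw : K'.S → Bool → Set (ℝ × ℝ)}
    {dσ ησ dσ' ησ' : K'.S → ℝ} {f5 h4 : V → V} {A : Set V} {Lc m e₁ Lc' m' e₁' : ℝ}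
    {q₁ q₁' : K'.S → ℝ} (H : PO G S₀ Xw dσ ησ f5 h4 A Lc m q₁ e₁) (hd : ∀ s, dσ s ≤ dσ' s)
    (hη : ∀ s, ησ s ≤ ησ' s) (hL : Lc ≤ Lc') (hm : m ≤ m') (hq : ∀ s ∈ S₀, q₁ s ≤ q₁' s)
    (he : e₁ ≤ e₁') : PO G S₀ Xw dσ' ησ' f5 h4 A Lc' m' q₁' e₁' := by
  have hS : ∀ (s : K'.S) (x y : V),
      0 ≤ ∑ β', |wP G s β' (h4 y (tg s β')) - wP G s β' (h4 x (tg s β'))| := fun s x y =>
    Finset.sum_nonneg fun _ _ => abs_nonneg _
  refine ⟨H.pk, H.low, fun x hx s hs h β => ?_, fun x hx s hs h β => ?_,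
    fun x hx s hs h h' => ?_, fun x hx s hs h h' => (H.mv x hx s hs h h').mono hd hη, H.off⟩
  · filter_upwards [H.win_in x hx s hs h β] with y h1
    have h2 := mul_le_mul_of_nonneg_right hL (hS s x y)
    have h3 := mul_le_mul_of_nonneg_right he (norm_nonneg (y - x))
    linarith
  · filter_upwards [H.win x hx s hs h β] with y h1
    have h2 := mul_le_mul_of_nonneg_right hL (hS s x y)
    have h3 := mul_le_mul_of_nonneg_right he (norm_nonneg (y - x))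
    have h4' := mul_le_mul_of_nonneg_right (hq s hs) (norm_nonneg (h4 y - h4 x))
    linarith
  · filter_upwards [H.far x hx s hs h h'] with y h1 l
    have h2 := mul_le_mul_of_nonneg_right hm (abs_nonneg (h4 y l - h4 x l))
    have h4' := mul_le_mul_of_nonneg_right (hq s hs) (norm_nonneg (h4 y - h4 x))
    have h5 := h1 l
    linarith

end mono

/-- the points of an edge are off the open cells -/
theorem seg_off (M : Mesh Ω) (e : (edges M).ε) : ∀ i, ∀ x ∈ (edges M).seg e,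
    x ∉ interior (M.Q i) := by
  obtain ⟨k, hk⟩ := (edges M).own e
  exact fun i x hx => _root_.P073.H919.not_interior_of_face M i (hk hx)

/-- **[P1]: `PO` for the stage `S4`, on an edge** -/
theorem S4.po_seg (Y₄ : S4 Y₃) (hrq : ∀ s : (D.dat C).S₀, 1 / 2 ≤ Y₄.q s * Y₄.r s)
    (hμ : ∀ s : K.S, 2 * Y₂.muP s ≤ (D.B C).τ s) {Xw : K.S → Bool → Set (ℝ × ℝ)}
    {e : (edges M).ε} {e₁ : ℝ}
    (he : ∀ s : (D.dat C).S₀,
      (Y₃.h4.toFun '' (edges M).seg e ∩ PK (D.G C) s.1).Nonempty → Y₄.ε s ≤ e₁) :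
    PO (D.G C) (D.dat C).S₀ Xw (fun s => Y₂.muP s) (fun s => Y₂.muP s) Y₄.f5.toFun
      Y₃.h4.toFun ((edges M).seg e) 3 3 (fun s => 10 * Y₂.muP s / (D.B C).τ s) e₁ := by
  have hμ0 : ∀ s, 0 ≤ Y₂.muP s := fun s => (Y₂.mu_pos s).le
  have hτ : ∀ s, 0 < (D.B C).τ s := fun s => (D.B C).τ_pos s
  have H := Y₄.po hrq (qs := fun s => 2 * Y₂.muP s / (D.B C).τ s)
    (fun s => by have := hμ0 s; have := hτ s; positivity) (fun s β => Y₄.fade_le β s)
    (Xw := Xw) (ησ := fun s => Y₂.muP s / 2) (fun s => by have := hμ0 s; positivity)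
    (fun β s => Y₄.e_le_muP β s) (A := (edges M).seg e) ((edges M).seg_sub_Ω e) (seg_off M e) he
  exact PO.mono H (fun s => by linarith) (fun s => by linarith) le_rfl le_rfl
    (fun s _ => S4.fade_num (m := 3) (by norm_num) (hμ s)) le_rfl

/-- **[P1] for the auxiliary map** -/
theorem S3.po_refl (Y₃ : S3 Y₂ Ys sc) {Xw : K.S → Bool → Set (ℝ × ℝ)} {A : Set V} {e₁ : ℝ}
    (he : 0 ≤ e₁) :
    PO (D.G C) (D.dat C).S₀ Xw (fun s => Y₂.muP s) (fun s => Y₂.muP s) Y₃.h4.toFun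
      Y₃.h4.toFun A 3 3 (fun s => 10 * Y₂.muP s / (D.B C).τ s) e₁ :=
  _root_.P073.H228.EP.po_refl _ _ (by norm_num) (by norm_num)
    (fun s => by have := (Y₂.mu_pos s).le; have := (D.B C).τ_pos s; positivity) he

/-- **slot (6)**: the tolerance of the second staircases for given numbers of the edges -/
theorem exists_t4E (Y₃ : S3 Y₂ Ys sc) {g : (edges M).ε → ℝ} (hg : ∀ e, 0 < g e) :
    ∃ m : (D.dat C).S₀ → ℝ, (∀ s, 0 < m s) ∧ ∀ (s : (D.dat C).S₀) e,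
      (Y₃.h4.toFun '' (edges M).seg e ∩ PK (D.G C) s.1).Nonempty → m s ≤ g e :=
  _root_.Vale.Agent.P073.H236.Slot.exists_min_over Y₃.h4 (fun e => (edges M).seg_sub_Ω e)
    (edges M).fin (N := fun s : (D.dat C).S₀ => PK (D.G C) s.1)
    (fun s => _root_.P073.H919.isCompact_PK (D.G C) s.1)
    (fun s => _root_.P073.H196.PK_sub_Λ (D.G C) s.1) hg

end Vale.Agent.P073.H267.K3
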