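import Vale.Agent.P073.H228.EdgeP5A

/-!
# P073, H212, [EDGE-P], (P1): the map before the tubes relative to `h4`, on an edge

`PO`: text of H228, with the number `q₁` for each plate and the clause `win_in` of H190.
-/

open Set Metric Topology Filter
open scoped ENNReal

namespace P073.H228.EP

open P073 P073.Net P073.PA691 P073.H142 P073.H345 P073.H236 P073.H579
open Vale.Agent.P073.St (V)
open Vale.Agent.P073.H471 Vale.Agent.P073.H267 Vale.Agent.P073.H267.Geo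
open Vale.Agent.P073.H190.Tvp (wP)

variable {Λ : Set V} {v : V} {K : BoxCx Λ v} {S : Rad K} {W : Wid K S} {B : Boxes W}

/-- **`f5` relative to `h4`** on the set `A`: in the plates of `S₀` through the windows, far from
the flats in all coordinates, off the plates equal -/
structure PO (G : Geo B) (S₀ : Set K.S) (Xw : K.S → Bool → Set (ℝ × ℝ)) (dσ ησ : K.S → ℝ)
    (f5 h4 : V → V) (A : Set V) (Lc m : ℝ) (q₁ : K.S → ℝ) (e₁ : ℝ) : Prop where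
  pk : ∀ x ∈ A, ∀ s ∈ S₀, h4 x ∈ PK G s → f5 x ∈ PK G s
  low : ∀ x ∈ A, ∀ s ∈ S₀, h4 x ∈ PK G s → |h4 x (K.nrm s) - K.slo s (K.nrm s)| < B.τ s →
    |f5 x (K.nrm s) - K.slo s (K.nrm s)| < B.τ s
  win_in : ∀ x ∈ A, ∀ s ∈ S₀, h4 x ∈ interior (G.PB (7 / 8) s) → ∀ β, ∀ᶠ y in 𝓝[A] x,
    |wP G s β (f5 y (tg s β)) - wP G s β (f5 x (tg s β))| ≤
      Lc * ∑ β', |wP G s β' (h4 y (tg s β')) - wP G s β' (h4 x (tg s β'))| + e₁ * ‖y - x‖
  win : ∀ x ∈ A, ∀ s ∈ S₀, h4 x ∈ PK G s → ∀ β, ∀ᶠ y in 𝓝[A] x,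
    |wP G s β (f5 y (tg s β)) - wP G s β (f5 x (tg s β))| ≤
      Lc * ∑ β', |wP G s β' (h4 y (tg s β')) - wP G s β' (h4 x (tg s β'))| +
        q₁ s * ‖h4 y - h4 x‖ + e₁ * ‖y - x‖
  far : ∀ x ∈ A, ∀ s ∈ S₀, h4 x ∈ PK G s → h4 x ∉ interior (G.PB (7 / 8) s) →
    ∀ᶠ y in 𝓝[A] x, ∀ l, |f5 y l - f5 x l| ≤ m * |h4 y l - h4 x l| + q₁ s * ‖h4 y - h4 x‖
  mv : ∀ x ∈ A, ∀ s ∈ S₀, h4 x ∈ PK G s → h4 x ∉ interior (G.PB (7 / 8) s) →
    MvB G S₀ Xw dσ ησ (h4 x) (f5 x)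
  off : ∀ x ∈ A, (∀ s ∈ S₀, h4 x ∉ PK G s) → ∀ᶠ y in 𝓝[A] x, f5 y = h4 y

/-- the trivial instance -/
theorem po_refl {G : Geo B} {S₀ : Set K.S} {Xw : K.S → Bool → Set (ℝ × ℝ)} {dσ ησ : K.S → ℝ}
    (h4 : V → V) (A : Set V) {Lc m e₁ : ℝ} {q₁ : K.S → ℝ} (hL : 1 ≤ Lc) (hm : 1 ≤ m)
    (hq : ∀ s, 0 ≤ q₁ s) (he : 0 ≤ e₁) : PO G S₀ Xw dσ ησ h4 h4 A Lc m q₁ e₁ := by
  have key : ∀ (s : K.S) (β : Bool) (x y : V),
      |wP G s β (h4 y (tg s β)) - wP G s β (h4 x (tg s β))| ≤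
        Lc * ∑ β', |wP G s β' (h4 y (tg s β')) - wP G s β' (h4 x (tg s β'))| := by
    intro s β x y
    have h2 : |wP G s β (h4 y (tg s β)) - wP G s β (h4 x (tg s β))| ≤
        ∑ β', |wP G s β' (h4 y (tg s β')) - wP G s β' (h4 x (tg s β'))| :=
      Finset.single_le_sum (f := fun β' : Bool => |wP G s β' (h4 y (tg s β')) -
        wP G s β' (h4 x (tg s β'))|) (fun _ _ => abs_nonneg _) (Finset.mem_univ β)
    have h3 : 0 ≤ ∑ β', |wP G s β' (h4 y (tg s β')) - wP G s β' (h4 x (tg s β'))| :=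
      (abs_nonneg _).trans h2
    nlinarith
  refine ⟨fun _ _ _ _ h => h, fun _ _ _ _ _ h => h, fun x _ s _ _ β => ?_,
    fun x _ s _ _ β => ?_, fun x _ s _ _ _ => ?_, fun x _ _ _ _ _ => MvB.refl _,
    fun _ _ _ => Eventually.of_forall fun _ => rfl⟩
  · refine Eventually.of_forall fun y => ?_
    have h1 := key s β x y
    have h2 : 0 ≤ e₁ * ‖y - x‖ := mul_nonneg he (norm_nonneg _)
    linarith
  · refine Eventually.of_forall fun y => ?_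
    have h1 := key s β x y
    have h2 : 0 ≤ e₁ * ‖y - x‖ := mul_nonneg he (norm_nonneg _)
    have h3 : 0 ≤ q₁ s * ‖h4 y - h4 x‖ := mul_nonneg (hq s) (norm_nonneg _)
    linarith
  · refine Eventually.of_forall fun y l => ?_
    have h3 : 0 ≤ q₁ s * ‖h4 y - h4 x‖ := mul_nonneg (hq s) (norm_nonneg _)
    have h4' := abs_nonneg (h4 y l - h4 x l)
    nlinarith

end P073.H228.EP
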