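import Vale.Agent.P073.H267.Geo1
import Vale.Agent.P073.H193.EdgCx
import Vale.Agent.P073.H579.Rel

/-!
# P073, H212: the interface between the rounds (block A14)

`h` is the given homeomorphism, `h₁` the output of round T (tubes), `g₁` the output of round P
(plates), before the collapse of a neighbourhood of the two-skeleton.

* `FIn`: position of the images of the faces (shell, small oscillation);
* `Shp`: centres and radii of the faces; `tri`: cone over a set;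
* `TOut`: output of round T = input of round P;
* `POut`: output of round P.
-/

open Set Metric Topology Filter

namespace Vale.Agent.P073.H212

open _root_.P073 _root_.P073.Net _root_.P073.PA691
open _root_.P073.PR720 (LF)
open Vale.Agent.P073.St (V)
open Vale.Agent.P073.H471 Vale.Agent.P073.H267 Vale.Agent.P073.H193
open Vale.Agent.P073.H73 (Mesh onSeg sqr)

variable {Ω Λ : Set V} {w : V} {K : BoxCx Λ w} {S : Rad K} {W : Wid K S} {B : Boxes W}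

/-- the faces, the edges, the vertices and the cells of a mesh -/
abbrev MIx {M : Mesh Ω} (E : Edges M) : Type := M.κ ⊕ E.ε ⊕ {x : V // x ∈ E.verts} ⊕ M.ι

/-- the family of all these sets -/
def mfam {M : Mesh Ω} (E : Edges M) : MIx E → Set V
  | .inl k => M.F k
  | .inr (.inl e) => E.seg e
  | .inr (.inr (.inl x)) => {x.1}
  | .inr (.inr (.inr i)) => M.Q i

/-- the images of the faces are near the boundaries of the tiles, and small -/
structure FIn (G : Geo B) (M : Mesh Ω) (h : V → V) : Prop where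
  shell : ∀ k, ∀ x ∈ M.F k, ∀ q, h x ∈ K.cube q →
    ∃ j, h x j ≤ K.lo q j + G.κ q ∨ K.hi q j - G.κ q ≤ h x j
  osc : ∀ k, ∀ x ∈ M.F k, ∀ y ∈ M.F k, ∀ q, h x ∈ K.cube q → ‖h x - h y‖ ≤ G.om q

/-- the protected cells: their images are boxes, unions of tiles -/
structure Prot (K : BoxCx Λ w) (M : Mesh Ω) (h : V → V) (P : Set M.ι) : Prop where
  box : ∀ i ∈ P, ∃ lo hi : V, (∀ k, lo k < hi k) ∧ h '' M.Q i = Icc lo hi
  tile : ∀ i ∈ P, ∀ q, K.cube q ⊆ h '' M.Q i ∨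
    Disjoint {y | ∀ k, K.lo q k < y k ∧ y k < K.hi q k} (h '' M.Q i)
  aff : ∀ i ∈ P, ∃ A : V →ᴬ[ℝ] V, EqOn h A (frontier (M.Q i))

/-- centres and radii of the faces -/
structure Shp (M : Mesh Ω) where
  O : M.κ → V
  ρ : M.κ → ℝ
  R : M.κ → ℝ
  mem : ∀ k, O k ∈ M.F k
  ρ_pos : ∀ k, 0 < ρ k
  ρ_R : ∀ k, ρ k ≤ R k
  inner : ∀ k, closedBall (O k) (ρ k) ∩ (affineSpan ℝ (M.F k) : Set V) ⊆ M.F k
  outer : ∀ k, M.F k ⊆ closedBall (O k) (R k)

/-- the cone over `s` with vertex `O` -/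
def tri (O : V) (s : Set V) : Set V := {x | ∃ t ∈ Icc (0:ℝ) 1, ∃ y ∈ s, x = O + t • (y - O)}

section

variable {M : Mesh Ω} (E : Edges M) (sh : Shp M) (ℓ : E.ε → ℝ)

/-- the edges of a face -/
noncomputable def edgesOf (k : M.κ) : Finset E.ε := (E.fin_face k).toFinset

/-- length of an edge in the domain -/
noncomputable def elen (e : E.ε) : ℝ := ‖E.b e - E.a e‖

/-- the slope in the sector of the face `k` over the edge `e`; `ℓ` = length of `h` on the edges -/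
noncomputable def slp (k : M.κ) (e : E.ε) : ℝ :=
  (1 + sh.R k / sh.ρ k) * (ℓ e / elen E e + (∑ e' ∈ edgesOf E k, ℓ e') / sh.ρ k)

end

/-- lateral position in the full zone of a box of round T, with margin `m` -/
def LatZ (G : Geo B) (m : ℝ) (b : TBx K) (y : V) : Prop :=
  ∀ k, k ≠ b.ax → G.tlo true b k + m ≤ y k ∧ y k ≤ G.thi true b k - m

/-- no sliver of `T` between `t` and `t'` -/
def NoSl (T : Finset (ℝ × ℝ)) (t t' : ℝ) : Prop :=
  ∀ q ∈ T, (t ≤ q.1 ∧ t' ≤ q.1) ∨ (q.2 ≤ t ∧ q.2 ≤ t')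

/-- the face `k` is in the full zone of the box `b` of round T, with margin -/
def Deep (G : Geo B) (M : Mesh Ω) (h : V → V) (b : TBx K) (k : M.κ) : Prop :=
  ∀ x ∈ M.F k, ∀ q, h x ∈ K.cube q → closedBall (h x) (8 * G.om q) ⊆ G.TB true b

/-- variation of one coordinate of `f` on the edge `e` -/
noncomputable def tvE {M : Mesh Ω} (E : Edges M) (f : V → V) (j : Fin 3) (e : E.ε) : ENNReal :=
  eVariationOn (fun t => onSeg f (E.a e, E.b e) t j) (Icc 0 1)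

/-- **output of round T.** `D` is a universal constant, `μ` is the relative error in the sharp
clause, `ℓ e` bounds the length of `h` on `e`, `εe` is small. `Λ₁` does not depend on `σ`. -/
structure TOut (G : Geo B) {M : Mesh Ω} (E : Edges M) (h : V → V) (P : Set M.ι) (sh : Shp M)
    (D μ : ℝ) (ℓ εe : E.ε → ℝ) (Λ₁ : M.κ → ℝ) (σ : TBx K → ℝ) (sl : TBx K → Finset (ℝ × ℝ))
    (h₁ : ConHomeo Ω Λ) : Prop where
  image : ∀ i ∈ P, h₁.toFun '' M.Q i = h '' M.Q i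
  tile : ∀ i ∈ P, ∀ x ∈ frontier (M.Q i), ∀ q, h x ∈ K.cube q → h₁.toFun x ∈ K.cube q
  close : ∀ k, ∀ x ∈ M.F k, ∀ q, h x ∈ K.cube q → ‖h₁.toFun x - h x‖ ≤ G.om q
  off : ∀ k, ∀ x ∈ M.F k, ∀ q, h x ∈ K.cube q →
    (∀ b, Disjoint (closedBall (h x) (4 * G.om q)) (G.TB false b)) → h₁.toFun x = h x
  /-- vertical strips -/
  vi : ∀ (g : MIx E) (b : TBx K), ∀ y ∈ G.TB true b, ∀ y' ∈ G.TB true b,
    (∀ k, k ≠ b.ax → y k = y' k) → NoSl (sl b) (y b.ax) (y' b.ax) →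
    (y ∈ h₁.toFun '' mfam E g ↔ y' ∈ h₁.toFun '' mfam E g)
  sl_le : ∀ b, ∀ q ∈ sl b, q.1 ≤ q.2
  sl_sum : ∀ b, ∑ q ∈ sl b, (q.2 - q.1) ≤ σ b
  /-- variation on the edges -/
  tv : ∀ e j, tvE E h₁.toFun j e ≤ ENNReal.ofReal (D * ℓ e)
  /-- sharp form for edges in the tubes -/
  tvs : ∀ e (e₀ : K.G), (∀ x ∈ E.seg e, ∀ q, h x ∈ K.cube q →
    closedBall (h x) (8 * G.om q) ⊆ G.TB true (.inl e₀)) →
    tvE E h₁.toFun (K.dir e₀) e ≤
      ENNReal.ofReal (1 + μ) * tvE E h (K.dir e₀) e + ENNReal.ofReal (εe e)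
  /-- metric estimate in the direction of the tube -/
  met : ∀ k e₀, Deep G M h (.inl e₀) k → ∀ e, E.seg e ⊆ M.F k →
    ∀ x ∈ tri (sh.O k) (E.seg e), ∀ x' ∈ tri (sh.O k) (E.seg e),
      |h₁.toFun x (K.dir e₀) - h₁.toFun x' (K.dir e₀)| ≤ D * slp E sh ℓ k e * ‖x - x'‖
  /-- the other coordinates are Lipschitz, with a constant which does not depend on `σ` -/
  oth : ∀ k e₀, Deep G M h (.inl e₀) k → ∀ j, j ≠ K.dir e₀ → ∀ x ∈ M.F k, ∀ x' ∈ M.F k,
    |h₁.toFun x j - h₁.toFun x' j| ≤ Λ₁ k * ‖x - x'‖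
  /-- no circles on the faces near the side walls -/
  circ : ∀ k (b : TBx K), (∀ x ∈ M.F k, ∀ q, h x ∈ K.cube q → LatZ G (4 * G.om q) b (h x)) →
    ∀ t, G.tlo true b b.ax < t → t < G.thi true b b.ax → (∀ q ∈ sl b, t < q.1 ∨ q.2 < t) →
      ∀ c : Set V, IsCircle c → c ⊆ M.F k → ¬ ∀ x ∈ c, h₁.toFun x b.ax = t
  /-- on the edges `h₁` is vertical and affine over the bands -/
  lin : ∀ k e₀, Deep G M h (.inl e₀) k → ∀ e, E.seg e ⊆ M.F k → ∀ x ∈ E.seg e, ∀ t t' : ℝ,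
    t < h₁.toFun x (K.dir e₀) → h₁.toFun x (K.dir e₀) < t' →
    G.tlo true (.inl e₀) (K.dir e₀) ≤ t → t' ≤ G.thi true (.inl e₀) (K.dir e₀) →
    NoSl (sl (.inl e₀)) t t' →
    ∃ x₁ ∈ E.seg e, ∃ x₂ ∈ E.seg e, x ∈ segment ℝ x₁ x₂ ∧
      (t' - t ≤ D * (ℓ e / elen E e) * ‖x₂ - x₁‖) ∧
      ∀ s ∈ Icc (0:ℝ) 1, h₁.toFun (x₁ + s • (x₂ - x₁)) =
        Function.update (h₁.toFun x) (K.dir e₀) (t + s * (t' - t))

/-- `y` is in the interior of a zone of the collapse; `J` are the coordinates which are not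
collapsed -/
def Zone (W : Wid K S) (J : Finset (Fin 3)) (y : V) : Prop :=
  (∃ s, y ∈ interior (Zs W s) ∧ J = Finset.univ.erase (K.nrm s)) ∨
    (∃ e, y ∈ interior (Ze W e) ∧ J = {K.dir e}) ∨ ∃ i, y ∈ interior (Zv W i) ∧ J = ∅

/-- **output of round P** -/
structure POut (G : Geo B) {M : Mesh Ω} (E : Edges M) (h : V → V) (P : Set M.ι) (sh : Shp M)
    (D μ : ℝ) (ℓ εe : E.ε → ℝ) (g₁ : ConHomeo Ω Λ) : Prop where
  image : ∀ i ∈ P, g₁.toFun '' M.Q i = h '' M.Q i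
  tile : ∀ i ∈ P, ∀ x ∈ frontier (M.Q i), ∀ q, h x ∈ K.cube q → g₁.toFun x ∈ K.cube q
  /-- the distance is at most `8` sides -/
  close : ∀ k, ∀ x ∈ M.F k, ∀ q, h x ∈ K.cube q →
    ‖g₁.toFun x - h x‖ ≤ 8 * (K.hi q 0 - K.lo q 0)
  /-- the coordinates which are not collapsed satisfy the metric estimate -/
  met : ∀ k e, E.seg e ⊆ M.F k → ∀ x ∈ tri (sh.O k) (E.seg e), ∃ J, Zone W J (g₁.toFun x) ∧
    ∀ j ∈ J, ∀ᶠ x' in 𝓝[tri (sh.O k) (E.seg e)] x,
      |g₁.toFun x' j - g₁.toFun x j| ≤ D * slp E sh ℓ k e * ‖x' - x‖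
  /-- sharp variation on the edges in the tubes -/
  tvt : ∀ e (e₀ : K.G), (∀ x ∈ E.seg e, ∀ q, h x ∈ K.cube q →
    closedBall (h x) (8 * G.om q) ⊆ G.TB true (.inl e₀) ∧
      ∀ k, k ≠ K.dir e₀ → |h x k - K.w (K.a e₀) k| ≤ G.κ q) →
    tvE E g₁.toFun (K.dir e₀) e ≤
      ENNReal.ofReal (1 + μ) * tvE E h (K.dir e₀) e + ENNReal.ofReal (εe e)
  /-- sharp variation on the edges in the plates -/
  tvp : ∀ e (s : K.S), (∀ x ∈ E.seg e, ∀ q, h x ∈ K.cube q →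
    closedBall (h x) (8 * G.om q) ⊆ G.PB 1 s ∧ (∀ b, Disjoint (closedBall (h x) (8 * G.om q))
      (G.TB false b)) ∧ ∀ k, k ≠ K.nrm s → K.slo s k + 2 * B.u s ≤ h x k ∧
        h x k ≤ K.shi s k - 2 * B.u s) →
    ∑ j ∈ Finset.univ.erase (K.nrm s), tvE E g₁.toFun j e ≤
      ENNReal.ofReal (1 + μ) * ∑ j ∈ Finset.univ.erase (K.nrm s), tvE E h j e +
        ENNReal.ofReal (εe e)

end Vale.Agent.P073.H212
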