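import Vale.Agent.P073.H212.SharpTV
import Vale.Agent.P073.H581.PTv4

/-!
# P073, H212: **[SHARP-TV]**, the plate case

`tv_softPW`: the variation after the soft collapse, in terms of the coordinates clamped to the
window of the levels.  `plateTV`: the plate case for the last map.  `tv_of`: the field `tv` of
`SharpOut` for `g = Φ ∘ f`.
-/

open Set Metric Topology Filter
open scoped ENNReal

namespace Vale.Agent.P073.H212

open _root_.P073 _root_.P073.Net _root_.P073.PA691 _root_.P073.H236 _root_.P073.H345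
open _root_.P073.H579 (AkP EAct GEP)
open _root_.P073.H142 (FStar lastMap lastMap_apply PS)
open Vale.Agent.P073.St (V)
open Vale.Agent.P073.H471 Vale.Agent.P073.H267
open Vale.Agent.P073.H73 (Mesh onSeg)
open Vale.Agent.P073.H193 (Edges edges)
open Vale.Agent.P073.H805 (ROut RIn)
open _root_.P073.H267 (TOut tvE)
open Vale.Agent.P073.H669 (PLv wl)
open Vale.Agent.P073.H581 (clV)
open _root_.P073.H761.SE (wlo whi)

section

variable {Λ : Set V} {v : V} {K : BoxCx Λ v} {S : Rad K} {W : Wid K S} {B : Boxes W} {μ : ℝ}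
  {R : Fac K} {Φ : ConHomeo Λ Λ} {α : Type*} {f : V → V} {F : α → Set V} {M ε : α → ℝ} {k : α}

theorem clV_self (G : Geo B) {s : K.S} {y : V} {j : Fin 3}
    (h : K.slo s j + G.a s ≤ y j ∧ y j ≤ K.shi s j - G.a s) : clV G s y j = y j :=
  _root_.P073.H761.SE.cl_of_mem h

/-- **sharp edges in the plates, soft collapse**, with the clamped coordinates -/
theorem tv_softPW (G : Geo B) (H : Small W R f F M ε) (HΦ : IsSoft B μ R Φ) (hμ : 0 ≤ μ) {s : K.S}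
    {c : ℝ} (hc : 0 ≤ c) {e : V × V} (he : segment ℝ e.1 e.2 ⊆ F k)
    (hf : ContinuousOn f (segment ℝ e.1 e.2))
    (hz : ∀ x ∈ segment ℝ e.1 e.2, f x ∈ G.PB c s)
    (hn : ∀ x ∈ segment ℝ e.1 e.2, |f x (K.nrm s) - K.slo s (K.nrm s)| < B.τ s) :
    H239.tv (fun x => Φ.toFun (f x)) e Finset.univ ≤
      ENNReal.ofReal (1 + 3 * μ) * H239.tv (fun x => clV G s (f x)) e
        (Finset.univ.erase (K.nrm s)) + ENNReal.ofReal (3 * ε k) := by
  have hM := H.pos k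
  have hdir : ∀ i, K.edge i ⊆ K.sq s → K.dir i ∈ Finset.univ.erase (K.nrm s) := fun i hi =>
    Finset.mem_erase.2 ⟨(nrm_ne_dir hi).symm, Finset.mem_univ _⟩
  have hd0 : 0 ≤ M k * (1 + diam (F k)) := by
    have : 0 ≤ diam (F k) := diam_nonneg
    positivity
  have h0 : 0 ≤ ε k / 7 := by
    have m1 := left_mem_segment ℝ e.1 e.2
    rcases G.cover_pt hc (hz _ m1) (hn _ m1) with ⟨h1, -⟩ | ⟨i, -, h1, -⟩ | ⟨i, -, ⟨h1, -⟩ | ⟨h1, -⟩⟩
    · exact le_trans (mul_nonneg (R.s_pos s).le hd0)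
        (H.s k s ⟨_, ⟨_, he m1, rfl⟩, interior_subset h1⟩)
    · exact le_trans (mul_nonneg (R.e_pos i).le hd0)
        (H.e k i ⟨_, ⟨_, he m1, rfl⟩, interior_subset h1⟩)
    · exact le_trans (mul_nonneg (R.v_pos _).le hd0)
        (H.v k _ ⟨_, ⟨_, he m1, rfl⟩, interior_subset h1⟩)
    · exact le_trans (mul_nonneg (R.v_pos _).le hd0)
        (H.v k _ ⟨_, ⟨_, he m1, rfl⟩, interior_subset h1⟩)
  refine tv_of_local (Finset.univ.erase (K.nrm s)) (by positivity) (by linarith) fun t₀ ht₀ => ?_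
  have m1 := Small.onSeg_mem (e := e) ht₀
  -- the reduction factor of the zone
  have key : ∀ (ρ cc : ℝ) (t : ℝ), 0 < ρ → 0 ≤ cc → cc ≤ 21 →
      ρ * (M k * (1 + diam (F k))) ≤ ε k / 7 → t ∈ Icc (0:ℝ) 1 →
      cc * (ρ * ‖f (e.1 + t • (e.2 - e.1)) - f (e.1 + t₀ • (e.2 - e.1))‖) ≤
        3 * ε k * |t - t₀| := by
    intro ρ cc t hρ hcc hcc' hne ht
    have h2 := H.le2 hρ (he (right_mem_segment ℝ _ _)) (he (left_mem_segment ℝ _ _)) hne
    have h4 := H.lip k _ (he (Small.onSeg_mem (e := e) ht)) _ (he m1)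
    rw [seg_sub] at h4
    calc cc * (ρ * ‖f (e.1 + t • (e.2 - e.1)) - f (e.1 + t₀ • (e.2 - e.1))‖)
        ≤ 21 * (ρ * (M k * (|t - t₀| * ‖e.2 - e.1‖))) := by gcongr
      _ = 21 * |t - t₀| * (ρ * (M k * ‖e.2 - e.1‖)) := by ring
      _ ≤ 21 * |t - t₀| * (ε k / 7) := by gcongr
      _ = 3 * ε k * |t - t₀| := by ring
  have hnh : ∀ Z : Set V, f (e.1 + t₀ • (e.2 - e.1)) ∈ interior Z →
      ∀ᶠ t in 𝓝[Icc 0 1] t₀, f (e.1 + t • (e.2 - e.1)) ∈ Z := fun Z hZ =>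
    (tendsto_seg e).eventually (Small.ev_mem hf m1 hZ)
  -- inside the window nothing is clamped
  have hcl : ∀ j, K.slo s j + G.a s < f (e.1 + t₀ • (e.2 - e.1)) j →
      f (e.1 + t₀ • (e.2 - e.1)) j < K.shi s j - G.a s →
      ∀ᶠ t in 𝓝[Icc 0 1] t₀,
        |onSeg f e t j - onSeg f e t₀ j| =
          |onSeg (fun x => clV G s (f x)) e t j - onSeg (fun x => clV G s (f x)) e t₀ j| := by
    intro j h1 h2
    have ho : IsOpen {y : V | K.slo s j + G.a s < y j ∧ y j < K.shi s j - G.a s} :=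
      (isOpen_lt continuous_const (continuous_apply j)).inter
        (isOpen_lt (continuous_apply j) continuous_const)
    have hmem : f (e.1 + t₀ • (e.2 - e.1)) ∈
        interior {y : V | K.slo s j + G.a s < y j ∧ y j < K.shi s j - G.a s} := by
      rw [ho.interior_eq]; exact ⟨h1, h2⟩
    filter_upwards [hnh _ hmem] with t ht
    show |f (e.1 + t • (e.2 - e.1)) j - f (e.1 + t₀ • (e.2 - e.1)) j| =
      |clV G s (f (e.1 + t • (e.2 - e.1))) j - clV G s (f (e.1 + t₀ • (e.2 - e.1))) j|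
    rw [clV_self G ⟨ht.1.le, ht.2.le⟩, clV_self G ⟨h1.le, h2.le⟩]
  have hu := B.u_pos s
  have hau := G.a_u s
  have ha := G.a_pos s
  rcases G.cover_pt hc (hz _ m1) (hn _ m1) with ⟨h1, -, hwin⟩ | ⟨i, hi, h1, h1', hw1, hw2⟩ |
    ⟨i, -, hv⟩
  · have hall : ∀ᶠ t in 𝓝[Icc 0 1] t₀, ∀ j ∈ Finset.univ.erase (K.nrm s),
        |onSeg f e t j - onSeg f e t₀ j| =
          |onSeg (fun x => clV G s (f x)) e t j - onSeg (fun x => clV G s (f x)) e t₀ j| := by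
      rw [Filter.eventually_all_finset]
      intro j hj
      have h2 := hwin j (Finset.ne_of_mem_erase hj)
      exact hcl j (by linarith [h2.1]) (by linarith [h2.2])
    filter_upwards [hnh _ h1, self_mem_nhdsWithin, hall] with t h2 ht hall
    rw [← Finset.sum_congr rfl hall]
    exact (HΦ.sum_s h2 (interior_subset h1)).trans (add_le_add le_rfl
      (key _ 6 t (R.s_pos s) (by norm_num) (by norm_num)
        (H.s k s ⟨_, ⟨_, he m1, rfl⟩, interior_subset h1⟩) ht))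
  · have h3 : f (e.1 + t₀ • (e.2 - e.1)) ∈ interior (B.E i) :=
      mem_interior_iff_mem_nhds.2 (mem_of_superset
        (closedBall_mem_nhds _ (by linarith [B.T_pos i])) h1')
    filter_upwards [hnh _ h3, self_mem_nhdsWithin,
      hcl (K.dir i) (by linarith) (by linarith)] with t h2 ht hcli
    refine (HΦ.sum_e h2 (interior_subset h3)).trans (add_le_add ?_
      (key _ 21 t (R.e_pos i) (by norm_num) le_rfl
        (H.e k i ⟨_, ⟨_, he m1, rfl⟩, interior_subset h1⟩) ht))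
    refine mul_le_mul_of_nonneg_left ?_ (by positivity)
    refine le_trans (le_of_eq hcli) ?_
    exact Finset.single_le_sum
      (f := fun j => |onSeg (fun x => clV G s (f x)) e t j -
        onSeg (fun x => clV G s (f x)) e t₀ j|) (fun j _ => abs_nonneg _) (hdir i hi)
  · have hv' : ∃ i, f (e.1 + t₀ • (e.2 - e.1)) ∈ interior (Zv W i) := by
      rcases hv with ⟨h1, -⟩ | ⟨h1, -⟩
      · exact ⟨_, h1⟩
      · exact ⟨_, h1⟩
    obtain ⟨i, h1⟩ := hv'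
    filter_upwards [hnh _ h1, self_mem_nhdsWithin] with t h2 ht
    refine (HΦ.sum_v h2 (interior_subset h1)).trans ?_
    have h3 := key _ 12 t (R.v_pos i) (by norm_num) (by norm_num)
        (H.v k i ⟨_, ⟨_, he m1, rfl⟩, interior_subset h1⟩) ht
    have h4 : 0 ≤ (1 + 3 * μ) * ∑ j ∈ Finset.univ.erase (K.nrm s),
        |onSeg (fun x => clV G s (f x)) e t j - onSeg (fun x => clV G s (f x)) e t₀ j| :=
      mul_nonneg (by positivity) (Finset.sum_nonneg fun j _ => abs_nonneg _)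
    linarith

end

variable {η₀ : ℝ} {Ω Λ : Set V} {w : V} {ρ : V → ℝ} {M : Mesh Ω} {h h1 h2 h3 : ConHomeo Ω Λ}
  {Pr : Set M.ι} {K : BoxCx Λ w}

/-- **the plate case**; `c`: sharp error of ROUND P -/
theorem plateTV (D : KIn η₀ w ρ M h Pr) (C : Cells ρ w K) {sl : TBx K → Finset (ℝ × ℝ)} {η : ℝ}
    {τ : Type*} {A : τ → Set V} {Cs : Set ℝ} {εE : (edges M).ε → ℝ} {μ δ : K.S → ℝ}
    {L : PLv (D.G C) (edges M) h1 Pr sl η A Cs εE μ δ}
    {κ₀ κ₁ : V → V} {GE : (edges M).ε → (V → V) → Prop} {GF : M.κ → (V → V) → Prop}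
    (RP : RPOut (D.G C) M (edges M) Pr L.lev h1 κ₀ κ₁ h2 GE GF h3)
    {F : Bool → BFam 3 K.S Λ} {Sm : Bool → ConHomeo Λ Λ} (PF : PS L.lev F Sm) {μs η₁ c : ℝ}
    (hμs : 0 ≤ μs) (hμs1 : 3 * μs ≤ 1) (hnum : (1 + 3 * μs) * (1 + c) ≤ 1 + η₁) {εk : M.κ → ℝ}
    (hεk : ∀ k, 0 < εk k) {ε : (edges M).ε → ℝ}
    (hε : ∀ k e, (edges M).seg e ⊆ M.F k → 4 * ε e ≤ εk k)
    (hP : ∀ s e, EAct (edges M) (AkP (D.G C) M h1 univ) s e →
      EqOn h1.toFun h.toFun ((edges M).seg e) →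
      H239.tv (fun x => clV (D.G C) s (PS.map Sm (h3.toFun x))) ((edges M).a e, (edges M).b e)
        (Finset.univ.erase (K.nrm s)) ≤
      ENNReal.ofReal (1 + c) * H239.tv h.toFun ((edges M).a e, (edges M).b e)
        (Finset.univ.erase (K.nrm s)) + ENNReal.ofReal (ε e)) :
    PlateTV D C h1 (lastMap h3 Sm) μs η₁ εk := by
  refine ⟨fun k => εk k / 6, fun k => by have := hεk k; positivity, ?_⟩
  intro R N t Φ htp ht HS HΦ k e hek s hs
  have hxk : ∀ x ∈ (edges M).seg e, x ∈ M.F k := fun x hx => hek hx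
  obtain ⟨hAk, hoff⟩ := hs k ⟨_, (edges M).left_mem e, hxk _ ((edges M).left_mem e)⟩
  have hact : EAct (edges M) (AkP (D.G C) M h1 univ) s e := ⟨k, hAk, hek⟩
  have h5 := hP s e hact (hoff.mono hek)
  have hpos : ∀ x ∈ (edges M).seg e, (lastMap h3 Sm).toFun x ∈ (D.G C).PB (7 / 8) s ∧
      |(lastMap h3 Sm).toFun x (K.nrm s) - K.slo s (K.nrm s)| < (D.B C).τ s := by
    intro x hx
    obtain ⟨h6, h7⟩ := _root_.P073.H142.peeled_mem RP.rin RP.rout RP.isQ₀ RP.isQ₁ RP.out hAk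
      (hxk x hx)
    rw [lastMap_apply]
    refine ⟨PF.mem_PB h6, ?_⟩
    rw [PF.nrm h6]
    exact h7
  have h6 := tv_softPW (D.G C) (f := (lastMap h3 Sm).toFun) HS HΦ.toIsSoft hμs (s := s)
    (c := 7 / 8) (by norm_num) (e := ((edges M).a e, (edges M).b e)) hek
    ((lastMap h3 Sm).cont.mono (hek.trans (H238.mesh_sub M k)))
    (fun x hx => (hpos x hx).1) (fun x hx => (hpos x hx).2)
  refine (show _ ≤ _ from h6).trans ?_
  have h9 : 0 ≤ 1 + 3 * μs := by linarith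
  have h8 : H239.tv (fun x => clV (D.G C) s ((lastMap h3 Sm).toFun x))
      ((edges M).a e, (edges M).b e) (Finset.univ.erase (K.nrm s)) ≤ _ := h5
  calc _ ≤ ENNReal.ofReal (1 + 3 * μs) * (ENNReal.ofReal (1 + c) *
          H239.tv h.toFun ((edges M).a e, (edges M).b e) (Finset.univ.erase (K.nrm s)) +
            ENNReal.ofReal (ε e)) + ENNReal.ofReal (3 * t k) := by
        gcongr
    _ = ENNReal.ofReal ((1 + 3 * μs) * (1 + c)) *
          H239.tv h.toFun ((edges M).a e, (edges M).b e) (Finset.univ.erase (K.nrm s)) +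
          (ENNReal.ofReal ((1 + 3 * μs) * ε e) + ENNReal.ofReal (3 * t k)) := by
        rw [mul_add, ← mul_assoc, ← ENNReal.ofReal_mul h9, ← ENNReal.ofReal_mul h9, add_assoc]
    _ ≤ _ := by
        refine add_le_add (mul_le_mul' (ENNReal.ofReal_le_ofReal hnum) le_rfl) ?_
        have h10 := hε k e hek
        have h11 := ht k
        have h12 := htp k
        have h13 := hεk k
        have e1 : ENNReal.ofReal ((1 + 3 * μs) * ε e) ≤ ENNReal.ofReal (εk k / 2) := by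
          rcases le_total 0 (ε e) with h14 | h14
          · exact ENNReal.ofReal_le_ofReal (by nlinarith)
          · rw [ENNReal.ofReal_of_nonpos (by nlinarith)]
            exact bot_le
        have e2 : ENNReal.ofReal (3 * t k) ≤ ENNReal.ofReal (εk k / 2) :=
          ENNReal.ofReal_le_ofReal (by linarith)
        refine (add_le_add e1 e2).trans (le_of_eq ?_)
        rw [← ENNReal.ofReal_add (by linarith) (by linarith)]
        congr 1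
        ring

/-- **the field `tv` of `SharpOut`**: thresholds `e₁` of the staircases, then thresholds `t₀` of
the collapse; `ε` are the numbers of round T, `ε'` those of round P -/
theorem tv_of' (D : KIn η₀ w ρ M h Pr) (C : Cells ρ w K) {T : ∀ k, FStar (edges M) k}
    {C₀ μ₁ : ℝ} {ε LaT : (edges M).ε → ℝ} {LfT : M.κ → (edges M).ε → ℝ} {Lam1 : M.κ → ℝ}
    {sl sl' : TBx K → Finset (ℝ × ℝ)}
    (TO : TOut (D.G C) M (edges M) ρ w Pr h h1 (ωT η₀ C) T C₀ μ₁ ε LaT LfT Lam1 sl)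
    {η : ℝ} {τ : Type*} {A : τ → Set V} {Cs : Set ℝ} {εE : (edges M).ε → ℝ} {μ δ : K.S → ℝ}
    (L : PLv (D.G C) (edges M) h1 Pr sl' η A Cs εE μ δ)
    {κ₀ κ₁ : V → V} {GE : (edges M).ε → (V → V) → Prop} {GF : M.κ → (V → V) → Prop}
    (RP : RPOut (D.G C) M (edges M) Pr L.lev h1 κ₀ κ₁ h2 GE GF h3) {μs η₁ c : ℝ}
    (hμs : 0 ≤ μs) (hμs1 : 3 * μs ≤ 1) (hη : η₀ ≤ η₁)
    (hμ₁ : (1 + 3 * μs) * (1 + μ₁) ≤ 1 + η₁) (hc0 : 0 ≤ c) (hc1 : c ≤ 1)
    (hc : (1 + 3 * μs) * (1 + c) ≤ 1 + η₁) (hηc : η ≤ c / 16)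
    (hμ : ∀ s β, μ s ≤ c / 4 * wl (D.G C) s β) {εk : M.κ → ℝ} (hεk : ∀ k, 0 < εk k)
    (hε : ∀ k e, (edges M).seg e ⊆ M.F k → 4 * ε e ≤ εk k) {ε' : (edges M).ε → ℝ}
    (hε0' : ∀ e, 0 < ε' e) (hε' : ∀ k e, (edges M).seg e ⊆ M.F k → 4 * ε' e ≤ εk k)
    (hεE : ∀ e, 0 ≤ εE e) (hεE' : ∀ e, 8 * εE e ≤ ε' e) :
    ∃ e₁ : K.S → ℝ, (∀ s, 0 < e₁ s) ∧
    ∀ (eS : K.S → ℝ) (he0 : ∀ s, 0 < eS s) (he8 : ∀ s, eS s ≤ δ s / 8), (∀ s, eS s ≤ e₁ s) →
    ∀ Sm : Bool → ConHomeo Λ Λ, (∀ β, (L.bfam eS he0 he8 β).IsS (Sm β)) →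
    ∃ t₀ : M.κ → ℝ, (∀ k, 0 < t₀ k) ∧ ∀ (R : Fac K) (N t : M.κ → ℝ) (Φ : ConHomeo Λ Λ),
      (∀ k, 0 < t k) → (∀ k, t k ≤ t₀ k) →
      Small (D.W C) R (lastMap h3 Sm).toFun M.F N t → IsSoft1 (D.B C) μs R Φ →
      ∀ k e, H304.IsEdge M e → segment ℝ e.1 e.2 ⊆ M.F k → ∀ A : Finset (Fin 3), A.Nonempty →
      A ≠ Finset.univ → ∀ m z,
      H239.Deep η₁ (δN η₀) w ρ univ A m z (h.toFun '' segment ℝ e.1 e.2) →
      H239.tv ((lastMap h3 Sm).trans Φ).toFun e Finset.univ ≤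
        ENNReal.ofReal (1 + η₁) * H239.tv h.toFun e A + ENNReal.ofReal (εk k) := by
  obtain ⟨e₁, he₁, key⟩ := H581.exists_ptv L RP hε0' hεE hεE'
  refine ⟨e₁, he₁, fun eS he0 he8 hsm Sm hS => ?_⟩
  have PF : PS L.lev (fun β => L.bfam eS he0 he8 β) Sm := ⟨fun β => rfl, hS⟩
  exact sharp_tv_of D C TO RP PF hμs hμs1 hη hμ₁ hεk hε
    (plateTV D C RP PF hμs hμs1 hc hεk hε' fun s e hact hoff =>
      key eS he0 he8 hsm Sm hS s e hact h hoff c hc0 hc1 hηc (hμ s))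

/-- **the field `tv` of `SharpOut`**, the same numbers for both rounds -/
theorem tv_of (D : KIn η₀ w ρ M h Pr) (C : Cells ρ w K) {T : ∀ k, FStar (edges M) k}
    {C₀ μ₁ : ℝ} {ε LaT : (edges M).ε → ℝ} {LfT : M.κ → (edges M).ε → ℝ} {Lam1 : M.κ → ℝ}
    {sl : TBx K → Finset (ℝ × ℝ)}
    (TO : TOut (D.G C) M (edges M) ρ w Pr h h1 (ωT η₀ C) T C₀ μ₁ ε LaT LfT Lam1 sl)
    {η : ℝ} {τ : Type*} {A : τ → Set V} {Cs : Set ℝ} {εE : (edges M).ε → ℝ} {μ δ : K.S → ℝ}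
    (L : PLv (D.G C) (edges M) h1 Pr sl η A Cs εE μ δ)
    {κ₀ κ₁ : V → V} {GE : (edges M).ε → (V → V) → Prop} {GF : M.κ → (V → V) → Prop}
    (RP : RPOut (D.G C) M (edges M) Pr L.lev h1 κ₀ κ₁ h2 GE GF h3) {μs η₁ c : ℝ}
    (hμs : 0 ≤ μs) (hμs1 : 3 * μs ≤ 1) (hη : η₀ ≤ η₁)
    (hμ₁ : (1 + 3 * μs) * (1 + μ₁) ≤ 1 + η₁) (hc0 : 0 ≤ c) (hc1 : c ≤ 1)
    (hc : (1 + 3 * μs) * (1 + c) ≤ 1 + η₁) (hηc : η ≤ c / 16)
    (hμ : ∀ s β, μ s ≤ c / 4 * wl (D.G C) s β) {εk : M.κ → ℝ} (hεk : ∀ k, 0 < εk k)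
    (hε0 : ∀ e, 0 < ε e) (hε : ∀ k e, (edges M).seg e ⊆ M.F k → 4 * ε e ≤ εk k)
    (hεE : ∀ e, 0 ≤ εE e) (hεE' : ∀ e, 8 * εE e ≤ ε e) :
    ∃ e₁ : K.S → ℝ, (∀ s, 0 < e₁ s) ∧
    ∀ (eS : K.S → ℝ) (he0 : ∀ s, 0 < eS s) (he8 : ∀ s, eS s ≤ δ s / 8), (∀ s, eS s ≤ e₁ s) →
    ∀ Sm : Bool → ConHomeo Λ Λ, (∀ β, (L.bfam eS he0 he8 β).IsS (Sm β)) →
    ∃ t₀ : M.κ → ℝ, (∀ k, 0 < t₀ k) ∧ ∀ (R : Fac K) (N t : M.κ → ℝ) (Φ : ConHomeo Λ Λ),
      (∀ k, 0 < t k) → (∀ k, t k ≤ t₀ k) →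
      Small (D.W C) R (lastMap h3 Sm).toFun M.F N t → IsSoft1 (D.B C) μs R Φ →
      ∀ k e, H304.IsEdge M e → segment ℝ e.1 e.2 ⊆ M.F k → ∀ A : Finset (Fin 3), A.Nonempty →
      A ≠ Finset.univ → ∀ m z,
      H239.Deep η₁ (δN η₀) w ρ univ A m z (h.toFun '' segment ℝ e.1 e.2) →
      H239.tv ((lastMap h3 Sm).trans Φ).toFun e Finset.univ ≤
        ENNReal.ofReal (1 + η₁) * H239.tv h.toFun e A + ENNReal.ofReal (εk k) :=
  tv_of' D C TO L RP hμs hμs1 hη hμ₁ hc0 hc1 hc hηc hμ hεk hε hε0 hε hεE hεE'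

end Vale.Agent.P073.H212
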