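import Vale.Agent.P073.H212.SoftTV
import Vale.Agent.P073.H142.PCone6
import Vale.Agent.P073.H345.RoundP
import Vale.Agent.P073.H669.PCnt

/-!
# P073, H212: **[SHARP-TV]**, the deep edges: positions, and the tubes

* `tv_swap`: the variation does not depend on the orientation of the edge;
* `tube_edge`: on an edge which is deep in a tube, the last map before the collapse is the output of
  round T, and its variation is known;
* `plate_edge`: all faces at an edge which is deep in a plate are peeled, and round T does nothing.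
-/

open Set Metric Topology Filter
open scoped ENNReal

namespace Vale.Agent.P073.H212

open _root_.P073 _root_.P073.Net _root_.P073.PA691 _root_.P073.H236 _root_.P073.H345
open _root_.P073.H579 (AkP EAct GEP)
open _root_.P073.H142 (FStar lastMap lastMap_apply PS)
open Vale.Agent.P073.St (V)
open Vale.Agent.P073.H471 Vale.Agent.P073.H267
open Vale.Agent.P073.H73 (Mesh onSeg)
open Vale.Agent.P073.H193 (Edges edges)
open Vale.Agent.P073.H805 (ROut RIn)
open _root_.P073.H267 (TOut tvE)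

/-- reversal of an edge -/
theorem tv_swap (g : V → V) (e : V × V) (A : Finset (Fin 3)) :
    H239.tv g e.swap A = H239.tv g e A := by
  unfold H239.tv
  refine Finset.sum_congr rfl fun j _ => ?_
  have h1 : (fun t => onSeg g e.swap t j) =
      (fun t => onSeg g e t j) ∘ fun t : ℝ => 1 - t := by
    funext t
    show g (e.2 + t • (e.1 - e.2)) j = g (e.1 + (1 - t) • (e.2 - e.1)) j
    have : e.2 + t • (e.1 - e.2) = e.1 + (1 - t) • (e.2 - e.1) := by module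
    rw [this]
  rw [h1, eVariationOn.comp_eq_of_antitoneOn _ _ (fun x _ y _ hxy => by
    show 1 - y ≤ 1 - x
    linarith)]
  congr 1
  rw [Set.image_const_sub_Icc]
  norm_num

theorem tv_single (g : V → V) (e : V × V) (j : Fin 3) :
    H239.tv g e {j} = eVariationOn (fun t => onSeg g e t j) (Icc 0 1) := by
  unfold H239.tv
  rw [Finset.sum_singleton]

variable {η₀ : ℝ} {Ω Λ : Set V} {w : V} {ρ : V → ℝ} {M : Mesh Ω} {h h1 h2 h3 : ConHomeo Ω Λ}
  {Pr : Set M.ι} {K : BoxCx Λ w} {E : Edges M}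

/-- **deep in a tube** -/
theorem tube_edge (D : KIn η₀ w ρ M h Pr) (C : Cells ρ w K) {T : ∀ k, FStar E k}
    {C₀ μ₁ : ℝ} {ε LaT : E.ε → ℝ} {LfT : M.κ → E.ε → ℝ} {Lam1 : M.κ → ℝ}
    {sl : TBx K → Finset (ℝ × ℝ)}
    (TO : TOut (D.G C) M E ρ w Pr h h1 (ωT η₀ C) T C₀ μ₁ ε LaT LfT Lam1 sl)
    {L : PLev (D.G C)} {κ₀ κ₁ : V → V} {GE : E.ε → (V → V) → Prop}
    {GF : M.κ → (V → V) → Prop} (RP : RPOut (D.G C) M E Pr L h1 κ₀ κ₁ h2 GE GF h3)
    {F : Bool → BFam 3 K.S Λ} {Sm : Bool → ConHomeo Λ Λ} (PF : PS L F Sm) {e : E.ε}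
    {J₀ : Set (ℕ × (Fin 3 → ℤ))} {m : ℕ} {z : Fin 3 → ℤ} {l : Fin 3} {η : ℝ} (hη : η₀ ≤ η)
    (H : H239.Deep η (δN η₀) w ρ J₀ {l} m z (h.toFun '' E.seg e)) :
    ∃ i : K.G, K.dir i = l ∧
      (∀ x ∈ E.seg e, (lastMap h3 Sm).toFun x = h1.toFun x ∧ h1.toFun x ∈ (D.B C).E i) ∧
      tvE E h1.toFun e l ≤ ENNReal.ofReal (1 + μ₁) * tvE E h.toFun e l + ENNReal.ofReal (ε e) := by
  obtain ⟨i, hi, hsG, -, -, hball⟩ := D.deep_tube C hη H
  have hδ := δN_pos D.pos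
  have ho := oN_pos D.pos
  have hκ := κN_pos D.pos
  have eo : oN η₀ = κN η₀ / 4000 := rfl
  have eδ : δN η₀ = oN η₀ / 4096 := rfl
  have h2m : (0:ℝ) < 1 / 2 ^ m := by positivity
  have hωi : ωT η₀ C (.inl i) = 4 * δN η₀ * (1 / 2 ^ m) := by
    show 4 * δN η₀ * C.sG i = _
    rw [hsG]
  have hκm : κN η₀ / 2 ^ m = κN η₀ * (1 / 2 ^ m) := by ring
  -- the moves of round T are small
  have hmove : ∀ x ∈ E.seg e, ‖h1.toFun x - h.toFun x‖ ≤ κN η₀ / 2 ^ m := by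
    intro x hx
    obtain ⟨k, hk⟩ := E.own e
    have hxk : x ∈ M.F k := hk hx
    obtain ⟨q, hq⟩ := K.cover _ (h.mapsTo (H238.mesh_sub M k hxk))
    have h4 := TO.near k x hxk q hq
    have h5 : h.toFun x ∈ (D.G C).TB false (.inl i) := Geo.TB_true_subset _
      ((hball _ ⟨x, hx, rfl⟩).1 (mem_closedBall_self (by positivity)))
    have h6 := (D.ωT_om C h5 hq).2
    refine h4.trans (h6.trans ?_)
    rw [hωi, hκm]
    nlinarith
  have hin : ∀ x ∈ E.seg e, h1.toFun x ∈ closedBall (h.toFun x) (κN η₀ / 2 ^ m) := by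
    intro x hx
    rw [mem_closedBall, dist_eq_norm]
    exact hmove x hx
  have hPB : ∀ x ∈ E.seg e, ∀ s, h1.toFun x ∉ (D.G C).PB (1 / 2) s := fun x hx =>
    (hball _ ⟨x, hx, rfl⟩).2.2.1 _ (hin x hx)
  refine ⟨i, hi, fun x hx => ⟨?_, (hball _ ⟨x, hx, rfl⟩).2.1 (hin x hx)⟩, ?_⟩
  · obtain ⟨k, hk⟩ := E.own e
    have hxk : x ∈ M.F k := hk hx
    have hnp : k ∉ Peel (D.G C) M h1 := by
      rintro ⟨s, hs⟩
      exact hPB x hx s (H805.PB_mono (by norm_num) s (PLev.near1 RP.rout hs hxk))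
    have h4 : h3.toFun x = h1.toFun x := RP.out.off k hnp hxk
    have h5 : ∀ β s, h1.toFun x ∉ (L.bx β s).K := by
      intro β s hs
      have h6 := (PLev.mem_bxK.1 hs).1
      have h7 := nrm_PK D C TO.near hxk h6
      refine hPB x hx s ((Geo.mem_PB).2 ⟨fun j hj => ?_, ?_⟩)
      · have h8 := h6.1 j hj
        have h9 := Geo.p_pos (G := D.G C) s
        constructor <;> linarith
      · have := (D.B C).τ_pos s
        linarith
    have h6 : ∀ β, (Sm β).toFun (h1.toFun x) = h1.toFun x := fun β =>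
      (PF.isS β).off _ fun s => by rw [PF.B β]; exact h5 β s
    rw [lastMap_apply]
    show (Sm true).toFun ((Sm false).toFun (h3.toFun x)) = _
    rw [h4, h6, h6]
  · have h4 := TO.tvs e (.inl i) (fun x hx => (closedBall_subset_closedBall (by
      rw [hωi, hκm]; nlinarith)).trans (hball _ ⟨x, hx, rfl⟩).1)
    have h5 : (TBx.ax (.inl i) : Fin 3) = l := hi
    rwa [h5] at h4

/-- **deep in a plate** -/
theorem plate_edge (D : KIn η₀ w ρ M h Pr) (C : Cells ρ w K) {ω : TBx K → ℝ} {O : M.κ → V}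
    {LaT : E.ε → ℝ} {LfT : M.κ → E.ε → ℝ} {Lam1 : M.κ → ℝ} {sl : TBx K → Finset (ℝ × ℝ)}
    (HT : T3Out (D.G C) M E h h1 ω O LaT LfT Lam1 sl) {X : Set V}
    {J₀ : Set (ℕ × (Fin 3 → ℤ))} {m : ℕ} {z : Fin 3 → ℤ} {l : Fin 3} {η : ℝ} (hη : η₀ ≤ η)
    (H : H239.Deep η (δN η₀) w ρ J₀ (Finset.univ.erase l) m z (h.toFun '' X)) :
    ∃ s : K.S, K.nrm s = l ∧ C.sS s = 1 / 2 ^ m ∧ ∀ k, (∃ x ∈ X, x ∈ M.F k) →
      AkP (D.G C) M h1 univ s k ∧ EqOn h1.toFun h.toFun (M.F k) := by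
  obtain ⟨s, hs, hsS, -, -, hball⟩ := D.deep_plate C hη H
  refine ⟨s, hs, hsS, fun k => ?_⟩
  rintro ⟨x, hx, hxk⟩
  have hδ := δN_pos D.pos
  have hδκ := δN_κ D.pos
  have hb := hball _ ⟨x, hx, rfl⟩
  have h2m : (0:ℝ) < 1 / 2 ^ m := by positivity
  have hκ := κN_pos D.pos
  have hκm : κN η₀ / 2 ^ m = κN η₀ * (1 / 2 ^ m) := by ring
  have hPB : h.toFun x ∈ (D.G C).PB 2 s := hb.2.1 (mem_closedBall_self (by positivity))
  have hin : ∀ x' ∈ M.F k, h.toFun x' ∈ closedBall (h.toFun x) (κN η₀ / 2 ^ m) := by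
    intro x' hx'
    have h4 := D.osc_S C (c := 2) (by norm_num) s k x hxk x' hx' hPB
    rw [mem_closedBall, dist_comm]
    refine h4.trans ?_
    show 4 * δN η₀ * C.sS s ≤ _
    rw [hsS, hκm]
    have eo : oN η₀ = κN η₀ / 4000 := rfl
    have eδ : δN η₀ = oN η₀ / 4096 := rfl
    nlinarith
  have hoff : EqOn h1.toFun h.toFun (M.F k) := HT.off k fun x' hx' b =>
    hb.2.2.2.1 _ (hin x' hx') b
  refine ⟨⟨mem_univ k, x, hxk, ?_⟩, hoff⟩
  rw [hoff hxk]
  exact H805.PB_mono (by norm_num) s hPB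

end Vale.Agent.P073.H212
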