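import Vale.Agent.P073.H212.Squeeze
import Vale.Agent.P073.H471.Cover

/-!
# P073, H212: the soft collapse (I): the maps at the edges and at the vertices

The collapse at the edges and at the vertices is made of one-coordinate maps which return to the
identity at a large distance: the coordinates which are not collapsed are almost not changed.
-/

open Set Metric Topology Filter

namespace Vale.Agent.P073.H212

open _root_.P073 _root_.P073.Net _root_.P073.PA691 _root_.P073.H236
open _root_.P073.PR720 (LF)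
open Vale.Agent.P073.St (V)
open Vale.Agent.P073.H471

variable {Λ : Set V} {v : V} {K : BoxCx Λ v} {S : Rad K} {W : Wid K S} {y y' : V}

/-- numbers for the soft collapse -/
structure SoftN (B : Boxes W) (R : ℝ) : Prop where
  R60 : 60 ≤ R
  T_a : ∀ e, R * B.T e ≤ W.wv (K.a e) / 4
  T_b : ∀ e, R * B.T e ≤ W.wv (K.b e) / 4
  T_q : ∀ e, R * B.T e ≤ S.q e
  v_r : ∀ i, R * W.wv i ≤ S.r i

section edges

variable {B : Boxes W} {R : ℝ}

/-- centre of the box around an edge -/
noncomputable def cE (W : Wid K S) (e : K.G) : V := fun k =>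
  if k = K.dir e then (K.w (K.a e) k + W.wv (K.a e) / 2 + (K.w (K.b e) k - W.wv (K.b e) / 2)) / 2
    else K.w (K.a e) k

/-- half widths of the box around an edge -/
noncomputable def aE (B : Boxes W) (e : K.G) : V := fun k =>
  if k = K.dir e then (K.w (K.b e) k - W.wv (K.b e) / 2 - (K.w (K.a e) k + W.wv (K.a e) / 2)) / 2
    else B.T e

theorem mem_cor_add {e : K.G} {t : ℝ} : (y ∈ cor (cE W e) fun k => aE B e k + t) ↔
    (K.w (K.a e) (K.dir e) + W.wv (K.a e) / 2 - t ≤ y (K.dir e) ∧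
      y (K.dir e) ≤ K.w (K.b e) (K.dir e) - W.wv (K.b e) / 2 + t) ∧
    ∀ k, k ≠ K.dir e → |y k - K.w (K.a e) k| ≤ B.T e + t := by
  constructor
  · intro h
    refine ⟨?_, fun k hk => ?_⟩
    · have := abs_le.1 (h (K.dir e))
      simp only [cE, aE, if_true] at this
      constructor <;> linarith [this.1, this.2]
    · have := h k
      simp only [cE, aE, if_neg hk] at this
      exact this
  · rintro ⟨⟨h1, h2⟩, h3⟩ k
    by_cases hk : k = K.dir e
    · subst hk
      simp only [cE, aE, if_true]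
      rw [abs_le]
      constructor <;> linarith
    · simp only [cE, aE, if_neg hk]
      exact h3 k hk

theorem mem_cor_E {e : K.G} : y ∈ cor (cE W e) (aE B e) ↔ y ∈ B.E e := by
  have h := mem_cor_add (B := B) (e := e) (y := y) (t := 0)
  have e1 : (fun k => aE B e k + 0) = aE B e := by funext k; simp
  rw [e1] at h
  rw [h]
  simp only [sub_zero, add_zero]
  rfl

/-- the support of the collapse at an edge -/
def KE (B : Boxes W) (R : ℝ) (e : K.G) : Set V := cor (cE W e) fun k => aE B e k + R * B.T e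

theorem E_sub_KE (hR : SoftN B R) (e : K.G) : B.E e ⊆ KE B R e := by
  intro y hy
  have h := mem_cor_E.2 hy
  have h0 : 0 ≤ R * B.T e := mul_nonneg (by linarith [hR.R60]) (B.T_pos e).le
  exact fun k => (h k).trans (by simp only [le_add_iff_nonneg_right]; exact h0)

theorem KE_spec (hR : SoftN B R) {e : K.G} (hy : y ∈ KE B R e) :
    (K.w (K.a e) (K.dir e) + W.wv (K.a e) / 4 ≤ y (K.dir e) ∧
      y (K.dir e) ≤ K.w (K.b e) (K.dir e) - W.wv (K.b e) / 4) ∧ InTube S e y := by
  obtain ⟨⟨h1, h2⟩, h3⟩ := mem_cor_add.1 hy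
  have ha := hR.T_a e
  have hb := hR.T_b e
  have hq := hR.T_q e
  have hT := B.T_pos e
  have h60 := hR.R60
  have hwa := W.wv_pos (K.a e)
  have hwb := W.wv_pos (K.b e)
  have h4 : B.T e ≤ R * B.T e := by nlinarith
  refine ⟨⟨by linarith, by linarith⟩, ⟨fun k hk => (h3 k hk).trans (by linarith), ?_, ?_⟩⟩
  · linarith
  · linarith

/-- two boxes of the same direction are disjoint -/
theorem KE_disjoint (hR : SoftN B R) {e e' : K.G} (hne : e ≠ e') (hd : K.dir e = K.dir e') :
    Disjoint (KE B R e) (KE B R e') := by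
  rw [Set.disjoint_left]
  intro y hy hy'
  obtain ⟨-, h1⟩ := KE_spec hR hy
  obtain ⟨-, h2⟩ := KE_spec hR hy'
  obtain ⟨i, hi, hi'⟩ := S.tube_disj e e' hne y h1.mem_nb h2.mem_nb
  have l1 := h1.lo
  have l2 := h1.hi
  have l3 := h2.lo
  have l4 := h2.hi
  rw [← hd] at l3 l4
  rcases hi with hi | hi <;> rcases hi' with hi' | hi'
  · exact hne (edge_eq_of_a (hi.symm.trans hi') hd)
  · rw [← hi'] at l4
    rw [← hi] at l1
    linarith
  · rw [← hi'] at l3
    rw [← hi] at l2
    linarith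
  · exact hne (edge_eq_of_b (hi.symm.trans hi') hd)

/-- the box of an edge does not meet the support of an edge of another direction -/
theorem notMem_KE (hR : SoftN B R) {e e' : K.G} (hd : K.dir e ≠ K.dir e') (hy : y ∈ B.E e) :
    y ∉ KE B R e' := by
  intro hy'
  have hne : e ≠ e' := fun h => hd (by rw [h])
  obtain ⟨-, h1⟩ := KE_spec hR (E_sub_KE hR e hy)
  obtain ⟨⟨h3, h4⟩, h2⟩ := KE_spec hR hy'
  obtain ⟨i, hi, hi'⟩ := S.tube_disj e e' hne y h1.mem_nb h2.mem_nb
  have h5 : |y (K.dir e') - K.w i (K.dir e')| ≤ B.T e := by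
    have h6 := hy.2 (K.dir e') (fun h => hd h.symm)
    rcases hi with hi | hi
    · rw [hi]; exact h6
    · rw [hi, ← wab K e (fun h => hd h.symm)]; exact h6
  have h7 : 8 * B.T e ≤ W.wv i := by
    rcases hi with hi | hi
    · rw [hi]; exact B.T_le_a e
    · rw [hi]; exact B.T_le_b e
  have hw := W.wv_pos i
  have hT := B.T_pos e
  obtain ⟨h8, h9⟩ := abs_le.1 h5
  rcases hi' with hi' | hi'
  · rw [← hi'] at h3; linarith
  · rw [← hi'] at h4; linarith

theorem KE_sub (hR : SoftN B R) (e : K.G) : KE B R e ⊆ K.nb e (2 * S.q e) :=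
  fun _ h => (KE_spec hR h).2.mem_nb

/-- tiles -/
theorem KE_tile (hR : SoftN B R) {e : K.G} (hy : y ∈ KE B R e) {p : K.T} (hp : y ∈ K.cube p) :
    K.edge e ⊆ K.cube p := (KE_spec hR hy).2.tile hp

/-- **the collapse at the edges of direction `d`** -/
theorem exists_K1 (hΛ : IsOpen Λ) (hR : SoftN B R) (F : Fac K) (d : Fin 3) :
    ∃ Φ : ConHomeo Λ Λ,
      (∀ e, K.dir e = d → ∀ y ∈ B.E e, ∀ k, k ≠ d →
        Φ.toFun y k = K.w (K.a e) k + F.ρe e * (y k - K.w (K.a e) k)) ∧
      (∀ y, Φ.toFun y d = y d) ∧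
      (∀ y, (∀ e, K.dir e = d → y ∉ KE B R e) → Φ.toFun y = y) ∧
      (∀ e, K.dir e = d → ∀ y ∈ KE B R e, ∀ k, Φ.toFun y k ∈ uIcc (cE W e k) (y k)) ∧
      (∀ y y' i, |Φ.toFun y i - Φ.toFun y' i| ≤ |y i - y' i| + 4 / R * ‖y - y'‖) := by
  obtain ⟨Φ, h1, h2, h3, h4, h5⟩ := exists_squeezeL (ι := {e : K.G // K.dir e = d}) hΛ
    (Finset.univ.erase d) (R := R) (fun e => F.ρe e.1) (fun e => F.e_pos _) (fun e => F.e_le _)
    (by linarith [hR.R60]) (fun e => cE W e.1) (fun e => aE B e.1) (fun e => B.T e.1)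
    (fun e => B.T_pos _)
    (fun e j hj => by
      have : j ≠ K.dir e.1 := by rw [e.2]; exact Finset.ne_of_mem_erase hj
      simp only [aE, if_neg this])
    (fun e => (KE_sub hR e.1).trans (S.tube_sub e.1))
    (fun e e' hne => KE_disjoint hR (fun h => hne (Subtype.ext h)) (e.2.trans e'.2.symm))
    (fun z hz => by
      obtain ⟨U, hU, hfin⟩ := S.lfTube z hz
      refine ⟨U, hU, ?_⟩
      have : {b : {e : K.G // K.dir e = d} |
          ((cor (cE W b.1) fun i => aE B b.1 i + R * B.T b.1) ∩ U).Nonempty} ⊆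
          Subtype.val ⁻¹' {e | (K.nb e (2 * S.q e) ∩ U).Nonempty} := by
        intro b hb
        exact hb.mono (inter_subset_inter_left _ (KE_sub hR b.1))
      exact (hfin.preimage Subtype.val_injective.injOn).subset this)
  refine ⟨Φ, ?_, ?_, ?_, ?_, h5⟩
  · intro e he y hy k hk
    have h6 := h1 ⟨e, he⟩ y (mem_cor_E.2 hy) k (Finset.mem_erase.2 ⟨hk, Finset.mem_univ _⟩)
    have h7 : cE W e k = K.w (K.a e) k := by
      have : k ≠ K.dir e := by rw [he]; exact hk
      simp only [cE, if_neg this]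
    rw [h6, h7]
  · intro y
    exact h2 y d (Finset.notMem_erase _ _)
  · intro y hy
    exact h3 y fun e => hy e.1 e.2
  · intro e he y hy k
    exact (h4 ⟨e, he⟩ y hy k).1

end edges

/-! ### vertices -/

/-- **the collapse at the vertices** -/
theorem exists_K0 {B : Boxes W} {R : ℝ} (hΛ : IsOpen Λ) (hR : SoftN B R) (F : Fac K) :
    ∃ Φ : ConHomeo Λ Λ,
      (∀ i, ∀ y ∈ Zv W i, ∀ k, Φ.toFun y k = K.w i k + F.ρv i * (y k - K.w i k)) ∧
      (∀ y, (∀ i, y ∉ closedBall (K.w i) (2 * S.r i)) → Φ.toFun y = y) ∧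
      (∀ i, ∀ y ∈ closedBall (K.w i) (2 * S.r i), ∀ k, Φ.toFun y k ∈ uIcc (K.w i k) (y k)) ∧
      (∀ y y' i, |Φ.toFun y i - Φ.toFun y' i| ≤ |y i - y' i| + 4 / R * ‖y - y'‖) := by
  have h60 := hR.R60
  have key : ∀ i : K.W, (cor (K.w i) fun _ => W.wv i + R * W.wv i) ⊆
      closedBall (K.w i) (2 * S.r i) := by
    intro i y hy
    have h1 := hR.v_r i
    have h2 := W.wv_pos i
    have h3 := S.r_pos i
    rw [mem_closedBall, dist_pi_le_iff (by linarith)]
    intro k
    rw [Real.dist_eq]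
    refine (hy k).trans ?_
    have : W.wv i ≤ R * W.wv i := by nlinarith
    linarith
  obtain ⟨Φ, h1, h2, h3, h4, h5⟩ := exists_squeezeL (ι := K.W) hΛ
    Finset.univ (R := R) F.ρv F.v_pos F.v_le
    (by linarith [hR.R60]) (fun i => K.w i) (fun i _ => W.wv i) W.wv W.wv_pos
    (fun i j _ => rfl)
    (fun i => (key i).trans (S.U_sub i))
    (fun i i' hne => (S.U_disj i i' hne).mono (key i) (key i'))
    (fun z hz => by
      obtain ⟨U, hU, hfin⟩ := S.lfU z hz
      exact ⟨U, hU, hfin.subset fun e he => he.mono (inter_subset_inter_left _ (key e))⟩)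
  refine ⟨Φ, ?_, ?_, ?_, h5⟩
  · intro i y hy k
    refine h1 i y (fun j => ?_) k (Finset.mem_univ _)
    have h6 := mem_closedBall.1 hy
    rw [dist_eq_norm] at h6
    exact (norm_le_pi_norm (y - K.w i) j).trans h6
  · intro y hy
    exact h3 y fun i h => hy i (key i h)
  · intro i y hy k
    by_cases h : ∃ j, y ∈ cor (K.w j) fun _ => W.wv j + R * W.wv j
    · obtain ⟨j, hj⟩ := h
      have hij : i = j := by
        by_contra hne
        exact Set.disjoint_left.1 (S.U_disj i j hne) hy (key j hj)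
      subst hij
      exact (h4 i y hj k).1
    · push Not at h
      rw [h3 y h]
      exact right_mem_uIcc

end Vale.Agent.P073.H212
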