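import Vale.Agent.P073.H212.Soft

/-!
# P073, H212: the soft collapse (II)

`IsSoft B μ F Φ`: `Φ` collapses the normal coordinates in the zones `Zs W s`, `B.E e`, `Zv W i` by
the factors `F`; a coordinate which is not collapsed changes by the factor `1 + μ` at most.
-/

open Set Metric Topology Filter

namespace Vale.Agent.P073.H212

open _root_.P073 _root_.P073.Net _root_.P073.PA691 _root_.P073.H236
open _root_.P073.PR720 (LF)
open Vale.Agent.P073.St (V)
open Vale.Agent.P073.H471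

variable {Λ : Set V} {v : V} {K : BoxCx Λ v} {S : Rad K} {W : Wid K S} {y y' : V}

/-- almost an isometry in every coordinate -/
def SoftL (ν : ℝ) (T : V → V) : Prop :=
  ∀ y y' i, |T y i - T y' i| ≤ |y i - y' i| + ν * ‖y - y'‖

theorem SoftL.norm {ν : ℝ} {T : V → V} (h : SoftL ν T) (hν : 0 ≤ ν) (y y' : V) :
    ‖T y - T y'‖ ≤ (1 + ν) * ‖y - y'‖ := by
  rw [pi_norm_le_iff_of_nonneg (by positivity)]
  intro i
  rw [Pi.sub_apply, Real.norm_eq_abs]
  have h1 : |y i - y' i| ≤ ‖y - y'‖ := norm_le_pi_norm (y - y') i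
  linarith [h y y' i]

theorem SoftL.comp {ν ν' : ℝ} {T T' : V → V} (h : SoftL ν T) (h' : SoftL ν' T') (hν : 0 ≤ ν)
    (hν' : 0 ≤ ν') : SoftL (ν + ν' * (1 + ν)) (fun y => T' (T y)) := by
  intro y y' i
  have h1 := h' (T y) (T y') i
  have h2 := h y y' i
  have h3 := mul_le_mul_of_nonneg_left (h.norm hν y y') hν'
  show |T' (T y) i - T' (T y') i| ≤ _
  linarith

/-- **the soft collapse** -/
structure IsSoft (B : Boxes W) (μ : ℝ) (F : Fac K) (Φ : ConHomeo Λ Λ) : Prop where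
  cube : ∀ p, Φ.toFun '' K.cube p = K.cube p
  mem : ∀ p, ∀ y ∈ K.cube p, Φ.toFun y ∈ K.cube p
  lip : ∀ y y', ‖Φ.toFun y - Φ.toFun y'‖ ≤ 4 * ‖y - y'‖
  zs : ∀ s, ∀ y ∈ Zs W s, ∀ y' ∈ Zs W s, ∀ L, (∀ k, k ≠ K.nrm s → |y k - y' k| ≤ L) → ∀ j,
    |Φ.toFun y j - Φ.toFun y' j| ≤
      (if j = K.nrm s then 0 else |y j - y' j|) + μ * L + 2 * (F.ρs s * ‖y - y'‖)
  ze : ∀ e, ∀ y ∈ B.E e, ∀ y' ∈ B.E e, ∀ j,
    |Φ.toFun y j - Φ.toFun y' j| ≤ (if j = K.dir e then |y j - y' j| else 0) +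
      μ * |y (K.dir e) - y' (K.dir e)| + 7 * (F.ρe e * ‖y - y'‖)
  zv : ∀ i, ∀ y ∈ Zv W i, ∀ y' ∈ Zv W i, ∀ j,
    |Φ.toFun y j - Φ.toFun y' j| ≤ 4 * (F.ρv i * ‖y - y'‖)

/-- the collapse at the squares keeps the boxes of the edges -/
theorem keyE {B : Boxes W} {F : Fac K} {Φ2 : ConHomeo Λ Λ}
    (a2 : ∀ s, ∀ y ∈ W.ss s, Φ2.toFun y = collF {K.nrm s} (K.slo s) (W.as s) (F.ρs s) y)
    (b2 : ∀ y, (∀ s, y ∉ W.ss s) → Φ2.toFun y = y) {e : K.G} (hy : y ∈ B.E e) :
    Φ2.toFun y (K.dir e) = y (K.dir e) ∧ Φ2.toFun y ∈ B.E e := by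
  have hz := B.E_subset e hy
  by_cases h : ∃ s, y ∈ W.ss s
  · obtain ⟨s, hs⟩ := h
    have hes := edge_subset_sq hs hz.1 (Ze_nJ hz)
    have hnd := nrm_ne_dir hes
    have hc : K.slo s (K.nrm s) = K.w (K.a e) (K.nrm s) :=
      (TM.nrm_eq (hes (TM.wa_mem K e))).symm
    have hd : Φ2.toFun y (K.dir e) = y (K.dir e) := by
      rw [a2 s y hs, collF_off (by simpa using hnd.symm)]
    refine ⟨hd, ⟨by rw [hd]; exact hy.1, fun k hk => ?_⟩⟩
    by_cases hkn : k = K.nrm s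
    · subst hkn
      rw [a2 s y hs, ← hc]
      refine (abs_collF_sub_le (F.s_pos s) (F.s_le s) (Finset.mem_singleton_self _)).1.trans ?_
      rw [hc]
      exact hy.2 _ hk
    · rw [a2 s y hs, collF_off (by simpa using hkn)]
      exact hy.2 k hk
  · push Not at h
    rw [b2 y h]
    exact ⟨rfl, hy⟩

/-- the collapse at the squares keeps the cubes of the vertices -/
theorem keyV2 {F : Fac K} {Φ2 : ConHomeo Λ Λ}
    (a2 : ∀ s, ∀ y ∈ W.ss s, Φ2.toFun y = collF {K.nrm s} (K.slo s) (W.as s) (F.ρs s) y)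
    (b2 : ∀ y, (∀ s, y ∉ W.ss s) → Φ2.toFun y = y) {i : K.W} (hy : y ∈ Zv W i) :
    Φ2.toFun y ∈ Zv W i := by
  by_cases h : ∃ s, y ∈ W.ss s
  · obtain ⟨s, hs⟩ := h
    have h1 : ‖y - K.w i‖ ≤ S.r i := by
      have := mem_closedBall.1 hy
      rw [dist_eq_norm] at this
      exact this.trans (W.wv_le i)
    have hws := w_mem_sq hs h1
    have hc := TM.nrm_eq hws
    rw [Zv, mem_closedBall, dist_pi_le_iff (W.wv_pos i).le]
    intro k
    have h2 := norm_le_pi_norm (y - K.w i) k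
    rw [Pi.sub_apply, Real.norm_eq_abs] at h2
    have h3 := mem_closedBall.1 hy
    rw [dist_eq_norm] at h3
    rw [Real.dist_eq, a2 s y hs]
    by_cases hk : k = K.nrm s
    · subst hk
      rw [hc]
      refine (abs_collF_sub_le (F.s_pos s) (F.s_le s) (Finset.mem_singleton_self _)).1.trans ?_
      rw [← hc]
      exact h2.trans h3
    · rw [collF_off (by simpa using hk)]
      exact h2.trans h3
  · push Not at h
    rw [b2 y h]; exact hy

theorem abs_le_of_mem_uIcc {a b t : ℝ} (h : t ∈ uIcc a b) : |t - a| ≤ |b - a| := by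
  rcases le_total a b with h1 | h1
  · rw [uIcc_of_le h1] at h
    rw [abs_of_nonneg (by linarith [h.1]), abs_of_nonneg (by linarith)]
    linarith [h.2]
  · rw [uIcc_of_ge h1] at h
    rw [abs_of_nonpos (by linarith [h.2]), abs_of_nonpos (by linarith)]
    linarith [h.1]

/-- **the soft collapse exists** -/
theorem exists_soft (hΛ : IsOpen Λ) {B : Boxes W} {R : ℝ} (hR : SoftN B R) (F : Fac K) :
    ∃ Φ : ConHomeo Λ Λ, IsSoft B (20 / R) F Φ := by
  have h60 := hR.R60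
  have hR0 : 0 < R := by linarith
  obtain ⟨Φ2, a2, b2, l2⟩ := exists_K2 hΛ W F
  choose Ψ p1 p2 p3 p4 p5 using exists_K1 hΛ hR F
  obtain ⟨Φ0, q1, q2, q3, q4⟩ := exists_K0 hΛ hR F
  set ν : ℝ := 4 / R with hν
  have hν0 : 0 ≤ ν := by positivity
  have hν1 : ν ≤ 1 / 15 := by rw [hν, div_le_iff₀ hR0]; linarith
  have hμ : 20 / R = 5 * ν := by rw [hν]; ring
  -- the composition of the maps at the edges and at the vertices
  set T1 : V → V := fun y => (Ψ 2).toFun ((Ψ 1).toFun ((Ψ 0).toFun y)) with hT1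
  set T : V → V := fun y => Φ0.toFun (T1 y) with hT
  have hS : ∀ d, SoftL ν (Ψ d).toFun := fun d => p5 d
  have hS0 : SoftL ν Φ0.toFun := q4
  have s1 := (hS 0).comp (hS 1) hν0 hν0
  have n1 : 0 ≤ ν + ν * (1 + ν) := by positivity
  have s2 := s1.comp (hS 2) n1 hν0
  have n2 : 0 ≤ ν + ν * (1 + ν) + ν * (1 + (ν + ν * (1 + ν))) := by positivity
  have s3 := s2.comp hS0 n2 hν0
  have hT1L : SoftL (1 / 4) T1 := by
    intro y y' i
    refine (s2 y y' i).trans ?_
    have h1 : ν + ν * (1 + ν) + ν * (1 + (ν + ν * (1 + ν))) ≤ 1 / 4 := by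
      have e1 : ν + ν * (1 + ν) ≤ 1 / 6 := by nlinarith
      nlinarith
    have := norm_nonneg (y - y')
    nlinarith
  have hTL : SoftL (5 * ν) T := by
    intro y y' i
    refine (s3 y y' i).trans ?_
    have e1 : ν + ν * (1 + ν) ≤ 32 / 15 * ν := by nlinarith
    have e2 : ν + ν * (1 + ν) + ν * (1 + (ν + ν * (1 + ν))) ≤ 7 / 2 * ν := by nlinarith
    have e3 : ν + ν * (1 + ν) + ν * (1 + (ν + ν * (1 + ν))) +
        ν * (1 + (ν + ν * (1 + ν) + ν * (1 + (ν + ν * (1 + ν))))) ≤ 5 * ν := by nlinarith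
    have := norm_nonneg (y - y')
    nlinarith
  have hn1 : ∀ y y', ‖T1 y - T1 y'‖ ≤ 5 / 4 * ‖y - y'‖ := fun y y' => by
    have := hT1L.norm (by norm_num) y y'
    linarith
  have hn : ∀ y y', ‖T y - T y'‖ ≤ 4 / 3 * ‖y - y'‖ := fun y y' => by
    have := hTL.norm (by positivity) y y'
    have h2 := norm_nonneg (y - y')
    nlinarith
  set Φ : ConHomeo Λ Λ := (((Φ2.trans (Ψ 0)).trans (Ψ 1)).trans (Ψ 2)).trans Φ0 with hΦ
  have hval : ∀ y, Φ.toFun y = T (Φ2.toFun y) := fun y => rfl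
  -- tiles
  have t2 : ∀ p, ∀ y ∈ K.cube p, Φ2.toFun y ∈ K.cube p := by
    intro p y hy
    by_cases h : ∃ s, y ∈ W.ss s
    · obtain ⟨s, hs⟩ := h
      rw [a2 s y hs]
      have h1 := tile_of_ss hs hy (slo_mem s)
      have key := fun k => collF_between (J := {K.nrm s}) (c := K.slo s) (a := W.as s) (k := k)
        (F.s_pos s) (F.s_le s) (fun _ => ⟨h1.1 k, h1.2 k⟩) ⟨hy.1 k, hy.2 k⟩
      exact ⟨fun k => (key k).1, fun k => (key k).2⟩
    · push Not at h
      rw [b2 y h]; exact hy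
  have cEw : ∀ e k, k ≠ K.dir e → cE W e k = K.w (K.a e) k := fun e k hk => by
    simp only [cE, if_neg hk]
  have btw : ∀ {a b c t : ℝ}, a ≤ b → b ≤ c → ∀ {x : ℝ}, a ≤ x → x ≤ c → t ∈ uIcc b x →
      a ≤ t ∧ t ≤ c := by
    intro a b c t h1 h2 x h3 h4 ht
    have h5 : uIcc b x ⊆ Icc a c := uIcc_subset_Icc ⟨h1, h2⟩ ⟨h3, h4⟩
    exact h5 ht
  have t1 : ∀ d p, ∀ y ∈ K.cube p, (Ψ d).toFun y ∈ K.cube p := by
    intro d p y hy
    by_cases h : ∃ e, K.dir e = d ∧ y ∈ KE B R e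
    · obtain ⟨e, he, hye⟩ := h
      have h1 := KE_tile hR hye hy (TM.wa_mem K e)
      have key : ∀ k, K.lo p k ≤ (Ψ d).toFun y k ∧ (Ψ d).toFun y k ≤ K.hi p k := by
        intro k
        by_cases hk : k = d
        · rw [hk, p2 d y]
          exact ⟨hy.1 d, hy.2 d⟩
        · have h2 := p4 d e he y hye k
          rw [cEw e k (by rw [he]; exact hk)] at h2
          exact btw (h1.1 k) (h1.2 k) (hy.1 k) (hy.2 k) h2
      exact ⟨fun k => (key k).1, fun k => (key k).2⟩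
    · push Not at h
      rw [p3 d y h]; exact hy
  have t0 : ∀ p, ∀ y ∈ K.cube p, Φ0.toFun y ∈ K.cube p := by
    intro p y hy
    by_cases h : ∃ i, y ∈ closedBall (K.w i) (2 * S.r i)
    · obtain ⟨i, hi⟩ := h
      have h1 := S.U_tile i p y hi hy
      have key : ∀ k, K.lo p k ≤ Φ0.toFun y k ∧ Φ0.toFun y k ≤ K.hi p k := fun k =>
        btw (h1.1 k) (h1.2 k) (hy.1 k) (hy.2 k) (q3 i y hi k)
      exact ⟨fun k => (key k).1, fun k => (key k).2⟩
    · push Not at h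
      rw [q2 y h]; exact hy
  have tt : ∀ p, ∀ y ∈ K.cube p, Φ.toFun y ∈ K.cube p := fun p y hy =>
    t0 p _ (t1 2 p _ (t1 1 p _ (t1 0 p _ (t2 p y hy))))
  -- edges
  have e1 : ∀ d e, ∀ y ∈ B.E e, (Ψ d).toFun y ∈ B.E e ∧
      (Ψ d).toFun y (K.dir e) = y (K.dir e) ∧ ∀ k, k ≠ K.dir e → (Ψ d).toFun y k =
        K.w (K.a e) k + (if K.dir e = d then F.ρe e else 1) * (y k - K.w (K.a e) k) := by
    intro d e y hy
    by_cases hd : K.dir e = d
    · have h1 : (Ψ d).toFun y (K.dir e) = y (K.dir e) := by rw [hd]; exact p2 d y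
      have h2 : ∀ k, k ≠ K.dir e → (Ψ d).toFun y k =
          K.w (K.a e) k + F.ρe e * (y k - K.w (K.a e) k) := fun k hk =>
        p1 d e hd y hy k (by rw [← hd]; exact hk)
      refine ⟨⟨by rw [h1]; exact hy.1, fun k hk => ?_⟩, h1, fun k hk => ?_⟩
      · rw [h2 k hk, add_sub_cancel_left, abs_mul, abs_of_pos (F.e_pos e)]
        have h3 := hy.2 k hk
        have h4 := F.e_le e
        have h5 := F.e_pos e
        have h6 := abs_nonneg (y k - K.w (K.a e) k)
        nlinarith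
      · rw [if_pos hd]
        exact h2 k hk
    · have h1 : (Ψ d).toFun y = y := p3 d y fun e' he' => notMem_KE hR (by rw [he']; exact hd) hy
      rw [h1]
      refine ⟨hy, rfl, fun k _ => ?_⟩
      rw [if_neg hd]; ring
  have e2 : ∀ e, ∀ y ∈ B.E e, T1 y (K.dir e) = y (K.dir e) ∧ ∀ k, k ≠ K.dir e →
      T1 y k = K.w (K.a e) k + F.ρe e * (y k - K.w (K.a e) k) := by
    intro e y hy
    obtain ⟨m0, d0, f0⟩ := e1 0 e y hy
    obtain ⟨m1, d1, f1⟩ := e1 1 e _ m0
    obtain ⟨m2, d2, f2⟩ := e1 2 e _ m1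
    refine ⟨by show (Ψ 2).toFun _ _ = _; rw [d2, d1, d0], fun k hk => ?_⟩
    show (Ψ 2).toFun _ k = _
    rw [f2 k hk, f1 k hk, f0 k hk]
    have h3 : ∀ d : Fin 3, d = 0 ∨ d = 1 ∨ d = 2 := by decide
    rcases h3 (K.dir e) with h | h | h <;> rw [h] <;> simp
  -- vertices
  have v1 : ∀ d i, ∀ y ∈ Zv W i, (Ψ d).toFun y ∈ Zv W i := by
    intro d i y hy
    by_cases h : ∃ e, K.dir e = d ∧ y ∈ KE B R e
    · obtain ⟨e, he, hye⟩ := h
      have hyr : y ∈ closedBall (K.w i) (2 * S.r i) :=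
        closedBall_subset_closedBall (by linarith [W.wv_le i, S.r_pos i]) hy
      have hie := S.U_edge i e y hyr (KE_sub hR e hye)
      have hwi : K.w i ∈ K.edge e := by
        rcases hie with rfl | rfl
        · exact TM.wa_mem K e
        · exact TM.wb_mem K e
      rw [Zv, mem_closedBall, dist_pi_le_iff (W.wv_pos i).le]
      intro k
      have h2 := norm_le_pi_norm (y - K.w i) k
      rw [Pi.sub_apply, Real.norm_eq_abs] at h2
      have h3 := mem_closedBall.1 hy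
      rw [dist_eq_norm] at h3
      rw [Real.dist_eq]
      by_cases hk : k = d
      · rw [hk, p2 d y, ← hk]
        exact h2.trans h3
      · have hk' : k ≠ K.dir e := by rw [he]; exact hk
        have h4 := p4 d e he y hye k
        rw [cEw e k hk'] at h4
        rw [edge_coord hwi hk']
        refine (abs_le_of_mem_uIcc h4).trans ?_
        rw [← edge_coord hwi hk']
        exact h2.trans h3
    · push Not at h
      rw [p3 d y h]; exact hy
  have v2 : ∀ i, ∀ y ∈ Zv W i, T1 y ∈ Zv W i := fun i y hy => v1 2 i _ (v1 1 i _ (v1 0 i y hy))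
  refine ⟨Φ, image_cube tt, tt, ?_, ?_, ?_, ?_⟩
  · -- Lipschitz
    intro y y'
    rw [hval, hval]
    have h1 := hn (Φ2.toFun y) (Φ2.toFun y')
    have h2 := l2 y y'
    have h3 := norm_nonneg (y - y')
    linarith
  · -- squares
    intro s y hy y' hy' L hL j
    have hρ := F.s_pos s
    have hN := norm_nonneg (y - y')
    have hL0 : 0 ≤ L := by
      obtain ⟨k, hk⟩ : ∃ k : Fin 3, k ≠ K.nrm s := exists_ne _
      exact (abs_nonneg _).trans (hL k hk)
    have hz : ∀ k, |Φ2.toFun y k - Φ2.toFun y' k| =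
        if k = K.nrm s then F.ρs s * |y k - y' k| else |y k - y' k| := by
      intro k
      rw [a2 s y (Zs_subset hy), a2 s y' (Zs_subset hy'),
        collF_zone (F.s_pos s) (Zs_nJ hy) (Zs_nJ hy')]
      simp
    have hk1 : ∀ k, |y k - y' k| ≤ ‖y - y'‖ := fun k => norm_le_pi_norm (y - y') k
    have hzn : ‖Φ2.toFun y - Φ2.toFun y'‖ ≤ L + F.ρs s * ‖y - y'‖ := by
      rw [pi_norm_le_iff_of_nonneg (by positivity)]
      intro k
      rw [Pi.sub_apply, Real.norm_eq_abs, hz]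
      split_ifs with hk
      · have := mul_le_mul_of_nonneg_left (hk1 k) hρ.le
        linarith
      · have := hL k hk
        have h4 : 0 ≤ F.ρs s * ‖y - y'‖ := by positivity
        linarith
    rw [hval, hval, hμ]
    refine (hTL _ _ j).trans ?_
    have h5 : 5 * ν * ‖Φ2.toFun y - Φ2.toFun y'‖ ≤ 5 * ν * (L + F.ρs s * ‖y - y'‖) := by
      gcongr
    have h6 : 5 * ν * (F.ρs s * ‖y - y'‖) ≤ 1 * (F.ρs s * ‖y - y'‖) := by
      gcongr
      linarith
    have h7 : |Φ2.toFun y j - Φ2.toFun y' j| ≤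
        (if j = K.nrm s then 0 else |y j - y' j|) + F.ρs s * ‖y - y'‖ := by
      rw [hz]
      split_ifs with hj
      · have := mul_le_mul_of_nonneg_left (hk1 j) hρ.le
        linarith
      · have h4 : 0 ≤ F.ρs s * ‖y - y'‖ := by positivity
        linarith
    linarith
  · -- edges
    intro e y hy y' hy' j
    have hρ := F.e_pos e
    have hN := norm_nonneg (y - y')
    obtain ⟨d0, m0⟩ := keyE a2 b2 hy
    obtain ⟨d0', m0'⟩ := keyE a2 b2 hy'
    obtain ⟨d1, f1⟩ := e2 e _ m0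
    obtain ⟨d1', f1'⟩ := e2 e _ m0'
    have h2 := l2 y y'
    have hz : ∀ k, k ≠ K.dir e → |T1 (Φ2.toFun y) k - T1 (Φ2.toFun y') k| ≤
        5 / 2 * (F.ρe e * ‖y - y'‖) := by
      intro k hk
      rw [f1 k hk, f1' k hk]
      have e3 : K.w (K.a e) k + F.ρe e * (Φ2.toFun y k - K.w (K.a e) k) -
          (K.w (K.a e) k + F.ρe e * (Φ2.toFun y' k - K.w (K.a e) k)) =
          F.ρe e * (Φ2.toFun y k - Φ2.toFun y' k) := by ring
      rw [e3, abs_mul, abs_of_pos hρ]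
      have h3 := norm_le_pi_norm (Φ2.toFun y - Φ2.toFun y') k
      rw [Pi.sub_apply, Real.norm_eq_abs] at h3
      have h4 := mul_le_mul_of_nonneg_left (h3.trans h2) hρ.le
      linarith
    have hzn : ‖T1 (Φ2.toFun y) - T1 (Φ2.toFun y')‖ ≤
        |y (K.dir e) - y' (K.dir e)| + 5 / 2 * (F.ρe e * ‖y - y'‖) := by
      rw [pi_norm_le_iff_of_nonneg (by positivity)]
      intro k
      rw [Pi.sub_apply, Real.norm_eq_abs]
      by_cases hk : k = K.dir e
      · rw [hk, d1, d1', d0, d0']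
        have : 0 ≤ F.ρe e * ‖y - y'‖ := by positivity
        linarith
      · have := hz k hk
        have h4 := abs_nonneg (y (K.dir e) - y' (K.dir e))
        linarith
    rw [hval, hval, hμ]
    refine (hS0 (T1 (Φ2.toFun y)) (T1 (Φ2.toFun y')) j).trans ?_
    have h5 : ν * ‖T1 (Φ2.toFun y) - T1 (Φ2.toFun y')‖ ≤
        ν * (|y (K.dir e) - y' (K.dir e)| + 5 / 2 * (F.ρe e * ‖y - y'‖)) := by
      gcongr
    have h6 : ν * (5 / 2 * (F.ρe e * ‖y - y'‖)) ≤ 1 * (5 / 2 * (F.ρe e * ‖y - y'‖)) := by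
      gcongr
      linarith
    have h7 : 0 ≤ ν * |y (K.dir e) - y' (K.dir e)| := by positivity
    have h8 : 0 ≤ F.ρe e * ‖y - y'‖ := by positivity
    by_cases hj : j = K.dir e
    · rw [if_pos hj]
      have h9 : |T1 (Φ2.toFun y) j - T1 (Φ2.toFun y') j| = |y j - y' j| := by
        rw [hj, d1, d1', d0, d0']
      rw [h9]
      linarith
    · rw [if_neg hj]
      have h9 := hz j hj
      linarith
  · -- vertices
    intro i y hy y' hy' j
    have hρ := F.v_pos i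
    have m0 := v2 i _ (keyV2 a2 b2 hy)
    have m0' := v2 i _ (keyV2 a2 b2 hy')
    rw [hval, hval]
    show |Φ0.toFun (T1 (Φ2.toFun y)) j - Φ0.toFun (T1 (Φ2.toFun y')) j| ≤ _
    rw [q1 i _ m0 j, q1 i _ m0' j]
    have e3 : K.w i j + F.ρv i * (T1 (Φ2.toFun y) j - K.w i j) -
        (K.w i j + F.ρv i * (T1 (Φ2.toFun y') j - K.w i j)) =
        F.ρv i * (T1 (Φ2.toFun y) j - T1 (Φ2.toFun y') j) := by ring
    rw [e3, abs_mul, abs_of_pos hρ]
    have h3 := norm_le_pi_norm (T1 (Φ2.toFun y) - T1 (Φ2.toFun y')) j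
    rw [Pi.sub_apply, Real.norm_eq_abs] at h3
    have h4 := hn1 (Φ2.toFun y) (Φ2.toFun y')
    have h5 := l2 y y'
    have h6 : |T1 (Φ2.toFun y) j - T1 (Φ2.toFun y') j| ≤ 4 * ‖y - y'‖ := by
      have := norm_nonneg (y - y')
      linarith
    have h7 := mul_le_mul_of_nonneg_left h6 hρ.le
    linarith

end Vale.Agent.P073.H212
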