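import Vale.Agent.P073.H581.Tve

/-!
# P073, H212: variations of several components, local to global

`sum_evar_le`: if the sum of the increments of the components of a curve is bounded by an additive
quantity on every interval, then so is the sum of their variations.
-/

open Set Filter Topology
open scoped ENNReal

namespace Vale.Agent.P073.H212

variable {κ : Type*} {ι : Type*} {N : ι → Type*} [∀ i, PseudoEMetricSpace (N i)]
  {E : κ → Type*} [∀ j, PseudoEMetricSpace (E j)]

/-- one component: `X` is subadditive, the right hand side is additive -/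
theorem add_evar_le {F : Type*} [PseudoEMetricSpace F] (T : Finset ι) {f : ∀ i, ℝ → N i}
    {g : ℝ → F} {X : ℝ → ℝ → ℝ≥0∞} {a b : ℝ}
    (hX : ∀ s t r, s ≤ t → t ≤ r → X s r ≤ X s t + X t r)
    (h : ∀ s t, a ≤ s → s ≤ t → t ≤ b →
      X s t + edist (g s) (g t) ≤ ∑ i ∈ T, eVariationOn (f i) (Icc s t)) :
    ∀ s t, a ≤ s → s ≤ t → t ≤ b →
      X s t + eVariationOn g (Icc s t) ≤ ∑ i ∈ T, eVariationOn (f i) (Icc s t) := by
  intro s t hs hst ht
  have hadd : ∀ x y z, x ≤ y → y ≤ z → ∑ i ∈ T, eVariationOn (f i) (Icc x y) +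
      ∑ i ∈ T, eVariationOn (f i) (Icc y z) = ∑ i ∈ T, eVariationOn (f i) (Icc x z) := by
    intro x y z h1 h2
    rw [← Finset.sum_add_distrib]
    refine Finset.sum_congr rfl fun i _ => ?_
    have h5 := eVariationOn.Icc_add_Icc (f i) (s := univ) h1 h2 (mem_univ y)
    simpa only [univ_inter] using h5
  have hX' : ∀ x y, a ≤ x → x ≤ y → y ≤ b → X x y ≤ ∑ i ∈ T, eVariationOn (f i) (Icc x y) :=
    fun x y h1 h2 h3 => le_self_add.trans (h x y h1 h2 h3)
  have : Nonempty (ℕ × { u : ℕ → ℝ // Monotone u ∧ ∀ i, u i ∈ Icc s t }) :=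
    ⟨⟨0, fun _ => s, fun _ _ _ => le_rfl, fun _ => ⟨le_rfl, hst⟩⟩⟩
  unfold eVariationOn
  rw [ENNReal.add_iSup]
  refine iSup_le ?_
  rintro ⟨n, u, hu, hm⟩
  have key : ∀ n, X s (u n) + ∑ i ∈ Finset.range n, edist (g (u (i + 1))) (g (u i)) ≤
      ∑ i ∈ T, eVariationOn (f i) (Icc s (u n)) := by
    intro n
    induction n with
    | zero =>
      rw [Finset.sum_range_zero, add_zero]
      exact hX' _ _ hs (hm 0).1 ((hm 0).2.trans ht)
    | succ n ih =>
      rw [Finset.sum_range_succ, ← hadd s (u n) (u (n + 1)) (hm n).1 (hu (Nat.le_succ n))]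
      have h1 := h (u n) (u (n + 1)) (hs.trans (hm n).1) (hu (Nat.le_succ n))
        ((hm (n + 1)).2.trans ht)
      rw [edist_comm] at h1
      have h2 := hX s (u n) (u (n + 1)) (hm n).1 (hu (Nat.le_succ n))
      calc X s (u (n + 1)) + (∑ i ∈ Finset.range n, edist (g (u (i + 1))) (g (u i)) +
            edist (g (u (n + 1))) (g (u n)))
          ≤ (X s (u n) + X (u n) (u (n + 1))) +
            (∑ i ∈ Finset.range n, edist (g (u (i + 1))) (g (u i)) +
              edist (g (u (n + 1))) (g (u n))) := by gcongr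
        _ = (X s (u n) + ∑ i ∈ Finset.range n, edist (g (u (i + 1))) (g (u i))) +
            (X (u n) (u (n + 1)) + edist (g (u (n + 1))) (g (u n))) := by
            simp only [add_assoc, add_left_comm]
        _ ≤ _ := add_le_add ih h1
  change X s t + ∑ i ∈ Finset.range n, edist (g (u (i + 1))) (g (u i)) ≤
    ∑ i ∈ T, eVariationOn (f i) (Icc s t)
  rw [← hadd s (u n) t (hm n).1 (hm n).2]
  have h2 := hX s (u n) t (hm n).1 (hm n).2
  calc X s t + ∑ i ∈ Finset.range n, edist (g (u (i + 1))) (g (u i))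
      ≤ (X s (u n) + X (u n) t) +
        ∑ i ∈ Finset.range n, edist (g (u (i + 1))) (g (u i)) := by gcongr
    _ = (X s (u n) + ∑ i ∈ Finset.range n, edist (g (u (i + 1))) (g (u i))) + X (u n) t := by
        simp only [add_assoc, add_comm, add_left_comm]
    _ ≤ _ := add_le_add (key n) (hX' _ _ (hs.trans (hm n).1) (hm n).2 ht)

/-- **the sum of the variations** -/
theorem sum_evar_le [DecidableEq κ] (J : Finset κ) (T : Finset ι) {f : ∀ i, ℝ → N i}
    {g : ∀ j, ℝ → E j} {a b : ℝ}
    (h : ∀ s t, a ≤ s → s ≤ t → t ≤ b →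
      ∑ j ∈ J, edist (g j s) (g j t) ≤ ∑ i ∈ T, eVariationOn (f i) (Icc s t)) :
    ∀ s t, a ≤ s → s ≤ t → t ≤ b →
      ∑ j ∈ J, eVariationOn (g j) (Icc s t) ≤ ∑ i ∈ T, eVariationOn (f i) (Icc s t) := by
  have key : ∀ J' ⊆ J, ∀ s t, a ≤ s → s ≤ t → t ≤ b →
      ∑ j ∈ J', eVariationOn (g j) (Icc s t) + ∑ j ∈ J \ J', edist (g j s) (g j t) ≤
        ∑ i ∈ T, eVariationOn (f i) (Icc s t) := by
    intro J'
    induction J' using Finset.induction_on with
    | empty =>
      intro _ s t h1 h2 h3
      simpa using h s t h1 h2 h3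
    | insert k J' hk ih =>
      intro hJ
      have hkJ : k ∈ J := hJ (Finset.mem_insert_self _ _)
      have hJ' : J' ⊆ J := fun x hx => hJ (Finset.mem_insert_of_mem hx)
      have e1 : insert k (J \ insert k J') = J \ J' := by
        ext x
        simp only [Finset.mem_insert, Finset.mem_sdiff, not_or]
        constructor
        · rintro (rfl | ⟨h1, -, h2⟩)
          · exact ⟨hkJ, hk⟩
          · exact ⟨h1, h2⟩
        · rintro ⟨h1, h2⟩
          by_cases hx : x = k
          · exact Or.inl hx
          · exact Or.inr ⟨h1, hx, h2⟩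
      have e2 : k ∉ J \ insert k J' := by simp
      have h5 := add_evar_le T (f := f) (g := g k) (a := a) (b := b)
        (X := fun s t => ∑ j ∈ J', eVariationOn (g j) (Icc s t) +
          ∑ j ∈ J \ insert k J', edist (g j s) (g j t))
        (fun s t r hst htr => by
          have h6 : ∀ j, eVariationOn (g j) (Icc s r) =
              eVariationOn (g j) (Icc s t) + eVariationOn (g j) (Icc t r) := fun j => by
            have h5 := eVariationOn.Icc_add_Icc (g j) (s := univ) hst htr (mem_univ t)
            simpa only [univ_inter] using h5.symm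
          have h7 : ∑ j ∈ J \ insert k J', edist (g j s) (g j r) ≤
              ∑ j ∈ J \ insert k J', edist (g j s) (g j t) +
              ∑ j ∈ J \ insert k J', edist (g j t) (g j r) := by
            rw [← Finset.sum_add_distrib]
            exact Finset.sum_le_sum fun j _ => edist_triangle _ _ _
          simp only [h6, Finset.sum_add_distrib]
          calc _ ≤ _ := add_le_add le_rfl h7
            _ = _ := by simp only [add_assoc, add_left_comm])
        (fun s t h1 h2 h3 => by
          refine le_trans (le_of_eq ?_) (ih hJ' s t h1 h2 h3)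
          rw [← e1, Finset.sum_insert e2, add_assoc]
          congr 1
          exact add_comm _ _)
      intro s t h1 h2 h3
      refine le_trans (le_of_eq ?_) (h5 s t h1 h2 h3)
      rw [Finset.sum_insert hk]
      simp only [add_comm, add_left_comm]
  intro s t h1 h2 h3
  simpa using key J (fun _ hx => hx) s t h1 h2 h3

/-- **local to global for the sum of the variations of the components** -/
theorem sum_evar_le_of_local {g : Fin 3 → ℝ → ℝ} (T : Finset ι) {f : ∀ i, ℝ → N i} {a b : ℝ}
    (hab : a ≤ b) (h : ∀ s ∈ Icc a b, ∀ᶠ s' in 𝓝[Icc a b] s,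
      ∑ j, edist (g j s) (g j s') ≤ ∑ i ∈ T, eVariationOn (f i) (uIcc s s')) :
    ∑ j, eVariationOn (g j) (Icc a b) ≤ ∑ i ∈ T, eVariationOn (f i) (Icc a b) := by
  have e1 : ∀ x y : PiLp 1 (fun _ : Fin 3 => ℝ), edist x y = ∑ j, edist (x j) (y j) := by
    intro x y
    rw [PiLp.edist_eq_sum (by simp)]
    simp
  set G : ℝ → PiLp 1 (fun _ : Fin 3 => ℝ) := fun s => WithLp.toLp 1 (fun j => g j s) with hG
  refine sum_evar_le Finset.univ T (a := a) (b := b) ?_ a b le_rfl hab le_rfl
  intro s t h1 h2 h3
  have h4 := H581.edist_le_of_local T (G := G) (f := f) (a := s) (b := t) h2 (fun x hx => by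
    have hsub : Icc s t ⊆ Icc a b := Icc_subset_Icc h1 h3
    filter_upwards [(h x (hsub hx)).filter_mono (nhdsWithin_mono _ hsub)] with x' hx'
    rw [e1]
    exact hx')
  rw [e1] at h4
  exact h4

end Vale.Agent.P073.H212
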