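import Vale.Agent.P073.H212.Soft2
import Vale.Agent.P073.H212.SumVar
import Vale.Agent.P073.H471.KillLast
import Vale.Agent.P073.H267.GeoPt

/-!
# P073, H212: the soft collapse (III): total variations

On an edge whose image (under the map before the collapse) is in a tube or in a plate, the total
variation after the soft collapse is at most `1 + 3 μ` times the variation of the tangential
components before.
-/

open Set Metric Topology Filter
open scoped ENNReal

namespace Vale.Agent.P073.H212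

open _root_.P073 _root_.P073.Net _root_.P073.PA691 _root_.P073.H236
open _root_.P073.PR720 (LF)
open Vale.Agent.P073.St (V)
open Vale.Agent.P073.H471 Vale.Agent.P073.H267
open Vale.Agent.P073.H73 (onSeg)

section

variable {Λ : Set V} {v : V} {K : BoxCx Λ v} {S : Rad K} {W : Wid K S} {B : Boxes W} {μ : ℝ}
  {R : Fac K} {Φ : ConHomeo Λ Λ} {y y' : V}

theorem IsSoft.sum_e (H : IsSoft B μ R Φ) {e : K.G} (hy : y ∈ B.E e) (hy' : y' ∈ B.E e) :
    ∑ j, |Φ.toFun y j - Φ.toFun y' j| ≤ (1 + 3 * μ) * |y (K.dir e) - y' (K.dir e)| +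
      21 * (R.ρe e * ‖y - y'‖) := by
  refine (Finset.sum_le_sum fun j _ => H.ze e y hy y' hy' j).trans (le_of_eq ?_)
  simp only [Finset.sum_add_distrib, Finset.sum_ite_eq', Finset.mem_univ, if_true,
    Finset.sum_const, Finset.card_univ, Fintype.card_fin, nsmul_eq_mul, Nat.cast_ofNat]
  ring

theorem IsSoft.sum_v (H : IsSoft B μ R Φ) {i : K.W} (hy : y ∈ Zv W i) (hy' : y' ∈ Zv W i) :
    ∑ j, |Φ.toFun y j - Φ.toFun y' j| ≤ 12 * (R.ρv i * ‖y - y'‖) := by
  refine (Finset.sum_le_sum fun j _ => H.zv i y hy y' hy' j).trans (le_of_eq ?_)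
  simp only [Finset.sum_const, Finset.card_univ, Fintype.card_fin, nsmul_eq_mul, Nat.cast_ofNat]
  ring

theorem IsSoft.sum_s (H : IsSoft B μ R Φ) {s : K.S} (hy : y ∈ Zs W s)
    (hy' : y' ∈ Zs W s) : ∑ j, |Φ.toFun y j - Φ.toFun y' j| ≤
      (1 + 3 * μ) * (∑ j ∈ Finset.univ.erase (K.nrm s), |y j - y' j|) +
        6 * (R.ρs s * ‖y - y'‖) := by
  set L := ∑ j ∈ Finset.univ.erase (K.nrm s), |y j - y' j| with hL
  have h1 : ∀ k, k ≠ K.nrm s → |y k - y' k| ≤ L := fun k hk =>
    Finset.single_le_sum (f := fun k => |y k - y' k|) (fun k _ => abs_nonneg _)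
      (Finset.mem_erase.2 ⟨hk, Finset.mem_univ _⟩)
  have h2 : ∑ j, (if j = K.nrm s then 0 else |y j - y' j|) = L := by
    rw [← Finset.add_sum_erase _ _ (Finset.mem_univ (K.nrm s)), if_pos rfl, zero_add]
    exact Finset.sum_congr rfl fun j hj => if_neg (Finset.ne_of_mem_erase hj)
  refine (Finset.sum_le_sum fun j _ => H.zs s y hy y' hy' L h1 j).trans (le_of_eq ?_)
  simp only [Finset.sum_add_distrib, h2, Finset.sum_const, Finset.card_univ, Fintype.card_fin,
    nsmul_eq_mul, Nat.cast_ofNat]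
  ring

end

/-! ### variations along a segment -/

theorem edist_eq_ofReal (x y : ℝ) : edist x y = ENNReal.ofReal |y - x| := by
  rw [edist_dist, Real.dist_eq, abs_sub_comm]

/-- from local estimates to the total variation -/
theorem tv_of_local {f g : V → V} {e : V × V} (A : Finset (Fin 3)) {κ c : ℝ} (hκ : 0 ≤ κ)
    (hc : 0 ≤ c)
    (h : ∀ s ∈ Icc (0:ℝ) 1, ∀ᶠ s' in 𝓝[Icc 0 1] s,
      ∑ j, |onSeg g e s' j - onSeg g e s j| ≤
        κ * ∑ j ∈ A, |onSeg f e s' j - onSeg f e s j| + c * |s' - s|) :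
    H239.tv g e Finset.univ ≤ ENNReal.ofReal κ * H239.tv f e A + ENNReal.ofReal c := by
  set F : Option (Fin 3) → ℝ → ℝ := fun i t => match i with
    | none => c * t
    | some j => κ * onSeg f e t j with hF
  have h1 := sum_evar_le_of_local (g := fun j t => onSeg g e t j) (Finset.insertNone A)
    (f := F) zero_le_one (a := (0:ℝ)) (b := 1) (fun s hs => by
      filter_upwards [h s hs] with s' hs'
      rw [Finset.sum_insertNone]
      have e1 : ∀ i, edist (F i s) (F i s') ≤ eVariationOn (F i) (uIcc s s') := fun i =>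
        eVariationOn.edist_le (F i) left_mem_uIcc right_mem_uIcc
      refine le_trans ?_ (add_le_add (e1 none) (Finset.sum_le_sum fun j _ => e1 (some j)))
      have e2 : edist (F none s) (F none s') = ENNReal.ofReal (c * |s' - s|) := by
        rw [edist_eq_ofReal]
        show ENNReal.ofReal |c * s' - c * s| = _
        rw [← mul_sub, abs_mul, abs_of_nonneg hc]
      have e3 : ∀ j, edist (F (some j) s) (F (some j) s') =
          ENNReal.ofReal (κ * |onSeg f e s' j - onSeg f e s j|) := fun j => by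
        rw [edist_eq_ofReal]
        show ENNReal.ofReal |κ * onSeg f e s' j - κ * onSeg f e s j| = _
        rw [← mul_sub, abs_mul, abs_of_nonneg hκ]
      simp only [e2, e3]
      rw [← ENNReal.ofReal_sum_of_nonneg (fun j _ => by positivity),
        ← ENNReal.ofReal_add (by positivity) (Finset.sum_nonneg fun j _ => by positivity)]
      have e4 : ∀ j, edist (onSeg g e s j) (onSeg g e s' j) =
          ENNReal.ofReal |onSeg g e s' j - onSeg g e s j| := fun j => edist_eq_ofReal _ _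
      simp only [e4]
      rw [← ENNReal.ofReal_sum_of_nonneg (fun j _ => abs_nonneg _)]
      refine ENNReal.ofReal_le_ofReal (hs'.trans (le_of_eq ?_))
      rw [← Finset.mul_sum]
      ring)
  rw [Finset.sum_insertNone] at h1
  unfold H239.tv
  refine h1.trans ?_
  rw [add_comm]
  have h2 : ∀ j, eVariationOn (F (some j)) (Icc 0 1) ≤
      ENNReal.ofReal κ * eVariationOn (fun t => onSeg f e t j) (Icc 0 1) := fun j => by
    refine eVariationOn_le_of_edist fun x _ y _ => ?_
    rw [edist_eq_ofReal, edist_eq_ofReal, ← ENNReal.ofReal_mul hκ]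
    refine ENNReal.ofReal_le_ofReal (le_of_eq ?_)
    show |κ * onSeg f e y j - κ * onSeg f e x j| = _
    rw [← mul_sub, abs_mul, abs_of_nonneg hκ]
  have h3 : eVariationOn (F none) (Icc 0 1) ≤ ENNReal.ofReal c :=
    Small.evar_le_of_abs hc fun s _ t _ => by
      show |c * s - c * t| ≤ _
      rw [← mul_sub, abs_mul, abs_of_nonneg hc]
  rw [Finset.mul_sum]
  exact add_le_add (Finset.sum_le_sum fun j _ => h2 j) h3

section

variable {Λ : Set V} {v : V} {K : BoxCx Λ v} {S : Rad K} {W : Wid K S} {B : Boxes W} {μ : ℝ}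
  {R : Fac K} {Φ : ConHomeo Λ Λ} {α : Type*} {f : V → V} {F : α → Set V} {M ε : α → ℝ} {k : α}
  {x x' : V}

theorem tendsto_seg (e : V × V) {s : ℝ} :
    Tendsto (fun t : ℝ => e.1 + t • (e.2 - e.1)) (𝓝[Icc 0 1] s)
      (𝓝[segment ℝ e.1 e.2] (e.1 + s • (e.2 - e.1))) := by
  refine tendsto_nhdsWithin_of_tendsto_nhds_of_eventually_within _ ?_ ?_
  · have : Continuous fun t : ℝ => e.1 + t • (e.2 - e.1) := by fun_prop
    exact (this.tendsto s).mono_left nhdsWithin_le_nhds
  · filter_upwards [self_mem_nhdsWithin] with t ht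
    exact Small.onSeg_mem ht

theorem seg_sub (e : V × V) (s t : ℝ) :
    ‖e.1 + t • (e.2 - e.1) - (e.1 + s • (e.2 - e.1))‖ = |t - s| * ‖e.2 - e.1‖ := by
  have : e.1 + t • (e.2 - e.1) - (e.1 + s • (e.2 - e.1)) = (t - s) • (e.2 - e.1) := by module
  rw [this, norm_smul, Real.norm_eq_abs]

/-- **sharp edges in the tubes, soft collapse** -/
theorem tv_softE (H : Small W R f F M ε) (HΦ : IsSoft B μ R Φ) (hμ : 0 ≤ μ) {i : K.G} {e : V × V}
    (he : segment ℝ e.1 e.2 ⊆ F k) (hz : ∀ x ∈ segment ℝ e.1 e.2, f x ∈ B.E i) :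
    H239.tv (fun x => Φ.toFun (f x)) e Finset.univ ≤
      ENNReal.ofReal (1 + 3 * μ) * H239.tv f e {K.dir i} + ENNReal.ofReal (3 * ε k) := by
  have hρ := R.e_pos i
  have hM := H.pos k
  have hne := H.e k i ⟨f e.1, ⟨e.1, he (left_mem_segment ℝ _ _), rfl⟩,
    B.E_subset i (hz _ (left_mem_segment ℝ _ _))⟩
  have h2 := H.le2 hρ (he (right_mem_segment ℝ _ _)) (he (left_mem_segment ℝ _ _)) hne
  have h0 : 0 ≤ ε k / 7 := le_trans (by positivity) h2
  refine tv_of_local {K.dir i} (by positivity) (by linarith) fun s hs => ?_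
  filter_upwards [self_mem_nhdsWithin] with t ht
  have m1 := Small.onSeg_mem (e := e) hs
  have m2 := Small.onSeg_mem (e := e) ht
  have h3 := HΦ.sum_e (hz _ m2) (hz _ m1)
  rw [Finset.sum_singleton]
  refine h3.trans (add_le_add le_rfl ?_)
  have h4 := H.lip k _ (he m2) _ (he m1)
  rw [seg_sub] at h4
  calc 21 * (R.ρe i * ‖f (e.1 + t • (e.2 - e.1)) - f (e.1 + s • (e.2 - e.1))‖)
      ≤ 21 * (R.ρe i * (M k * (|t - s| * ‖e.2 - e.1‖))) := by gcongr
    _ = 21 * |t - s| * (R.ρe i * (M k * ‖e.2 - e.1‖)) := by ring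
    _ ≤ 21 * |t - s| * (ε k / 7) := by gcongr
    _ = 3 * ε k * |t - s| := by ring

/-- **sharp edges in the plates, soft collapse** -/
theorem tv_softP (G : Geo B) (H : Small W R f F M ε) (HΦ : IsSoft B μ R Φ) (hμ : 0 ≤ μ) {s : K.S}
    {c : ℝ} (hc : 0 ≤ c) {e : V × V} (he : segment ℝ e.1 e.2 ⊆ F k)
    (hf : ContinuousOn f (segment ℝ e.1 e.2))
    (hz : ∀ x ∈ segment ℝ e.1 e.2, f x ∈ G.PB c s)
    (hn : ∀ x ∈ segment ℝ e.1 e.2, |f x (K.nrm s) - K.slo s (K.nrm s)| < B.τ s) :
    H239.tv (fun x => Φ.toFun (f x)) e Finset.univ ≤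
      ENNReal.ofReal (1 + 3 * μ) * H239.tv f e (Finset.univ.erase (K.nrm s)) +
        ENNReal.ofReal (3 * ε k) := by
  have hM := H.pos k
  have hdir : ∀ i, K.edge i ⊆ K.sq s → K.dir i ∈ Finset.univ.erase (K.nrm s) := fun i hi =>
    Finset.mem_erase.2 ⟨(nrm_ne_dir hi).symm, Finset.mem_univ _⟩
  have h0 : 0 ≤ ε k / 7 := by
    have m1 := left_mem_segment ℝ e.1 e.2
    rcases G.cover_pt hc (hz _ m1) (hn _ m1) with ⟨h1, -⟩ | ⟨i, -, h1, -⟩ | ⟨i, -, ⟨h1, -⟩ | ⟨h1, -⟩⟩
    · exact le_trans (mul_nonneg (R.s_pos s).le (by have : 0 ≤ diam (F k) := diam_nonneg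
                                                    positivity))
        (H.s k s ⟨_, ⟨_, he m1, rfl⟩, interior_subset h1⟩)
    · exact le_trans (mul_nonneg (R.e_pos i).le (by have : 0 ≤ diam (F k) := diam_nonneg
                                                    positivity))
        (H.e k i ⟨_, ⟨_, he m1, rfl⟩, interior_subset h1⟩)
    · exact le_trans (mul_nonneg (R.v_pos _).le (by have : 0 ≤ diam (F k) := diam_nonneg
                                                    positivity))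
        (H.v k _ ⟨_, ⟨_, he m1, rfl⟩, interior_subset h1⟩)
    · exact le_trans (mul_nonneg (R.v_pos _).le (by have : 0 ≤ diam (F k) := diam_nonneg
                                                    positivity))
        (H.v k _ ⟨_, ⟨_, he m1, rfl⟩, interior_subset h1⟩)
  refine tv_of_local (Finset.univ.erase (K.nrm s)) (by positivity) (by linarith) fun t₀ ht₀ => ?_
  have m1 := Small.onSeg_mem (e := e) ht₀
  -- the reduction factor of the zone
  have key : ∀ (ρ cc : ℝ) (t : ℝ), 0 < ρ → 0 ≤ cc → cc ≤ 21 →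
      ρ * (M k * (1 + diam (F k))) ≤ ε k / 7 → t ∈ Icc (0:ℝ) 1 →
      cc * (ρ * ‖f (e.1 + t • (e.2 - e.1)) - f (e.1 + t₀ • (e.2 - e.1))‖) ≤
        3 * ε k * |t - t₀| := by
    intro ρ cc t hρ hcc hcc' hne ht
    have h2 := H.le2 hρ (he (right_mem_segment ℝ _ _)) (he (left_mem_segment ℝ _ _)) hne
    have h4 := H.lip k _ (he (Small.onSeg_mem (e := e) ht)) _ (he m1)
    rw [seg_sub] at h4
    calc cc * (ρ * ‖f (e.1 + t • (e.2 - e.1)) - f (e.1 + t₀ • (e.2 - e.1))‖)
        ≤ 21 * (ρ * (M k * (|t - t₀| * ‖e.2 - e.1‖))) := by gcongr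
      _ = 21 * |t - t₀| * (ρ * (M k * ‖e.2 - e.1‖)) := by ring
      _ ≤ 21 * |t - t₀| * (ε k / 7) := by gcongr
      _ = 3 * ε k * |t - t₀| := by ring
  have hnh : ∀ Z : Set V, f (e.1 + t₀ • (e.2 - e.1)) ∈ interior Z →
      ∀ᶠ t in 𝓝[Icc 0 1] t₀, f (e.1 + t • (e.2 - e.1)) ∈ Z := fun Z hZ =>
    (tendsto_seg e).eventually (Small.ev_mem hf m1 hZ)
  rcases G.cover_pt hc (hz _ m1) (hn _ m1) with ⟨h1, -⟩ | ⟨i, hi, h1, h1', -⟩ | ⟨i, -, hv⟩
  · filter_upwards [hnh _ h1, self_mem_nhdsWithin] with t h2 ht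
    exact (HΦ.sum_s h2 (interior_subset h1)).trans (add_le_add le_rfl
      (key _ 6 t (R.s_pos s) (by norm_num) (by norm_num)
        (H.s k s ⟨_, ⟨_, he m1, rfl⟩, interior_subset h1⟩) ht))
  · have h3 : f (e.1 + t₀ • (e.2 - e.1)) ∈ interior (B.E i) :=
      mem_interior_iff_mem_nhds.2 (mem_of_superset
        (closedBall_mem_nhds _ (by linarith [B.T_pos i])) h1')
    filter_upwards [hnh _ h3, self_mem_nhdsWithin] with t h2 ht
    refine (HΦ.sum_e h2 (interior_subset h3)).trans (add_le_add ?_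
      (key _ 21 t (R.e_pos i) (by norm_num) le_rfl
        (H.e k i ⟨_, ⟨_, he m1, rfl⟩, interior_subset h1⟩) ht))
    refine mul_le_mul_of_nonneg_left ?_ (by positivity)
    exact Finset.single_le_sum
      (f := fun j => |onSeg f e t j - onSeg f e t₀ j|) (fun j _ => abs_nonneg _) (hdir i hi)
  · have hv' : ∃ i, f (e.1 + t₀ • (e.2 - e.1)) ∈ interior (Zv W i) := by
      rcases hv with ⟨h1, -⟩ | ⟨h1, -⟩
      · exact ⟨_, h1⟩
      · exact ⟨_, h1⟩
    obtain ⟨i, h1⟩ := hv'
    filter_upwards [hnh _ h1, self_mem_nhdsWithin] with t h2 ht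
    refine (HΦ.sum_v h2 (interior_subset h1)).trans ?_
    have h3 := key _ 12 t (R.v_pos i) (by norm_num) (by norm_num)
        (H.v k i ⟨_, ⟨_, he m1, rfl⟩, interior_subset h1⟩) ht
    have h4 : 0 ≤ (1 + 3 * μ) * ∑ j ∈ Finset.univ.erase (K.nrm s),
        |onSeg f e t j - onSeg f e t₀ j| :=
      mul_nonneg (by positivity) (Finset.sum_nonneg fun j _ => abs_nonneg _)
    linarith

end

end Vale.Agent.P073.H212
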