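import Vale.Agent.P073.H236.TZero2

/-!
# P073, H212: the squeeze of a family of boxes, with one factor for every box
-/

open Set Metric Topology Filter

namespace Vale.Agent.P073.H212

open _root_.P073 _root_.P073.H236

/-- **the squeeze** of a locally finite family of boxes `cor (c b) (a b)` with disjoint
neighbourhoods `cor (c b) (a b + q b)` in `Λ`, in the directions `J`, with the factors `lam b` -/
theorem exists_squeezeL {n : ℕ} {ι : Type*} {Λ : Set (Fin n → ℝ)} (hΛ : IsOpen Λ)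
    (J : Finset (Fin n)) {R : ℝ} (lam : ι → ℝ) (hl : ∀ b, 0 < lam b) (hl1 : ∀ b, lam b ≤ 1)
    (hR : 4 ≤ R) (c a : ι → Fin n → ℝ) (ρ : ι → ℝ) (hρ : ∀ b, 0 < ρ b)
    (ha : ∀ b, ∀ j ∈ J, a b j = ρ b)
    (hK : ∀ b, cor (c b) (fun i => a b i + R * ρ b) ⊆ Λ)
    (hdis : ∀ b b', b ≠ b' →
      Disjoint (cor (c b) fun i => a b i + R * ρ b) (cor (c b') fun i => a b' i + R * ρ b'))
    (hfin : ∀ z ∈ Λ, ∃ U ∈ 𝓝 z, {b | ((cor (c b) fun i => a b i + R * ρ b) ∩ U).Nonempty}.Finite) :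
    ∃ T : ConHomeo Λ Λ,
      (∀ b, ∀ y ∈ cor (c b) (a b), ∀ i ∈ J, T.toFun y i = c b i + lam b * (y i - c b i)) ∧
      (∀ y, ∀ i ∉ J, T.toFun y i = y i) ∧
      (∀ y, (∀ b, y ∉ cor (c b) fun i => a b i + R * ρ b) → T.toFun y = y) ∧
      (∀ b, ∀ y ∈ cor (c b) (fun i => a b i + R * ρ b), ∀ i,
        T.toFun y i ∈ uIcc (c b i) (y i) ∧ |T.toFun y i - y i| ≤ ρ b) ∧
      (∀ y y' i, |T.toFun y i - T.toFun y' i| ≤ |y i - y' i| + 4 / R * ‖y - y'‖) := by
  have hR0 : 0 < R := by linarith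
  have h1 : ∀ b, ∃ T, IsSq J (c b) (a b) (ρ b) (R * ρ b) (lam b) T := fun b =>
    exists_isSq J (hρ b) (by have := hρ b; nlinarith) (hl b) (hl1 b) (ha b)
  choose Θ hΘ using h1
  obtain ⟨T, hT1, hT2, -, -⟩ := exists_glue_homeo hΛ Θ
    (fun b => cor (c b) fun i => a b i + R * ρ b) (fun b => (hΘ b).supp) hK hfin
    (fun b b' hbb x hx hx' => absurd hx' (Set.disjoint_left.1 (hdis b b' hbb) hx))
  refine ⟨T, ?_, ?_, hT2, ?_, ?_⟩
  · intro b y hy i hi
    have h3 : y ∈ cor (c b) fun i => a b i + R * ρ b := fun k => by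
      have := hy k
      have h4 := hρ b
      have : 0 ≤ R * ρ b := by positivity
      show |y k - c b k| ≤ a b k + R * ρ b
      linarith
    rw [hT1 b y h3]
    exact (hΘ b).core y hy i hi
  · intro y i hi
    by_cases h : ∃ b, y ∈ cor (c b) fun i => a b i + R * ρ b
    · obtain ⟨b, hb⟩ := h
      rw [hT1 b y hb]; exact (hΘ b).keep y i hi
    · push Not at h
      rw [hT2 y h]
  · intro b y hy i
    rw [hT1 b y hy]
    exact ⟨(hΘ b).mem y i, (hΘ b).disp y i⟩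
  · intro y y' i
    refine lip_glue hdis (fun b => (hΘ b).supp.cont) (fun b x hx => (hΘ b).supp.id x hx) hT1 hT2
      (fun b y y' => ?_) (by positivity) y y'
    have h4 := (hΘ b).lip y y' i
    have h5 : 4 * (ρ b / (R * ρ b)) = 4 / R := by
      have := (hρ b).ne'
      field_simp
    rwa [h5] at h4

end Vale.Agent.P073.H212
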