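import Vale.Agent.P073.H267.K3Last
import Vale.Agent.P073.H31.SK7
import Vale.Agent.P073.H761.AuxQ2
import Vale.Agent.P073.H253.TubeTv3
import Vale.Agent.P073.H212.Hk6
import Vale.Agent.P073.H608.TopS
import Vale.Agent.P073.H919.PEx

/-!
# P073, H212: **[TopL]**, the row of the sharp output at the stage `S5`, with its numbers

* `exists_pk_min`, `exists_yb_min`: one number for every plate / tube, below the numbers of the
  faces which are peeled there / meet its box;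
* `exists_t4L`, `exists_t5L`: the slots (6) and (7);
* `exists_muL`: the slot (2);
* `ShNum`, **`S5.sharp`**: `H212.SharpOut3` for every sufficiently strong collapse of `Y₅.f`.
-/

set_option linter.unusedSectionVars false

open Set Metric Topology Filter MeasureTheory
open scoped ENNReal

namespace Vale.Agent.P073.H267.K3

open _root_.P073 _root_.P073.Net _root_.P073.PA691 _root_.P073.H236 _root_.P073.H579
open _root_.P073.H142 _root_.P073.H429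
open _root_.P073.H345 (PK PB_sub_PK PLev tg)
open _root_.P073.H880.RP
open _root_.P073.FW31
open Vale.Agent.P073.St (V)
open Vale.Agent.P073.H471 Vale.Agent.P073.H267 Vale.Agent.P073.H926
open Vale.Agent.P073.H73 (Mesh onSeg sqr)
open Vale.Agent.P073.H193 (Edges edges)
open Vale.Agent.P073.H304 (Nb Zmax)
open Vale.Agent.P073.H669 (wl)
open Vale.Agent.P073.H233 (Small3 SoftQ Xp FQ Ev EdgeEst)
open Vale.Agent.P073.H31.K3 (FNum1 ShIn NoHang)

variable {c₀ n δ : ℝ} {j : ℕ} {Ω Λ : Set V} {v w : V} {ρ : V → ℝ} {M : Mesh Ω}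
  {h : ConHomeo Ω Λ} {J₀ J : Set (ℕ × (Fin 3 → ℤ))} {P Z : Set M.ι} {K : BoxCx Λ w}
  {D : KIn3 c₀ n j δ v w ρ M h J₀ J P Z} {C : Cells ρ w K} {C₀ μT : ℝ}
  {X : S1 D C C₀ μT} {Y₂ : S2 X} {Ys : Set M.κ} {sc : Sharp} {Y₃ : S3 Y₂ Ys sc}
  {Y₄ : S4 Y₃}

/-- the box of a tube of the last staircase -/
noncomputable abbrev YBr (D : KIn3 c₀ n j δ v w ρ M h J₀ J P Z) (C : Cells ρ w K)
    (b : pG C J₀) : Set V :=
  YB ((YS (D.G C)).add (rT (D.G C)) (rT_pos (D.G C))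
    (fun e k => (YS_p_lt (D.G C) e k).le)
    fun e k => (YS_q_lt (D.G C) e k).le) b.1

/-- one number for every plate, below the numbers of the faces which are peeled there -/
theorem exists_pk_min (X : S1 D C C₀ μT) {g : M.κ → ℝ} (hg : ∀ k, 0 < g k) :
    ∃ m : K.S → ℝ, (∀ s, 0 < m s) ∧ ∀ s k, (D.dat C).PkS (D.G C) X.h1 s k → m s ≤ g k := by
  choose m hm H using fun s : K.S => H608.exists_pos_le (H608.finite_pks X s) hg
  exact ⟨m, hm, fun s k hk => H s k hk⟩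

/-- one number for every tube, below the numbers of the faces whose images meet its box -/
theorem exists_yb_min (D : KIn3 c₀ n j δ v w ρ M h J₀ J P Z) (C : Cells ρ w K)
    (f : ConHomeo Ω Λ) {g : M.κ → ℝ} (hg : ∀ k, 0 < g k) :
    ∃ m : pG C J₀ → ℝ, (∀ b, 0 < m b) ∧
      ∀ b k, (f.toFun '' M.F k ∩ YBr D C b).Nonempty → m b ≤ g k := by
  have hfin : ∀ b : pG C J₀, {k | (f.toFun '' M.F k ∩ YBr D C b).Nonempty}.Finite := by
    intro b
    have hsub : YBr D C b ⊆ Λ := YB_sub _ _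
    have hcpt : IsCompact (f.invFun '' YBr D C b) :=
      isCompact_Icc.image_of_continuousOn (f.cont_inv.mono hsub)
    have hΩ : f.invFun '' YBr D C b ⊆ Ω := by
      rintro _ ⟨y, hy, rfl⟩
      exact f.mapsTo_inv (hsub hy)
    refine (M.ffin _ hΩ hcpt).subset ?_
    rintro k ⟨_, ⟨x, hx, rfl⟩, hxs⟩
    exact ⟨x, hx, f.toFun x, hxs, f.left_inv (Vale.Agent.P073.H193.mesh_sub M k hx)⟩
  choose m hm H using fun b : pG C J₀ => H608.exists_pos_le (hfin b) hg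
  exact ⟨m, hm, fun b k hk => H b k hk⟩

/-- **slot (2)**: the displacement of ROUND P against the windows -/
theorem exists_muL (D : KIn3 c₀ n j δ v w ρ M h J₀ J P Z) (C : Cells ρ w K) :
    ∃ m : K.S → ℝ, (∀ s, 0 < m s) ∧ ∀ s β, m s ≤ n / 256 * wl (D.G C) s β := by
  have hn := D.pos
  refine ⟨fun s => n / 256 * (63 * (D.G C).a s), fun s => ?_, fun s β => ?_⟩
  · have := (D.G C).a_pos s
    positivity
  · exact mul_le_mul_of_nonneg_left (H669.wl_pos (D.G C) s β).le (by positivity)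

/-- **slot (6)**: the tolerance of the second staircases of ROUND P -/
theorem exists_t4L (X : S1 D C C₀ μT) {τ : M.κ → ℝ} (hτ : ∀ k, 0 < τ k) :
    ∃ m : (D.dat C).S₀ → ℝ, (∀ s, 0 < m s) ∧
      ∀ (s : K.S) (k : M.κ) (hk : (D.dat C).PkS (D.G C) X.h1 s k), 16 * m ⟨s, hk.1⟩ ≤ τ k := by
  obtain ⟨m, hm, H⟩ := exists_pk_min X (g := fun k => τ k / 16) fun k => by
    have := hτ k
    positivity
  refine ⟨fun s => m s.1, fun s => hm s.1, fun s k hk => ?_⟩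
  have := H s k hk
  show 16 * m s ≤ τ k
  linarith

/-- local Lipschitz constants of `h4` over the boxes of the tubes -/
theorem exists_K4 (Y₃ : S3 Y₂ Ys sc) : ∃ K₄ : pG C J₀ → ℝ, (∀ b, 0 < K₄ b) ∧
    ∀ b : pG C J₀, ∀ x ∈ Ω, Y₃.h4.toFun x ∈ YBr D C b →
      ∀ᶠ y in 𝓝 x, ‖Y₃.h4.toFun y - Y₃.h4.toFun x‖ ≤ K₄ b * ‖y - x‖ := by
  choose K₄ h0 h1 using fun b : pG C J₀ =>
    _root_.P073.H919.exists_lip_over D.bΩ.1 Y₃.h4 (C := YBr D C b) isCompact_Icc (YB_sub _ _)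
  exact ⟨K₄, h0, h1⟩

/-- the numbers of the staircase of the tubes for the auxiliary map -/
def QNum (Y₃ : S3 Y₂ Ys sc) (ε : M.κ → ℝ) (K₄ εb : pG C J₀ → ℝ) : Prop :=
  (∀ b, 0 < K₄ b) ∧ (∀ b, 0 < εb b) ∧
  (∀ b : pG C J₀, ∀ x ∈ Ω, Y₃.h4.toFun x ∈ YBr D C b →
      ∀ᶠ y in 𝓝 x, ‖Y₃.h4.toFun y - Y₃.h4.toFun x‖ ≤ K₄ b * ‖y - x‖) ∧
  ∀ b k, (Y₃.h4.toFun '' M.F k ∩ YBr D C b).Nonempty → εb b * (1 + diam (M.F k)) ≤ ε k / 8

/-- **slot (7)**: the tolerance of the last staircase, for `f` and for the auxiliary map -/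
theorem exists_t5L (Y₄ : S4 Y₃) {τ ε : M.κ → ℝ} (hτ : ∀ k, 0 < τ k) (hε : ∀ k, 0 < ε k) :
    ∃ m : pG C J₀ → ℝ, (∀ b, 0 < m b) ∧
      (∀ b k, (Y₄.f5.toFun '' M.F k ∩ YBr D C b).Nonempty →
        16 * m b ≤ τ k ∧ m b * (1 + diam (M.F k)) ≤ ε k / 8) ∧
      ∃ K₄ εb : pG C J₀ → ℝ, QNum Y₃ ε K₄ εb ∧ ∀ b, m b ≤ εb b / K₄ b := by
  have hd : ∀ k : M.κ, 0 < 1 + diam (M.F k) := fun k => by
    have : 0 ≤ diam (M.F k) := diam_nonneg
    linarith
  obtain ⟨m1, h1, H1⟩ := exists_yb_min D C Y₄.f5 hτ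
  obtain ⟨m2, h2, H2⟩ := exists_yb_min D C Y₄.f5 (g := fun k => ε k / 8 / (1 + diam (M.F k)))
    fun k => by
      have := hd k
      have := hε k
      positivity
  obtain ⟨m3, h3, H3⟩ := exists_yb_min D C Y₃.h4 (g := fun k => ε k / 8 / (1 + diam (M.F k)))
    fun k => by
      have := hd k
      have := hε k
      positivity
  obtain ⟨K₄, h4, H4⟩ := exists_K4 Y₃
  refine ⟨fun b => min (min (m1 b / 16) (m2 b)) (m3 b / K₄ b), fun b => ?_, fun b k hk => ⟨?_, ?_⟩,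
    K₄, m3, ⟨h4, h3, H4, fun b k hk => ?_⟩, fun b => min_le_right _ _⟩
  · have := h1 b
    have := h3 b
    have := h4 b
    exact lt_min (lt_min (by positivity) (h2 b)) (by positivity)
  · have a1 : min (min (m1 b / 16) (m2 b)) (m3 b / K₄ b) ≤ m1 b / 16 :=
      (min_le_left _ _).trans (min_le_left _ _)
    have a2 := H1 b k hk
    linarith
  · have a1 : min (min (m1 b / 16) (m2 b)) (m3 b / K₄ b) ≤ m2 b :=
      (min_le_left _ _).trans (min_le_right _ _)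
    have a2 := H2 b k hk
    rw [le_div_iff₀ (hd k)] at a2
    exact (mul_le_mul_of_nonneg_right a1 (hd k).le).trans a2
  · have a2 := H3 b k hk
    rwa [le_div_iff₀ (hd k)] at a2

/-- **the tolerance of the faces**: below `ν`, `ε k`, the lengths of the edges -/
theorem exists_tauL {bn : (edges M).ε → ℝ} (hbn : ∀ e, 0 < bn e) {ε : M.κ → ℝ}
    (hε : ∀ k, 0 < ε k) {ν : ℝ} (hν : 0 < ν) :
    ∃ τ : M.κ → ℝ, (∀ k, 0 < τ k) ∧ (∀ k, τ k ≤ ν) ∧ (∀ k, τ k * diam (M.F k) ≤ ε k / 4) ∧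
      ∀ k e, (edges M).seg e ⊆ M.F k → τ k * ‖(edges M).b e - (edges M).a e‖ ≤ bn e := by
  have hd : ∀ k : M.κ, 0 < 1 + diam (M.F k) := fun k => by
    have : 0 ≤ diam (M.F k) := diam_nonneg
    linarith
  have hl : ∀ e : (edges M).ε, 0 < 1 + ‖(edges M).b e - (edges M).a e‖ := fun e => by positivity
  choose m hm H using fun k : M.κ => H608.exists_pos_le ((edges M).fin_face k)
    (f := fun e => bn e / (1 + ‖(edges M).b e - (edges M).a e‖)) fun e => div_pos (hbn e) (hl e)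
  refine ⟨fun k => min (min ν (ε k / 4 / (1 + diam (M.F k)))) (m k), fun k => ?_,
    fun k => (min_le_left _ _).trans (min_le_left _ _), fun k => ?_, fun k e he => ?_⟩
  · have := hd k
    have := hε k
    exact lt_min (lt_min hν (by positivity)) (hm k)
  · have h1 : min (min ν (ε k / 4 / (1 + diam (M.F k)))) (m k) ≤ ε k / 4 / (1 + diam (M.F k)) :=
      (min_le_left _ _).trans (min_le_right _ _)
    have h2 : 0 ≤ diam (M.F k) := diam_nonneg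
    have h3 : ε k / 4 / (1 + diam (M.F k)) * diam (M.F k) ≤ ε k / 4 := by
      rw [div_mul_eq_mul_div, div_le_iff₀ (hd k)]
      have := (hε k).le
      nlinarith
    exact (mul_le_mul_of_nonneg_right h1 h2).trans h3
  · have h1 : min (min ν (ε k / 4 / (1 + diam (M.F k)))) (m k) ≤
        bn e / (1 + ‖(edges M).b e - (edges M).a e‖) := (min_le_right _ _).trans (H k e he)
    have h2 := norm_nonneg ((edges M).b e - (edges M).a e)
    have h3 : bn e / (1 + ‖(edges M).b e - (edges M).a e‖) * ‖(edges M).b e - (edges M).a e‖ ≤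
        bn e := by
      rw [div_mul_eq_mul_div, div_le_iff₀ (hl e)]
      have := (hbn e).le
      nlinarith
    exact (mul_le_mul_of_nonneg_right h1 h2).trans h3

/-- **slot (4)**: the rest terms of the staircases -/
theorem exists_nuL {ε : M.κ → ℝ} (hε : ∀ k, 0 < ε k) {ν : ℝ} (hν : 0 < ν) :
    ∃ ν' : M.κ → ℝ, (∀ k, 0 < ν' k) ∧ (∀ k, ν' k ≤ ν) ∧
      ∀ k, 4 * ν' k * diam (M.F k) ≤ ε k / 4 := by
  have hd : ∀ k : M.κ, 0 < 1 + diam (M.F k) := fun k => by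
    have : 0 ≤ diam (M.F k) := diam_nonneg
    linarith
  refine ⟨fun k => min ν (ε k / 16 / (1 + diam (M.F k))), fun k => ?_, fun k => min_le_left _ _,
    fun k => ?_⟩
  · have := hd k
    have := hε k
    exact lt_min hν (by positivity)
  · have h1 : min ν (ε k / 16 / (1 + diam (M.F k))) ≤ ε k / 16 / (1 + diam (M.F k)) :=
      min_le_right _ _
    have h2 : 0 ≤ diam (M.F k) := diam_nonneg
    have h3 : ε k / 16 / (1 + diam (M.F k)) * diam (M.F k) ≤ ε k / 16 := by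
      rw [div_mul_eq_mul_div, div_le_iff₀ (hd k)]
      have := (hε k).le
      nlinarith
    have h4 := mul_le_mul_of_nonneg_right h1 h2
    show 4 * min ν (ε k / 16 / (1 + diam (M.F k))) * diam (M.F k) ≤ ε k / 4
    linarith

/-- **slot (5)**: the walls of the staircases -/
theorem S2.eL_pos (Y₂ : S2 X) (s : K.S) : 0 < n / 4096 * Y₂.Lw.om s false := by
  have h1 := D.pos
  have h2 : 0 < Y₂.Lw.om s false := stp_pos (Y₂.L.bx false s)
  positivity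

/-! ### the row -/

/-- **the numbers of the sharp row** (besides `RowNum`): `ν` from `FNum1` -/
structure ShNum (Y₅ : S5 Y₄) (τ ε : M.κ → ℝ) (ν : ℝ) : Prop where
  ε0 : ∀ k, 0 < ε k
  μT0 : 0 ≤ μT
  μT1 : μT ≤ n / 128
  η : Y₂.η ≤ n / 1024
  muP : ∀ s β, Y₂.muP s ≤ n / 256 * wl (D.G C) s β
  e : ∀ β (s : (D.dat C).S₀), Y₃.e β s ≤ n / 4096 * Y₂.Lw.om s.1 false
  nν : 31 / 32 * n ≤ ν
  nρ : 1 + n / 64 ≤ 1 + sc.ρ / 64
  νν : ∀ k, Y₃.ν k ≤ ν
  νε : ∀ k, 4 * Y₃.ν k * diam (M.F k) ≤ ε k / 4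
  τν : ∀ k, τ k ≤ ν
  τε : ∀ k, τ k * diam (M.F k) ≤ ε k / 4
  εe : ∀ k e, (edges M).seg e ⊆ M.F k → 8 * X.εe e ≤ ε k
  εE : ∀ k e, (edges M).seg e ⊆ M.F k → 8 * (2 * Y₂.εE e) ≤ ε k
  εE' : ∀ e, 4 * Y₂.εE e ≤ sc.ρ / 64 * ‖(edges M).b e - (edges M).a e‖
  sm : ∀ s k, (D.dat C).PkS (D.G C) X.h1 s k → ∀ (a : V) (σ : ℝ), 0 < σ →
    M.F k = sqr a (K.nrm s) σ → Y₂.Lw.om s false ≤ sc.ρ / 4 * (2 * σ)
  εb : ∀ b k, (Y₄.f5.toFun '' M.F k ∩ YBr D C b).Nonempty →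
    Y₅.ε b * (1 + diam (M.F k)) ≤ ε k / 8
  q : ∃ K₄ εb : pG C J₀ → ℝ, QNum Y₃ ε K₄ εb ∧ ∀ b, Y₅.ε b ≤ εb b / K₄ b

/-- **[SHARP ROW]**: the sharp output for every sufficiently strong collapse of `Y₅.f` -/
theorem S5.sharp (Y₅ : S5 Y₄) {τ ε : M.κ → ℝ} {t4 : (D.dat C).S₀ → ℝ} {t5 : pG C J₀ → ℝ}
    (N : RowNum Y₅ τ ε t4 t5) {ν p μ r : ℝ} (H : ShNum Y₅ τ ε ν) (N1 : FNum1 p μ r sc ν)
    {om εL : (edges M).ε → ℝ} {lam osc : M.ι → ℝ} (T : H233.Tol M h.toFun ε om εL lam osc)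
    {D₀ D₁ Dq : ℝ} (hD₀ : 1 ≤ D₀) (hD₁ : 84 * C₀ ≤ D₁) (hD₁' : 8192 ≤ D₁)
    (hDq : 160 * D₁ ≤ Dq) (hDq' : 8 * (1 + D₀) + 16 * D₁ ≤ Dq)
    (hedge : ∀ k e, (edges M).seg e ⊆ M.F k → (∃ i ∈ P, (edges M).seg e ⊆ M.Q i) ∨
      Ev (D.B C) (Xp C J₀) (20 / (1 / μN n)) M Y₅.fq.toFun (.inl k)
        (EdgeEst h.toFun Y₅.fq.toFun D₀ (om e) e)) :
    ∃ t₀ : M.κ ⊕ M.ι → ℝ, (∀ a, 0 < t₀ a) ∧ ∀ (R : Fac K) (N t : M.κ ⊕ M.ι → ℝ)
      (Φ : ConHomeo Λ Λ), (∀ a, 0 < t a) → (∀ a, t a ≤ t₀ a) →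
      Small3 (D.W C) (Xp C J₀) R Y₅.f.toFun (FQ M) N t → SoftQ D C R Φ →
      H212.SharpOut3 p Dq c₀ δ μ r w ρ M h.toFun J₀ Ys ε (Y₅.f.trans Φ) := by
  have hn := D.pos
  have hn1 := D.nle
  have hn2 := D.le
  have hμ1 : ∀ b, Y₅.μ b ≤ 1 := fun b => by
    have := N.μn b
    linarith
  have hμ2 : ∀ b, Y₅.μ b ≤ n / 128 := fun b => by
    have := N.μn b
    linarith
  have hμu : ∀ b : pG C J₀, Y₅.μ b * (ebe (D.W C) b.1 - eal (D.W C) b.1) ≤
      (D.G C).uT b.1 / 4 := fun b => by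
    have h1 := N.μu b
    have h2 := (D.G C).uT_pos b.1
    nlinarith
  have IN := Vale.Agent.P073.H31.K3.shIn_of Y₃ (c := n / 64) (by positivity) (by linarith)
    (by have := H.η; linarith) fun s _ _ β => by
      have := H.muP s β
      have e1 : n / 64 / 4 = n / 256 := by ring
      rw [e1]
      exact this
  obtain ⟨K₄, εb, ⟨hK0, hεb0, hK₄, hεb⟩, hm⟩ := H.q
  have hN := H212.K3.num_A D
  refine Vale.Agent.P073.H31.K3.sharp3 Y₅ IN (Vale.Agent.P073.H31.K3.deepIn_noHang C) N1 H.ε0 T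
    hD₀ (by linarith) (Y₅.preQ N.C₀1 (Y₃.theta_of N.Ds N.cs) N.μ0 hμ1 hμu hD₁ hD₁' hedge) hDq hDq'
    (μg := 31 / 32 * n) (τg := τ) (by positivity) H.nν (fun k => (N.τ0 k).le) H.τν
    ⟨Sum.elim (fun k => τ k / 16) fun _ => 1, fun a => ?_, fun R N' t Φ h0 ht HS HΦ => ?_⟩
    (m := 31 / 96 * n) (by positivity) (by have := H.nν; linarith) (by linarith)
    (fun R N' t Φ h0 HS HΦ s k hk => ?_)
    (H253.Tube.tvTube_g Y₅ H.μT0 H.μT1 N.μ0 hμ2 H.ε0 H.εe H.εb)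
    (H253.Tube.tvTube_fq Y₅ H.μT0 H.μT1 N.μ0 hμ2 H.ε0 H.εe hK₄
      (H253.Tube.sK4_le Y₅ hK0 hm) hεb) ?_ ?_ H.nρ H.νν H.νε H.τε H.εE
    (fun e => ?_) H.sm
  · rcases a with k | i
    · have := N.τ0 k
      show 0 < τ k / 16
      positivity
    · exact one_pos
  · exact H212.K3.l1_top Y₅ (om0 := fun s => Y₂.Lw.om s false)
      (fun s _ β => Y₂.Lw.om_eq s β false) N.q N.r H.e N.μ0 N.μn N.μu N.τ0 N.ε5 N.ε6 R N' t Φ h0
      (fun k => ht (.inl k)) HS HΦ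
  · refine Vale.Agent.P073.H31.K3.locEst_fq Y₅ (μ₂ := n / 256) (κ := n / 256) N.μ0 N.μn
      (by positivity) (by positivity) N.μu ?_ h0 HS HΦ s k hk
    have e1 : 20 / (1 / μN n) = 20 * (n / 64) := by
      unfold μN
      field_simp
    rw [e1]
    nlinarith
  · have e1 : 1 + 3 * (31 / 96 * n) = 1 + 31 / 32 * n := by ring
    rw [e1]
    exact hN
  · exact hN
  · have := H.εE' e
    linarith

end Vale.Agent.P073.H267.K3
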